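-- KEEP
import Claimed.Agent.R252.S8.Hubs
import Claimed.Agent.R252.S7b.P5Band
import Claimed.Agent.R252.S4E.Contract

/-!
# Row 252 (Kakeya in R^4), Sec. 8, l.331-597 (L8.4 `a07:full-time-comparison`; first third of the bootstrap step): DEFINITIONS AND ALGEBRA      (sub-architect helper114; prefix `k8p` / `K8p`)

No sorry in this file.   Everything is over the one-scale record `H : K7bHor`, `c : K7bPar` (helper95) and the labels `F : K8Lab H` (helper182, `S8/Defs.lean`).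
* `K8Pr.sub`, `K8Pr.l1`, `K8Pr.resc`, `K8Pr.code` : the 6-dimensional space of predictors `(c0 + c1 t) + (p0 + p1 t) p + (q0 + q1 t) q`: difference, `ℓ¹` norm of the coefficients, affine change of variables, bins of the coefficients.
* `k8pCal L v`          the calligraphic form `𝓛(t,P) = L(t, p + t v, q₀ - t p)` of an affine entry AS A PREDICTOR (`k8p_ev_cal`).
* THE DOMAIN of an incidence `z` at the depth `s`, width `D` : (block of the true label of `z`) × (parameter cell of the group of `z`).   `H.sc c s D z f` = the predictor `f` in the SCALED variables `(τ, y₁, y₂) ∈ [0,1)³` of the domain,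
  `H.uT`, `H.uP`, `H.uQ` = the scaled coordinates of `z` itself.
* `F.dis c s D z`       THE DISCREPANCY = `ℓ¹` norm of the scaled difference `𝓛_z - H₀_z`  (equivalent to the sup norm on the domain: `k8p_ev_le_l1`, `k8p_l1_le`).
* `H.tGI c s D z`       the weight `T_{GI} = |I| W_G a_s^d` of the domain.     `F.ev1`, `H.ev2` : the events "same domain, same predictor", "same group, same true label, same entry".
* `K8pRel c K s D n`    the relations between the slack, the depth, the width, the jitter mesh `1/n` and the prepared meshes (they hold eventually: `K` subpower, meshes fixed powers).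
* `K8pHM`               the hub consumed from Sec. 3 (Cor 3.4 for three base variables).
-/

set_option autoImplicit false

namespace Claimed.Agent.R252

open MeasureTheory
open scoped ENNReal BigOperators

noncomputable section

/-! ## 1. The space of predictors -/

namespace K8Pr

/-- difference -/
def sub (f g : K8Pr) : K8Pr := ⟨f.c0 - g.c0, f.c1 - g.c1, f.p0 - g.p0, f.p1 - g.p1, f.q0 - g.q0, f.q1 - g.q1⟩

/-- the `ℓ¹` norm of the coefficients -/
def l1 (f : K8Pr) : ℝ := |f.c0| + |f.c1| + |f.p0| + |f.p1| + |f.q0| + |f.q1|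

/-- `f (t0 + lam τ, pc + D y₁, qc + D y₂)` as a predictor in `(τ, y₁, y₂)` -/
def resc (f : K8Pr) (t0 lam pc qc D : ℝ) : K8Pr :=
  ⟨f.c0 + f.c1 * t0 + (f.p0 + f.p1 * t0) * pc + (f.q0 + f.q1 * t0) * qc, lam * (f.c1 + f.p1 * pc + f.q1 * qc),
    D * (f.p0 + f.p1 * t0), D * lam * f.p1, D * (f.q0 + f.q1 * t0), D * lam * f.q1⟩

/-- the bins of mesh `M` of the six coefficients -/
def code (M : ℝ) (f : K8Pr) : Fin 6 → ℤ := ![⌊f.c0 / M⌋, ⌊f.c1 / M⌋, ⌊f.p0 / M⌋, ⌊f.p1 / M⌋, ⌊f.q0 / M⌋, ⌊f.q1 / M⌋]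

/-- a constant shift -/
def shift (f : K8Pr) (b : ℝ) : K8Pr := ⟨f.c0 + b, f.c1, f.p0, f.p1, f.q0, f.q1⟩

end K8Pr

/-- the calligraphic form of an affine entry as a predictor -/
def k8pCal (L : ℝ × ℝ × ℝ × ℝ) (v : ℝ) : K8Pr := ⟨L.1, L.2.1 + L.2.2.1 * v, L.2.2.1, -L.2.2.2, L.2.2.2, 0⟩

theorem k8p_ev_sub (f g : K8Pr) (t p q : ℝ) : (f.sub g).ev t p q = f.ev t p q - g.ev t p q := by
  simp only [K8Pr.ev, K8Pr.sub]; ring

theorem k8p_ev_shift (f : K8Pr) (b t p q : ℝ) : (f.shift b).ev t p q = f.ev t p q + b := by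
  simp only [K8Pr.ev, K8Pr.shift]; ring

theorem k8p_ev_resc (f : K8Pr) (t0 lam pc qc D τ y1 y2 : ℝ) :
    (f.resc t0 lam pc qc D).ev τ y1 y2 = f.ev (t0 + lam * τ) (pc + D * y1) (qc + D * y2) := by
  simp only [K8Pr.ev, K8Pr.resc]; ring

theorem k8p_resc_sub (f g : K8Pr) (t0 lam pc qc D : ℝ) :
    (f.sub g).resc t0 lam pc qc D = (f.resc t0 lam pc qc D).sub (g.resc t0 lam pc qc D) := by
  simp only [K8Pr.sub, K8Pr.resc, K8Pr.mk.injEq]
  refine ⟨by ring, by ring, by ring, by ring, by ring, by ring⟩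

theorem k8p_ev_cal (L : ℝ × ℝ × ℝ × ℝ) (v t p q : ℝ) : (k8pCal L v).ev t p q = k8Cal L v t p q := by
  simp only [K8Pr.ev, k8pCal, k8Cal, k7bAff]; ring

theorem k8p_l1_nonneg (f : K8Pr) : 0 ≤ f.l1 := by unfold K8Pr.l1; positivity

/-- triangle inequality -/
theorem k8p_l1_tri (f g h : K8Pr) : (f.sub h).l1 ≤ (f.sub g).l1 + (g.sub h).l1 := by
  simp only [K8Pr.l1, K8Pr.sub]
  have e : ∀ a b c : ℝ, |a - c| ≤ |a - b| + |b - c| := fun a b c => abs_sub_le a b c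
  linarith [e f.c0 g.c0 h.c0, e f.c1 g.c1 h.c1, e f.p0 g.p0 h.p0, e f.p1 g.p1 h.p1, e f.q0 g.q0 h.q0, e f.q1 g.q1 h.q1]

theorem k8p_l1_comm (f g : K8Pr) : (f.sub g).l1 = (g.sub f).l1 := by
  simp only [K8Pr.l1, K8Pr.sub]
  rw [abs_sub_comm f.c0, abs_sub_comm f.c1, abs_sub_comm f.p0, abs_sub_comm f.p1, abs_sub_comm f.q0, abs_sub_comm f.q1]

/-- the value on `[0,1] × [-b, b+1]²`-type boxes: `|τ| ≤ 1`, `|y| ≤ B` -/
theorem k8p_ev_le (f : K8Pr) {τ y1 y2 B : ℝ} (hB : 1 ≤ B) (h0 : |τ| ≤ 1) (h1 : |y1| ≤ B) (h2 : |y2| ≤ B) : |f.ev τ y1 y2| ≤ B * f.l1 := by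
  have a1 : |f.c1 * τ| ≤ |f.c1| := by rw [abs_mul]; exact mul_le_of_le_one_right (abs_nonneg _) h0
  have a2 : |f.p1 * τ| ≤ |f.p1| := by rw [abs_mul]; exact mul_le_of_le_one_right (abs_nonneg _) h0
  have a3 : |f.q1 * τ| ≤ |f.q1| := by rw [abs_mul]; exact mul_le_of_le_one_right (abs_nonneg _) h0
  have b1 : |(f.p0 + f.p1 * τ) * y1| ≤ (|f.p0| + |f.p1|) * B := by
    rw [abs_mul]
    exact mul_le_mul ((abs_add_le _ _).trans (by linarith)) h1 (abs_nonneg _) (by positivity)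
  have b2 : |(f.q0 + f.q1 * τ) * y2| ≤ (|f.q0| + |f.q1|) * B := by
    rw [abs_mul]
    exact mul_le_mul ((abs_add_le _ _).trans (by linarith)) h2 (abs_nonneg _) (by positivity)
  have b0 : |f.c0 + f.c1 * τ| ≤ (|f.c0| + |f.c1|) * B := by
    have : |f.c0 + f.c1 * τ| ≤ |f.c0| + |f.c1| := (abs_add_le _ _).trans (by linarith)
    have h3 : 0 ≤ |f.c0| + |f.c1| := by positivity
    nlinarith
  unfold K8Pr.ev K8Pr.l1
  calc |f.c0 + f.c1 * τ + (f.p0 + f.p1 * τ) * y1 + (f.q0 + f.q1 * τ) * y2|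
      ≤ |f.c0 + f.c1 * τ| + |(f.p0 + f.p1 * τ) * y1| + |(f.q0 + f.q1 * τ) * y2| := abs_add_three _ _ _
    _ ≤ B * (|f.c0| + |f.c1| + |f.p0| + |f.p1| + |f.q0| + |f.q1|) := by nlinarith

/-- the value on the unit cube -/
theorem k8p_ev_le_l1 (f : K8Pr) {τ y1 y2 : ℝ} (h0 : |τ| ≤ 1) (h1 : |y1| ≤ 1) (h2 : |y2| ≤ 1) : |f.ev τ y1 y2| ≤ f.l1 := by
  have := k8p_ev_le f le_rfl h0 h1 h2
  linarith

/-- the coefficients are controlled by the values at the vertices of the unit cube -/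
theorem k8p_l1_le (f : K8Pr) {B : ℝ} (h000 : |f.ev 0 0 0| ≤ B) (h100 : |f.ev 1 0 0| ≤ B) (h010 : |f.ev 0 1 0| ≤ B) (h110 : |f.ev 1 1 0| ≤ B)
    (h001 : |f.ev 0 0 1| ≤ B) (h101 : |f.ev 1 0 1| ≤ B) : f.l1 ≤ 15 * B := by
  simp only [K8Pr.ev] at h000 h100 h010 h110 h001 h101
  rw [abs_le] at h000 h100 h010 h110 h001 h101
  have e0 : |f.c0| ≤ B := abs_le.2 ⟨by linarith [h000.1], by linarith [h000.2]⟩
  have e1 : |f.c1| ≤ 2 * B := abs_le.2 ⟨by linarith [h000.2, h100.1], by linarith [h000.1, h100.2]⟩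
  have e2 : |f.p0| ≤ 2 * B := abs_le.2 ⟨by linarith [h000.2, h010.1], by linarith [h000.1, h010.2]⟩
  have e3 : |f.p1| ≤ 4 * B := abs_le.2 ⟨by linarith [h000.1, h100.2, h010.2, h110.1], by linarith [h000.2, h100.1, h010.1, h110.2]⟩
  have e4 : |f.q0| ≤ 2 * B := abs_le.2 ⟨by linarith [h000.2, h001.1], by linarith [h000.1, h001.2]⟩
  have e5 : |f.q1| ≤ 4 * B := abs_le.2 ⟨by linarith [h000.1, h100.2, h001.2, h101.1], by linarith [h000.2, h100.1, h001.1, h101.2]⟩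
  unfold K8Pr.l1
  linarith

/-- oscillation on the unit cube -/
theorem k8p_ev_osc (f : K8Pr) {τ y1 y2 τ' y1' y2' η : ℝ} (h0 : |τ| ≤ 1) (h1' : |y1'| ≤ 1) (h2' : |y2'| ≤ 1)
    (d0 : |τ - τ'| ≤ η) (d1 : |y1 - y1'| ≤ η) (d2 : |y2 - y2'| ≤ η) : |f.ev τ y1 y2 - f.ev τ' y1' y2'| ≤ 2 * f.l1 * η := by
  have hη : 0 ≤ η := (abs_nonneg _).trans d0
  have e : f.ev τ y1 y2 - f.ev τ' y1' y2'
      = (f.c1 + f.p1 * y1' + f.q1 * y2') * (τ - τ') + (f.p0 + f.p1 * τ) * (y1 - y1') + (f.q0 + f.q1 * τ) * (y2 - y2') := by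
    simp only [K8Pr.ev]; ring
  have a1 : |f.p1 * y1'| ≤ |f.p1| := by rw [abs_mul]; exact mul_le_of_le_one_right (abs_nonneg _) h1'
  have a2 : |f.q1 * y2'| ≤ |f.q1| := by rw [abs_mul]; exact mul_le_of_le_one_right (abs_nonneg _) h2'
  have a3 : |f.p1 * τ| ≤ |f.p1| := by rw [abs_mul]; exact mul_le_of_le_one_right (abs_nonneg _) h0
  have a4 : |f.q1 * τ| ≤ |f.q1| := by rw [abs_mul]; exact mul_le_of_le_one_right (abs_nonneg _) h0
  have b1 : |(f.c1 + f.p1 * y1' + f.q1 * y2') * (τ - τ')| ≤ (|f.c1| + |f.p1| + |f.q1|) * η := by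
    rw [abs_mul]
    exact mul_le_mul ((abs_add_three _ _ _).trans (by linarith)) d0 (abs_nonneg _) (by positivity)
  have b2 : |(f.p0 + f.p1 * τ) * (y1 - y1')| ≤ (|f.p0| + |f.p1|) * η := by
    rw [abs_mul]
    exact mul_le_mul ((abs_add_le _ _).trans (by linarith)) d1 (abs_nonneg _) (by positivity)
  have b3 : |(f.q0 + f.q1 * τ) * (y2 - y2')| ≤ (|f.q0| + |f.q1|) * η := by
    rw [abs_mul]
    exact mul_le_mul ((abs_add_le _ _).trans (by linarith)) d2 (abs_nonneg _) (by positivity)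
  rw [e]
  refine (abs_add_three _ _ _).trans ?_
  unfold K8Pr.l1
  have : 0 ≤ |f.c0| * η := by positivity
  have : 0 ≤ |f.c1| * η := by positivity
  have : 0 ≤ |f.p0| * η := by positivity
  have : 0 ≤ |f.q0| * η := by positivity
  nlinarith

theorem k8p_floor_same {M x y : ℝ} (hM : 0 < M) (h : ⌊x / M⌋ = ⌊y / M⌋) : |x - y| ≤ M := by
  have h1 := Int.abs_sub_lt_one_of_floor_eq_floor h
  rw [← sub_div, abs_div, abs_of_pos hM, div_lt_one hM] at h1
  exact h1.le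

theorem k8p_floor_near {M x y : ℝ} (hM : 0 < M) (h : |x - y| < 2 * M) : |⌊x / M⌋ - ⌊y / M⌋| ≤ 2 := by
  have h1 : |x / M - y / M| < 2 := by
    rw [← sub_div, abs_div, abs_of_pos hM, div_lt_iff₀ hM]; exact h
  rw [abs_lt] at h1
  have a1 := Int.floor_le (x / M)
  have a2 := Int.lt_floor_add_one (x / M)
  have b1 := Int.floor_le (y / M)
  have b2 := Int.lt_floor_add_one (y / M)
  rw [abs_le]
  constructor
  · have : (-3 : ℝ) < (⌊x / M⌋ : ℝ) - (⌊y / M⌋ : ℝ) := by linarith [h1.1]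
    have h3 : (-3 : ℤ) < ⌊x / M⌋ - ⌊y / M⌋ := by exact_mod_cast this
    omega
  · have : (⌊x / M⌋ : ℝ) - (⌊y / M⌋ : ℝ) < 3 := by linarith [h1.2]
    have h3 : ⌊x / M⌋ - ⌊y / M⌋ < (3 : ℤ) := by exact_mod_cast this
    omega

/-- same code: close -/
theorem k8p_code_same {M : ℝ} (hM : 0 < M) {f g : K8Pr} (h : f.code M = g.code M) : (f.sub g).l1 ≤ 6 * M := by
  have h0 := k8p_floor_same hM (by simpa [K8Pr.code] using congrFun h 0 : ⌊f.c0 / M⌋ = ⌊g.c0 / M⌋)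
  have h1 := k8p_floor_same hM (by simpa [K8Pr.code] using congrFun h 1 : ⌊f.c1 / M⌋ = ⌊g.c1 / M⌋)
  have h2 := k8p_floor_same hM (by simpa [K8Pr.code] using congrFun h 2 : ⌊f.p0 / M⌋ = ⌊g.p0 / M⌋)
  have h3 := k8p_floor_same hM (by simpa [K8Pr.code] using congrFun h 3 : ⌊f.p1 / M⌋ = ⌊g.p1 / M⌋)
  have h4 := k8p_floor_same hM (by simpa [K8Pr.code] using congrFun h 4 : ⌊f.q0 / M⌋ = ⌊g.q0 / M⌋)
  have h5 := k8p_floor_same hM (by simpa [K8Pr.code] using congrFun h 5 : ⌊f.q1 / M⌋ = ⌊g.q1 / M⌋)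
  simp only [K8Pr.l1, K8Pr.sub]
  linarith

/-- close: neighbouring codes -/
theorem k8p_code_near {M : ℝ} (hM : 0 < M) {f g : K8Pr} (h : (f.sub g).l1 < 2 * M) (i : Fin 6) : |f.code M i - g.code M i| ≤ 2 := by
  simp only [K8Pr.l1, K8Pr.sub] at h
  have p0 := abs_nonneg (f.c0 - g.c0)
  have p1 := abs_nonneg (f.c1 - g.c1)
  have p2 := abs_nonneg (f.p0 - g.p0)
  have p3 := abs_nonneg (f.p1 - g.p1)
  have p4 := abs_nonneg (f.q0 - g.q0)
  have p5 := abs_nonneg (f.q1 - g.q1)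
  fin_cases i
  · exact k8p_floor_near hM (by linarith)
  · exact k8p_floor_near hM (by linarith)
  · exact k8p_floor_near hM (by linarith)
  · exact k8p_floor_near hM (by linarith)
  · exact k8p_floor_near hM (by linarith)
  · exact k8p_floor_near hM (by linarith)

/-! ## 2. The domain of an incidence -/

namespace K7bHor

variable (H : K7bHor)

/-- the predictor `f` in the scaled variables of the domain of `z` : `t = bt + bl τ`, `p = (i + y₁) D`, `q₀ = (j + y₂) D` -/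
def sc (c : K7bPar) (s D : ℝ) (z : H.Lam × ℝ) (f : K8Pr) : K8Pr :=
  f.resc (H.bt (H.lab s z)) (H.bl (H.lab s z)) ((H.grp c.χ D z.1).2.1 * D) ((H.grp c.χ D z.1).2.2 * D) D

/-- the calligraphic form of the affine entry of `z`, velocity = corner of the velocity bin -/
def cal (c : K7bPar) (s D : ℝ) (z : H.Lam × ℝ) : K8Pr := k8pCal (H.entOf s z) ((H.grp c.χ D z.1).1 * c.χ)

/-- the scaled coordinates of `z` in its domain -/
def uT (s : ℝ) (z : H.Lam × ℝ) : ℝ := (z.2 - H.bt (H.lab s z)) / H.bl (H.lab s z)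
def uP (c : K7bPar) (D : ℝ) (z : H.Lam × ℝ) : ℝ := (H.p z.1 - (H.grp c.χ D z.1).2.1 * D) / D
def uQ (c : K7bPar) (D : ℝ) (z : H.Lam × ℝ) : ℝ := (H.q0 z.1 - (H.grp c.χ D z.1).2.2 * D) / D

/-- the incidences with the same domain as `z` -/
def dm (c : K7bPar) (s D : ℝ) (z : H.Lam × ℝ) : Set (H.Lam × ℝ) :=
  {z' | H.grp c.χ D z'.1 = H.grp c.χ D z.1 ∧ H.blk (H.lab s z') = H.blk (H.lab s z)}

/-- the weight `T_{GI} = |I| a_s^d W_G` of the domain of `z` -/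
def tGI (c : K7bPar) (s D : ℝ) (z : H.Lam × ℝ) : ℝ≥0∞ :=
  volume (H.blk (H.lab s z)) * ENNReal.ofReal (c.a s ^ c.d) * H.gW c.χ D (H.grp c.χ D z.1)

/-- same group, same true label, same affine entry -/
def ev2 (c : K7bPar) (s D : ℝ) (z : H.Lam × ℝ) : Set (H.Lam × ℝ) :=
  {z' | H.grp c.χ D z'.1 = H.grp c.χ D z.1 ∧ H.lab s z' = H.lab s z ∧ H.entOf s z' = H.entOf s z}

end K7bHor

namespace K8Lab

variable {H : K7bHor} (F : K8Lab H)

/-- same domain, same predictor -/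
def ev1 (c : K7bPar) (s D : ℝ) (z : H.Lam × ℝ) : Set (H.Lam × ℝ) := {z' | z' ∈ H.dm c s D z ∧ F.pr z'.1 = F.pr z.1}

/-- **the discrepancy** of the pairing at `z` : `ℓ¹` norm of `𝓛_z - H₀_z` in the scaled variables of the domain -/
def dis (c : K7bPar) (s D : ℝ) (z : H.Lam × ℝ) : ℝ := (H.sc c s D z ((H.cal c s D z).sub (F.pr z.1))).l1

/-- the group of `z` at the scale `M` : same domain, same code of the scaled predictor -/
def gM (c : K7bPar) (s D M : ℝ) (z : H.Lam × ℝ) : Set (H.Lam × ℝ) :=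
  {z' | z' ∈ H.dm c s D z ∧ (H.sc c s D z' (F.pr z'.1)).code M = (H.sc c s D z (F.pr z.1)).code M}

/-- the pairings of discrepancy in `[M, 2M)` -/
def bad (c : K7bPar) (s D M : ℝ) : Set (H.Lam × ℝ) := {z | M ≤ F.dis c s D z ∧ F.dis c s D z < 2 * M}

/-- **the floors of L8.4** (08 l.404-428) on the stored selection `E₁` : no null groups, both lists have the individual floor `T_{GI} / K₁` on every domain -/
structure Fl (c : K7bPar) (K₁ s D : ℝ) (E₁ : Set (H.Lam × ℝ)) : Prop where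
  gpos : ∀ z ∈ E₁, H.gW c.χ D (H.grp c.χ D z.1) ≠ 0
  fl1 : ∀ z ∈ E₁, H.tGI c s D z ≤ ENNReal.ofReal K₁ * H.lam (E₁ ∩ F.ev1 c s D z)
  fl2 : ∀ z ∈ E₁, H.tGI c s D z ≤ ENNReal.ofReal K₁ * H.lam (E₁ ∩ H.ev2 c s D z)

end K8Lab

/-- **the relations of L8.4** between the slack `K`, the depth `s`, the width `D = a_s^u`, the jitter mesh `1/n` and the prepared meshes -/
structure K8pRel (c : K7bPar) (K s D : ℝ) (n : ℕ) : Prop where
  wf : c.WF
  K1 : 1 ≤ K
  sG : s ∈ c.G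
  /-- `u ≤ 1` -/
  aD : c.a s ≤ D
  /-- `2k ≤ u` -/
  Dh : D ≤ c.h s ^ 2
  /-- the blocks are short -/
  Kh : K * c.h s ≤ 1
  /-- the jitter cells are fine -/
  na : 4000 * K ^ 4 ≤ n * c.a s
  /-- the prepared meshes and the error of the horizontal equation are below the jitter cells -/
  ξn : c.ξ ≤ D / n
  χn : c.χ ≤ D / n
  en : c.N ^ (-c.e0) ≤ D / n
  ξt : K * c.ξ * n ≤ c.h s
  /-- and below the thickness, with the amplifications -/
  ξa : 1000 * K ^ 6 * c.ξ ≤ c.a s * c.h s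
  ea : 100 * K * (c.χ + c.N ^ (-c.e0)) ≤ c.a s
  ϱa : c.ϱ ≤ c.a s

/-- **the hub consumed from Sec. 3**: Cor 3.4 `a02:local-graph-matching`, three base variables (only polynomials of degree `≤ 2` are fed) -/
def K8pHM : Prop := ∀ d : ℝ, 0 ≤ d → d < 1 → ∃ ε R₀ : ℝ, 0 < ε ∧ ∀ R : ℝ, R₀ ≤ R → K4eMatch 3 d ε R

theorem k8p_defs_eqns_cite : True := by
  have := @K8Pr.sub.eq_1
  have := @K8Pr.l1.eq_1
  have := @K8Pr.resc.eq_1
  have := @K8Pr.code.eq_1
  have := @K8Pr.shift.eq_1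
  have := @k8pCal.eq_1
  have := @K7bHor.sc.eq_1
  have := @K7bHor.cal.eq_1
  have := @K7bHor.uT.eq_1
  have := @K7bHor.uP.eq_1
  have := @K7bHor.uQ.eq_1
  have := @K7bHor.dm.eq_1
  have := @K7bHor.tGI.eq_1
  have := @K7bHor.ev2.eq_1
  have := @K8Lab.ev1.eq_1
  have := @K8Lab.dis.eq_1
  have := @K8Lab.gM.eq_1
  have := @K8Lab.bad.eq_1
  have := @K8pHM.eq_1
  trivial

end

end Claimed.Agent.R252
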