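-- KEEP
import Claimed.Agent.R252.S8p.Defs
import Claimed.Agent.R252.S8.Floor

/-!
# Row 252 (Kakeya in R^4), Sec. 8: L8.4 `a07:full-time-comparison` (08 l.372-440) AT ONE SCALE.      ALL LEAVES `L-252-S8p-*` PROVED (21:35Z Oct 14), axiom-clean      (sub-architect helper114; provers 283, 231, 102, 225, 126, 114; prefix `k8p`)

PAPER-FREE.   Read `S7b/HorDefs.lean`, `S7b/HorGrp.lean` (record `H : K7bHor`, `H.Ok c K`), `S8/Defs.lean` s.3 (`K8Pr`, `K8Lab`, `K8Lab.Ok`), `S8p/Defs.lean` (algebra of predictors, domains, `K8pRel`).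
RULES: prove IN PLACE, statement verbatim (false / unprovable? ONE line to helper114), helper lemmas directly above your theorem, prefix `k8p_<leaf>_`; every other theorem of this file, of `S7b/P5Pos.lean`, `S7b/P5Band.lean` is a black box (cite it even if sorried);
pull before landing and splice only your hunk.

## THE PROOF OF L8.4 (assembly in `S8p/CmpMain.lean`)
DATA: `H.Ok c K`, slopes of the affine entries (`H.Slopes c K E`), full-time labels `F.Ok c K s D E`, `a = a_s ≤ D ≤ h_s²`.   Every incidence `z = (l,t) ∈ E` carries TWO indices on its DOMAIN `(G, I)` = (parameter cell of side `D` and velocity bin of `l`) × (block of the true label):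
colour 1 = the predictor `H₀ = F.pr l`, colour 2 = (true label, affine entry) with the predictor `𝓛 = H.cal c s D z`.   Both predict `x` up to `(K+1) a` at `z` (`k8p_cal_fit`).   CLAIM: outside a small mass `F.dis c s D z ≤ Ko a`.
 (1) `k8p_graph_cap`  : the joint cap near the graph of a predictor over a parameter square, from `k7b_band_cap` at a SUB-mesh `D'` (the centre is frozen on each sub-cell).
 (2) `k8p_floors`     : stored selection `E₁` on which both lists have the individual floor `T_{GI}/K₁` (`k8p_floors_abs` = `ks_floors`; threshold sums `k8p_sum1`, `k8p_sum2`; `k8p_cell_count`: a true label meets `≤ 200 K² h³/D²` parameter cells per velocity bin).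
 (3) `k8p_count1/2`   : on one domain, the members of a list within `r` of a fixed predictor number `≤ C K^C K₁ (r/a)^d`  (floors under the cap).
 (4) `k8p_match_group`: ABSTRACT.  One group: two short lists of predictors within `Lm M` of a reference, cell caps at mesh `1/n`, values `Lm Δ`-close, coefficients `M`-far: mass `≤ R^{-ε} T (#lists)`.   Jitter inside the cells + hub `K4eMatch 3`.
 (5) `k8p_group_bad`  : (4) for the group `F.gM c s D M z₀` of the pairings of discrepancy in `[M, 2M)`.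
 (6) `k8p_sum_groups` : ABSTRACT summation over the groups;  `k8p_bad_scale` : `lam (E₁ ∩ bad M) ≤ 20000 K₁ R^{-ε} lam E₁`, `R = M/a`.   Then a geometric series over `M = 2^j Ko a`.
 (7) `k8p_refloor`    : the current floors of the labels are restored.      The list (ii) of L8.4 = `k8p_count2` with `r = Ko a`.
-/

set_option autoImplicit false

namespace Claimed.Agent.R252

open MeasureTheory
open scoped ENNReal BigOperators

noncomputable section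

/-! ## A. Abstract tools -/

/-- **LEAF L-252-S8p-AF** (~120 l.).  Simultaneous CURRENT floors for two label families.
PLAN.  `X := ↥hf₁.toFinset ⊕ ↥hf₂.toFinset`, `A (inl x) := E ∩ l₁ ⁻¹' {x}`, `θ (inl x) := T₁ x / κ` (same for `inr`).   `ks_floors μ A θ` gives `Del`;  `E₁ := E \ ⋃ x ∈ Del, A x` (measurable: finite union, `hl₁`, `hl₂`).
`E \ E₁ ⊆ ⋃ x ∈ Del, A x`, mass `≤ ∑_{Del} θ ≤ ∑_X θ = (∑ T₁ + ∑ T₂)/κ ≤ 2B/κ` (`Fintype.sum_sum_type`, `Finset.sum_coe_sort`, `hB₁ hf₁.toFinset`), `ENNReal.mul_div_cancel`-type with `hκ0`, `hκ1`.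
For `ω ∈ E₁` : `x := l₁ ω ∈ hf₁.toFinset`, `inl x ∉ Del` (otherwise `ω ∈ A (inl x)` is deleted), so `θ ≤ μ (A (inl x) \ ⋃ ..) = μ (E₁ ∩ l₁ ⁻¹' {l₁ ω})` (set equality); `ENNReal.div_le_iff`. -/
theorem k8p_floors_abs {Ω X₁ X₂ : Type*} [MeasurableSpace Ω] (μ : Measure Ω) (l₁ : Ω → X₁) (l₂ : Ω → X₂) (hl₁ : KsLab l₁) (hl₂ : KsLab l₂)
    (E : Set Ω) (hE : MeasurableSet E) (hf₁ : (l₁ '' E).Finite) (hf₂ : (l₂ '' E).Finite) (T₁ : X₁ → ℝ≥0∞) (T₂ : X₂ → ℝ≥0∞) (B κ : ℝ≥0∞)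
    (hκ0 : κ ≠ 0) (hκ1 : κ ≠ ⊤)
    (hB₁ : ∀ S : Finset X₁, (↑S : Set X₁) ⊆ l₁ '' E → ∑ x ∈ S, T₁ x ≤ B) (hB₂ : ∀ S : Finset X₂, (↑S : Set X₂) ⊆ l₂ '' E → ∑ x ∈ S, T₂ x ≤ B) :
    ∃ E₁ ⊆ E, MeasurableSet E₁ ∧ κ * μ (E \ E₁) ≤ 2 * B ∧ (∀ ω ∈ E₁, T₁ (l₁ ω) ≤ κ * μ (E₁ ∩ l₁ ⁻¹' {l₁ ω})) ∧
      ∀ ω ∈ E₁, T₂ (l₂ ω) ≤ κ * μ (E₁ ∩ l₂ ⁻¹' {l₂ ω}) := by
  classical
  obtain ⟨A, hA⟩ : ∃ A : (↥hf₁.toFinset ⊕ ↥hf₂.toFinset) → Set Ω,
      A = Sum.elim (fun x => E ∩ l₁ ⁻¹' {x.1}) (fun x => E ∩ l₂ ⁻¹' {x.1}) := ⟨_, rfl⟩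
  obtain ⟨θ, hθ⟩ : ∃ θ : (↥hf₁.toFinset ⊕ ↥hf₂.toFinset) → ℝ≥0∞,
      θ = Sum.elim (fun x => T₁ x.1 / κ) (fun x => T₂ x.1 / κ) := ⟨_, rfl⟩
  obtain ⟨Del, hDel, hsurv⟩ := ks_floors μ A θ
  have hAm : ∀ x, MeasurableSet (A x) := by
    intro x
    rw [hA]
    rcases x with x | x
    · exact hE.inter (hl₁ x.1)
    · exact hE.inter (hl₂ x.1)
  have hUm : MeasurableSet (⋃ x ∈ Del, A x) := Finset.measurableSet_biUnion _ fun x _ => hAm x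
  refine ⟨E \ ⋃ x ∈ Del, A x, Set.sdiff_subset, hE.diff hUm, ?_, ?_, ?_⟩
  · have h1 : μ (E \ (E \ ⋃ x ∈ Del, A x)) ≤ ∑ x ∈ Del, θ x := by
      refine (measure_mono ?_).trans hDel
      intro ω hω
      by_contra hcon
      exact hω.2 ⟨hω.1, hcon⟩
    have h2 : ∑ x ∈ Del, θ x ≤ ∑ x, θ x := Finset.sum_le_sum_of_subset (Finset.subset_univ _)
    have h3 : κ * ∑ x, θ x = ∑ x ∈ hf₁.toFinset, T₁ x + ∑ x ∈ hf₂.toFinset, T₂ x := by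
      rw [Fintype.sum_sum_type, hθ]
      simp only [Sum.elim_inl, Sum.elim_inr]
      rw [mul_add, Finset.mul_sum, Finset.mul_sum]
      simp only [ENNReal.mul_div_cancel hκ0 hκ1]
      rw [Finset.sum_coe_sort hf₁.toFinset T₁, Finset.sum_coe_sort hf₂.toFinset T₂]
    calc κ * μ (E \ (E \ ⋃ x ∈ Del, A x)) ≤ κ * ∑ x, θ x := mul_le_mul' le_rfl (h1.trans h2)
      _ = ∑ x ∈ hf₁.toFinset, T₁ x + ∑ x ∈ hf₂.toFinset, T₂ x := h3
      _ ≤ B + B := add_le_add (hB₁ _ (by rw [Set.Finite.coe_toFinset])) (hB₂ _ (by rw [Set.Finite.coe_toFinset]))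
      _ = 2 * B := (two_mul B).symm
  · intro ω hω
    have hx : l₁ ω ∈ hf₁.toFinset := by
      rw [Set.Finite.mem_toFinset]
      exact ⟨ω, hω.1, rfl⟩
    have hnd : (Sum.inl ⟨l₁ ω, hx⟩ : ↥hf₁.toFinset ⊕ ↥hf₂.toFinset) ∉ Del := by
      intro hd
      apply hω.2
      rw [Set.mem_iUnion₂]
      refine ⟨_, hd, ?_⟩
      rw [hA]
      exact ⟨hω.1, rfl⟩
    have h1 := hsurv _ hnd
    have e1 : A (Sum.inl ⟨l₁ ω, hx⟩) \ ⋃ y ∈ Del, A y = (E \ ⋃ x ∈ Del, A x) ∩ l₁ ⁻¹' {l₁ ω} := by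
      conv_lhs => rw [hA]
      simp only [Sum.elim_inl]
      rw [← hA]
      ext ω'
      simp only [Set.mem_sdiff, Set.mem_inter_iff]
      tauto
    have e2 : θ (Sum.inl ⟨l₁ ω, hx⟩) = T₁ (l₁ ω) / κ := by rw [hθ]; rfl
    rw [e1, e2, ENNReal.div_le_iff' hκ0 hκ1] at h1
    exact h1
  · intro ω hω
    have hx : l₂ ω ∈ hf₂.toFinset := by
      rw [Set.Finite.mem_toFinset]
      exact ⟨ω, hω.1, rfl⟩
    have hnd : (Sum.inr ⟨l₂ ω, hx⟩ : ↥hf₁.toFinset ⊕ ↥hf₂.toFinset) ∉ Del := by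
      intro hd
      apply hω.2
      rw [Set.mem_iUnion₂]
      refine ⟨_, hd, ?_⟩
      rw [hA]
      exact ⟨hω.1, rfl⟩
    have h1 := hsurv _ hnd
    have e1 : A (Sum.inr ⟨l₂ ω, hx⟩) \ ⋃ y ∈ Del, A y = (E \ ⋃ x ∈ Del, A x) ∩ l₂ ⁻¹' {l₂ ω} := by
      conv_lhs => rw [hA]
      simp only [Sum.elim_inr]
      rw [← hA]
      ext ω'
      simp only [Set.mem_sdiff, Set.mem_inter_iff]
      tauto
    have e2 : θ (Sum.inr ⟨l₂ ω, hx⟩) = T₂ (l₂ ω) / κ := by rw [hθ]; rfl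
    rw [e1, e2, ENNReal.div_le_iff' hκ0 hκ1] at h1
    exact h1

/-- aux of L-252-S8p-MG: the cell index is measurable -/
theorem k8p_MG_meas_c (n : ℕ) : Measurable fun u : Fin 3 → ℝ => (fun i => ⌊(n : ℝ) * u i⌋ : Fin 3 → ℤ) :=
  measurable_pi_lambda _ fun i => Int.measurable_floor.comp ((measurable_pi_apply i).const_mul _)

/-- aux of L-252-S8p-MG: the volume of a cell -/
theorem k8p_MG_vol (n : ℕ) (hn : 0 < n) (k : Fin 3 → ℤ) :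
    volume ((fun u : Fin 3 → ℝ => (fun i => ⌊(n : ℝ) * u i⌋ : Fin 3 → ℤ)) ⁻¹' {k}) = ENNReal.ofReal (1 / (n : ℝ) ^ 3) := by
  have hn' : (0 : ℝ) < n := by exact_mod_cast hn
  have e : (fun u : Fin 3 → ℝ => (fun i => ⌊(n : ℝ) * u i⌋ : Fin 3 → ℤ)) ⁻¹' {k}
      = Set.pi Set.univ fun i => Set.Ico ((k i : ℝ) / n) (((k i : ℝ) + 1) / n) := by
    ext u
    simp only [Set.mem_preimage, Set.mem_singleton_iff, Set.mem_pi, Set.mem_univ, true_implies, Set.mem_Ico]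
    rw [funext_iff]
    refine forall_congr' fun i => ?_
    rw [Int.floor_eq_iff, div_le_iff₀ hn', lt_div_iff₀ hn', mul_comm]
  rw [e, Real.volume_pi_Ico]
  have h1 : ∀ i : Fin 3, ENNReal.ofReal (((k i : ℝ) + 1) / n - (k i : ℝ) / n) = ENNReal.ofReal (1 / n) := fun i => by
    congr 1
    ring
  simp only [h1, Finset.prod_const, Finset.card_univ, Fintype.card_fin]
  rw [← ENNReal.ofReal_pow (by positivity), one_div, one_div, inv_pow]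

/-- aux of L-252-S8p-MG: the integral of a function of the cell index -/
theorem k8p_MG_lint (n : ℕ) (hn : 0 < n) (g : (Fin 3 → ℤ) → ℝ≥0∞) :
    ∫⁻ u : Fin 3 → ℝ, g (fun i => ⌊(n : ℝ) * u i⌋) = ENNReal.ofReal (1 / (n : ℝ) ^ 3) * ∑' k, g k := by
  have hc := k8p_MG_meas_c n
  calc ∫⁻ u : Fin 3 → ℝ, g (fun i => ⌊(n : ℝ) * u i⌋)
      = ∫⁻ k, g k ∂(Measure.map (fun u : Fin 3 → ℝ => (fun i => ⌊(n : ℝ) * u i⌋ : Fin 3 → ℤ)) volume) :=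
        (lintegral_map Measurable.of_discrete hc).symm
    _ = ∑' k, g k * (Measure.map (fun u : Fin 3 → ℝ => (fun i => ⌊(n : ℝ) * u i⌋ : Fin 3 → ℤ)) volume) {k} := lintegral_countable' g
    _ = ∑' k, g k * ENNReal.ofReal (1 / (n : ℝ) ^ 3) := by
        refine tsum_congr fun k => ?_
        rw [Measure.map_apply hc (measurableSet_singleton k), k8p_MG_vol n hn k]
    _ = ENNReal.ofReal (1 / (n : ℝ) ^ 3) * ∑' k, g k := by rw [ENNReal.tsum_mul_right, mul_comm]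

/-- aux of L-252-S8p-MG: disjoint fibres of a label -/
theorem k8p_MG_lab {Ω X : Type*} [MeasurableSpace Ω] (μ : Measure Ω) (i : Ω → X) (hi : KsLab i) (S : Finset X) (P : Set Ω) (hP : MeasurableSet P) :
    ∑ y ∈ S, μ (P ∩ i ⁻¹' {y}) ≤ μ P := by
  classical
  rw [← measure_biUnion_finset _ fun y _ => hP.inter (hi y)]
  · exact measure_mono (Set.iUnion₂_subset fun _ _ => Set.inter_subset_left)
  · intro b _ b' _ hbb
    refine Set.disjoint_left.2 fun ω h1 h2 => hbb ?_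
    have a1 : i ω = b := h1.2
    have a2 : i ω = b' := h2.2
    rw [← a1, a2]

/-- aux of L-252-S8p-MG: a predictor is a polynomial of degree `≤ 2` -/
theorem k8p_MG_poly (g : K8Pr) (u₀ : Fin 3 → ℝ) (r : ℝ) : (fun u : Fin 3 → ℝ => g.ev (u 0) (u 1) (u 2)) ∈ k4eSh 3 u₀ r := by
  refine Or.inl ⟨MvPolynomial.C g.c0 + MvPolynomial.C g.c1 * MvPolynomial.X 0
    + (MvPolynomial.C g.p0 + MvPolynomial.C g.p1 * MvPolynomial.X 0) * MvPolynomial.X 1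
    + (MvPolynomial.C g.q0 + MvPolynomial.C g.q1 * MvPolynomial.X 0) * MvPolynomial.X 2, ?_, fun u => ?_⟩
  · have hX : ∀ i : Fin 3, (MvPolynomial.X i : MvPolynomial (Fin 3) ℝ).totalDegree = 1 := fun i => MvPolynomial.totalDegree_X i
    have hC : ∀ a : ℝ, (MvPolynomial.C a : MvPolynomial (Fin 3) ℝ).totalDegree = 0 := fun a => MvPolynomial.totalDegree_C a
    have h1 : ∀ a b : ℝ, (MvPolynomial.C a + MvPolynomial.C b * MvPolynomial.X 0 : MvPolynomial (Fin 3) ℝ).totalDegree ≤ 1 := by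
      intro a b
      refine (MvPolynomial.totalDegree_add _ _).trans (max_le (by rw [hC]; exact Nat.zero_le _) ?_)
      refine (MvPolynomial.totalDegree_mul _ _).trans ?_
      rw [hC, hX]
    have h2 : ∀ (a b : ℝ) (i : Fin 3), ((MvPolynomial.C a + MvPolynomial.C b * MvPolynomial.X 0) * MvPolynomial.X i : MvPolynomial (Fin 3) ℝ).totalDegree ≤ 2 := by
      intro a b i
      refine (MvPolynomial.totalDegree_mul _ _).trans ?_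
      rw [hX]
      have := h1 a b
      omega
    refine (MvPolynomial.totalDegree_add _ _).trans (max_le ?_ (h2 _ _ _))
    refine (MvPolynomial.totalDegree_add _ _).trans (max_le ((h1 _ _).trans (by norm_num)) (h2 _ _ _))
  · simp only [K8Pr.ev, map_add, map_mul, MvPolynomial.eval_C, MvPolynomial.eval_X]

/-- aux of L-252-S8p-MG: the unit cube -/
theorem k8p_MG_cube (u : Fin 3 → ℝ) : u ∈ Metric.closedBall (fun _ : Fin 3 => (1 / 2 : ℝ)) (1 / 2) ↔ ∀ i, 0 ≤ u i ∧ u i ≤ 1 := by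
  rw [Metric.mem_closedBall, dist_pi_le_iff (by norm_num)]
  refine forall_congr' fun i => ?_
  rw [Real.dist_eq, abs_le]
  constructor
  · rintro ⟨h1, h2⟩
    exact ⟨by linarith, by linarith⟩
  · rintro ⟨h1, h2⟩
    exact ⟨by linarith, by linarith⟩

/-- aux of L-252-S8p-MG: same cell as a point of `[0,1)` -/
theorem k8p_MG_floor {n : ℕ} (hn : 0 < n) {a b : ℝ} (h : ⌊(n : ℝ) * b⌋ = ⌊(n : ℝ) * a⌋) (hb : b ∈ Set.Ico (0 : ℝ) 1) :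
    a ∈ Set.Ico (0 : ℝ) 1 ∧ |a - b| ≤ 1 / n := by
  have hn' : (0 : ℝ) < n := by exact_mod_cast hn
  have h1 : 0 ≤ ⌊(n : ℝ) * b⌋ := Int.floor_nonneg.2 (mul_nonneg hn'.le hb.1)
  have h2 : ⌊(n : ℝ) * b⌋ < (n : ℤ) := by
    rw [Int.floor_lt]
    have : (n : ℝ) * b < n * 1 := mul_lt_mul_of_pos_left hb.2 hn'
    simpa using this
  rw [h] at h1 h2
  rw [Int.floor_nonneg] at h1
  rw [Int.floor_lt] at h2
  have h3 := Int.abs_sub_lt_one_of_floor_eq_floor h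
  rw [← mul_sub, abs_mul, abs_of_pos hn', abs_sub_comm] at h3
  refine ⟨⟨nonneg_of_mul_nonneg_right h1 hn', ?_⟩, ?_⟩
  · have : (n : ℝ) * a < n * 1 := by simpa using h2
    exact lt_of_mul_lt_mul_left this hn'.le
  · rw [le_div_iff₀ hn', mul_comm]
    exact h3.le

/-- aux of L-252-S8p-MG: a finite family of densities below a constant on a set -/
theorem k8p_MG_dens {J : Type*} [Fintype J] (h : J → (Fin 3 → ℝ) → ℝ≥0∞) (hm : ∀ j, Measurable (h j)) (Q : Set (Fin 3 → ℝ)) (hQ : MeasurableSet Q) (C : ℝ≥0∞)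
    (hle : ∀ u, ∑ j, h j u ≤ Q.indicator (fun _ => C) u) :
    ∑ j, (volume : Measure (Fin 3 → ℝ)).withDensity (h j) ≤ C • (volume : Measure (Fin 3 → ℝ)).restrict Q := by
  rw [Measure.le_iff]
  intro A hA
  rw [Measure.finsetSum_apply, Measure.smul_apply, Measure.restrict_apply hA, smul_eq_mul]
  simp_rw [withDensity_apply _ hA]
  rw [← lintegral_finsetSum _ fun j _ => hm j]
  calc ∫⁻ u in A, ∑ j, h j u ≤ ∫⁻ u in A, Q.indicator (fun _ => C) u := lintegral_mono fun u => hle u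
    _ = C * volume (A ∩ Q) := by
        rw [lintegral_indicator hQ, setLIntegral_const, Measure.restrict_apply hQ, Set.inter_comm]

/-- **LEAF L-252-S8p-MG** (~500 l.; may be cut further in place: jitter lemmas first).  **ONE GROUP, abstract** (08 l.436-438 + 03 Cor 3.4).
`u0, u1, u2` = scaled base coordinates in `[0,1)`, cells of mesh `1/n`;  `T` = weight of the domain;  `Lm` = all losses;  `R = M/Δ`.
PLAN.  If `T = 0` or `S₁ = ∅` : `B ⊆ ⋃_{x ∈ S₁} ⋃_{k ∈ (range n)³} (B ∩ {i₁ = x} ∩ cell k)` has mass `0` (`hcap₁`).   Otherwise `N := S₁.card + S₂.card > 0`.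
CELLS: `k : Fin 3 → ℕ`, `k i < n`;  `cell k := Set.pi univ fun i => Ico (k i / n) ((k i + 1) / n) ⊆ Fin 3 → ℝ`, `volume (cell k) = ofReal (1/n)^3` (`Real.volume_pi_Ico`-type / `volume_pi_pi`), pairwise disjoint, contained in `closedBall (fun _ => 1/2) (1/2)` (sup norm).
JITTER of a mass function `m` on the cells: `jit m := ∑ k, (m k * n^3) • volume.restrict (cell k)`.   (j1) `jit m univ = ∑ k, m k`;  (j2) `m k ≤ A / n^3` for all `k` ⟹ `jit m ≤ A • volume.restrict (closedBall ..)`;  (j3) a property which holds on every cell with `m k ≠ 0` holds `jit m`-a.e.;  (j4) `jit` is additive in `m`.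
HUB: `E := ↥S₁ ⊕ ↥S₂`, `u₀ := fun _ => 1/2`, `r := 1/2`, `f (inl x) u := (f₁ x).ev (u 0) (u 1) (u 2)` (a polynomial of total degree `≤ 2` : write it with `MvPolynomial.X`, `C`; `k4eSh`, first alternative), `f₀` alike.
`pr (inl x) (inr y) := (T * N)⁻¹ • jit (fun k => μ (B ∩ {i₁ = x} ∩ {i₂ = y} ∩ cellEv k))`, all other `pr := 0`;  `cellEv k := {ω | ⌊n u0 ω⌋ = k 0 ∧ ..}`.
card: `N ≤ Lm R^d ≤ R^(d+ε)`.   reference: `k8p_ev_le_l1`, `k8p_ev_sub`, `href`, `Lm ≤ R^ε`.   row sums: `∑_y μ (B ∩ {i₁ = x} ∩ {i₂ = y} ∩ cellEv k) = μ (B ∩ {i₁ = x} ∩ cellEv k) ≤ Lm T / n^3` (`hS₂`, `hi₂`, disjoint union), (j4), (j2), `(T N)⁻¹ Lm T = Lm / N ≤ R^ε / N`.   column sums alike.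
events (j3): a cell with non-zero mass contains `(u0 ω, u1 ω, u2 ω)` for some `ω ∈ B` with `i₁ ω = x`, `i₂ ω = y`; for `u` in this cell `k8p_ev_osc` (applied to `(f₁ x).sub (f₂ y)`, `η = 1/n`) and `hnear`, `hosc` : `|f₁ - f₂|(u) ≤ Lm Δ + 4 M / n ≤ (Lm + 1) Δ ≤ Δ R^ε`;
not close: otherwise `k8p_l1_le` (six vertices of the cube) gives `l1 ≤ 15 M R^{-ε} < M` (`hLR`), against `hfar`.
total mass: `∑∑ pr univ = (T N)⁻¹ μ B` (j1, `hbox`: the cells `k ∈ (range n)³` cover `B`).   The hub: `(T N)⁻¹ μ B < R^{-ε}`. -/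
theorem k8p_match_group {d ε R : ℝ} (hub : K4eMatch 3 d ε R) {Ω X₁ X₂ : Type} [MeasurableSpace Ω] (μ : Measure Ω) (i₁ : Ω → X₁) (i₂ : Ω → X₂)
    (hi₁ : KsLab i₁) (hi₂ : KsLab i₂) (S₁ : Finset X₁) (S₂ : Finset X₂) (u0 u1 u2 : Ω → ℝ) (hu0 : Measurable u0) (hu1 : Measurable u1) (hu2 : Measurable u2)
    (f₁ : X₁ → K8Pr) (f₂ : X₂ → K8Pr) (f₀ : K8Pr) (B : Set Ω) (hB : MeasurableSet B) (n : ℕ) (M Δ Lm : ℝ) (T : ℝ≥0∞)
    (hR : 1 ≤ R) (hε : 0 < ε) (hΔ : 0 < Δ) (hM : M = R * Δ) (hLm : 1 ≤ Lm) (hLR : 16 * Lm ≤ R ^ ε) (hn : 0 < n) (hosc : 4 * M ≤ n * Δ) (hT : T ≠ ⊤)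
    (hS₁ : ∀ ω ∈ B, i₁ ω ∈ S₁) (hS₂ : ∀ ω ∈ B, i₂ ω ∈ S₂) (hcard : ((S₁.card + S₂.card : ℕ) : ℝ) ≤ Lm * R ^ d)
    (hbox : ∀ ω ∈ B, u0 ω ∈ Set.Ico (0 : ℝ) 1 ∧ u1 ω ∈ Set.Ico (0 : ℝ) 1 ∧ u2 ω ∈ Set.Ico (0 : ℝ) 1)
    (href₁ : ∀ x ∈ S₁, ((f₁ x).sub f₀).l1 ≤ Lm * M) (href₂ : ∀ x ∈ S₂, ((f₂ x).sub f₀).l1 ≤ Lm * M)
    (hcap₁ : ∀ x ∈ S₁, ∀ k0 k1 k2 : ℤ, μ (B ∩ i₁ ⁻¹' {x} ∩ {ω | ⌊(n : ℝ) * u0 ω⌋ = k0 ∧ ⌊(n : ℝ) * u1 ω⌋ = k1 ∧ ⌊(n : ℝ) * u2 ω⌋ = k2})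
      ≤ ENNReal.ofReal (Lm / (n : ℝ) ^ 3) * T)
    (hcap₂ : ∀ x ∈ S₂, ∀ k0 k1 k2 : ℤ, μ (B ∩ i₂ ⁻¹' {x} ∩ {ω | ⌊(n : ℝ) * u0 ω⌋ = k0 ∧ ⌊(n : ℝ) * u1 ω⌋ = k1 ∧ ⌊(n : ℝ) * u2 ω⌋ = k2})
      ≤ ENNReal.ofReal (Lm / (n : ℝ) ^ 3) * T)
    (hclose : ∀ ω ∈ B, |(f₁ (i₁ ω)).ev (u0 ω) (u1 ω) (u2 ω) - (f₂ (i₂ ω)).ev (u0 ω) (u1 ω) (u2 ω)| ≤ Lm * Δ)
    (hfar : ∀ ω ∈ B, M ≤ ((f₁ (i₁ ω)).sub (f₂ (i₂ ω))).l1) (hnear : ∀ ω ∈ B, ((f₁ (i₁ ω)).sub (f₂ (i₂ ω))).l1 ≤ 2 * M) :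
    μ B ≤ ENNReal.ofReal (R ^ (-ε)) * (T * ((S₁.card + S₂.card : ℕ) : ℝ≥0∞)) := by
  classical
  have hn' : (0 : ℝ) < n := by exact_mod_cast hn
  have hR0 : 0 < R := by linarith
  have hRε : 0 < R ^ ε := Real.rpow_pos_of_pos hR0 _
  have hM0 : 0 < M := by rw [hM]; positivity
  obtain ⟨Ev, hEv⟩ : ∃ Ev : (Fin 3 → ℤ) → Set Ω,
      Ev = fun k => {ω | ⌊(n : ℝ) * u0 ω⌋ = k 0 ∧ ⌊(n : ℝ) * u1 ω⌋ = k 1 ∧ ⌊(n : ℝ) * u2 ω⌋ = k 2} := ⟨_, rfl⟩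
  have hEvm : ∀ k, MeasurableSet (Ev k) := by
    intro k
    rw [hEv]
    exact ((hu0.const_mul (n : ℝ)).floor (measurableSet_singleton (k 0))).inter
      (((hu1.const_mul (n : ℝ)).floor (measurableSet_singleton (k 1))).inter ((hu2.const_mul (n : ℝ)).floor (measurableSet_singleton (k 2))))
  have hEvc : ∀ P : Set Ω, μ P ≤ ∑' k, μ (P ∩ Ev k) := by
    intro P
    refine (measure_mono ?_).trans (measure_iUnion_le _)
    intro ω hω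
    rw [Set.mem_iUnion]
    refine ⟨![⌊(n : ℝ) * u0 ω⌋, ⌊(n : ℝ) * u1 ω⌋, ⌊(n : ℝ) * u2 ω⌋], hω, ?_⟩
    rw [hEv]
    exact ⟨rfl, rfl, rfl⟩
  have hc₁ : ∀ x ∈ S₁, ∀ k, μ (B ∩ Ev k ∩ i₁ ⁻¹' {x}) ≤ ENNReal.ofReal (Lm / (n : ℝ) ^ 3) * T := by
    intro x hx k
    rw [Set.inter_right_comm, hEv]
    exact hcap₁ x hx _ _ _
  have hc₂ : ∀ x ∈ S₂, ∀ k, μ (B ∩ Ev k ∩ i₂ ⁻¹' {x}) ≤ ENNReal.ofReal (Lm / (n : ℝ) ^ 3) * T := by
    intro x hx k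
    rw [Set.inter_right_comm, hEv]
    exact hcap₂ x hx _ _ _
  -- the crude covering, for the degenerate cases
  have hcr : μ B ≤ ∑ x ∈ S₁, ∑' k, μ (B ∩ Ev k ∩ i₁ ⁻¹' {x}) := by
    calc μ B ≤ μ (⋃ x ∈ S₁, B ∩ i₁ ⁻¹' {x}) := by
          refine measure_mono fun ω hω => ?_
          rw [Set.mem_iUnion₂]
          exact ⟨i₁ ω, hS₁ ω hω, hω, rfl⟩
      _ ≤ ∑ x ∈ S₁, μ (B ∩ i₁ ⁻¹' {x}) := measure_biUnion_finset_le _ _
      _ ≤ ∑ x ∈ S₁, ∑' k, μ (B ∩ Ev k ∩ i₁ ⁻¹' {x}) := by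
          refine Finset.sum_le_sum fun x _ => (hEvc _).trans (le_of_eq ?_)
          refine tsum_congr fun k => ?_
          rw [Set.inter_right_comm]
  by_cases hT0 : T = 0
  · have : μ B ≤ 0 := by
      refine hcr.trans (le_of_eq ?_)
      refine Finset.sum_eq_zero fun x hx => ?_
      rw [ENNReal.tsum_eq_zero]
      intro k
      have := hc₁ x hx k
      rw [hT0, mul_zero] at this
      exact le_antisymm this zero_le
    exact this.trans zero_le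
  by_cases hN0 : S₁.card + S₂.card = 0
  · have h1 : S₁ = ∅ := Finset.card_eq_zero.1 (by omega)
    rw [h1, Finset.sum_empty] at hcr
    exact hcr.trans zero_le
  -- the main case
  obtain ⟨t, ht, hTt⟩ : ∃ t : ℝ, 0 < t ∧ T = ENNReal.ofReal t := ⟨T.toReal, ENNReal.toReal_pos hT0 hT, (ENNReal.ofReal_toReal hT).symm⟩
  obtain ⟨Nr, hNr⟩ : ∃ Nr : ℝ, Nr = ((S₁.card + S₂.card : ℕ) : ℝ) := ⟨_, rfl⟩
  have hNr0 : 0 < Nr := by
    rw [hNr]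
    exact_mod_cast Nat.pos_of_ne_zero hN0
  obtain ⟨a, ha⟩ : ∃ a : ℝ≥0∞, a = ENNReal.ofReal ((n : ℝ) ^ 3 / (t * Nr)) := ⟨_, rfl⟩
  obtain ⟨ρ, hρ⟩ : ∃ ρ : X₁ → X₂ → (Fin 3 → ℤ) → ℝ≥0∞, ρ = fun x y k => μ (B ∩ Ev k ∩ i₁ ⁻¹' {x} ∩ i₂ ⁻¹' {y}) := ⟨_, rfl⟩
  obtain ⟨w, hw⟩ : ∃ w : X₁ → X₂ → (Fin 3 → ℝ) → ℝ≥0∞, w = fun x y u => a * ρ x y (fun i => ⌊(n : ℝ) * u i⌋) := ⟨_, rfl⟩
  have hwm : ∀ x y, Measurable (w x y) := by
    intro x y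
    rw [hw]
    exact ((Measurable.of_discrete (f := ρ x y)).comp (k8p_MG_meas_c n)).const_mul a
  obtain ⟨pr, hpr⟩ : ∃ pr : (↥S₁ ⊕ ↥S₂) → (↥S₁ ⊕ ↥S₂) → Measure (Fin 3 → ℝ),
      pr = Sum.elim (fun x => Sum.elim (fun _ => 0) (fun y => volume.withDensity (w x.1 y.1))) (fun _ _ => 0) := ⟨_, rfl⟩
  obtain ⟨f, hf⟩ : ∃ f : (↥S₁ ⊕ ↥S₂) → (Fin 3 → ℝ) → ℝ,
      f = Sum.elim (fun x u => (f₁ x.1).ev (u 0) (u 1) (u 2)) (fun y u => (f₂ y.1).ev (u 0) (u 1) (u 2)) := ⟨_, rfl⟩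
  have hcE : (Fintype.card (↥S₁ ⊕ ↥S₂) : ℝ) = Nr := by
    rw [hNr, Fintype.card_sum, Fintype.card_coe, Fintype.card_coe]
  have hQm : MeasurableSet (Metric.closedBall (fun _ : Fin 3 => (1 / 2 : ℝ)) (1 / 2)) := Metric.isClosed_closedBall.measurableSet
  -- a point of a non-null cell
  have hpt : ∀ x y u, w x y u ≠ 0 → ∃ ω ∈ B, i₁ ω = x ∧ i₂ ω = y ∧
      (u 0 ∈ Set.Ico (0 : ℝ) 1 ∧ |u 0 - u0 ω| ≤ 1 / n) ∧ (u 1 ∈ Set.Ico (0 : ℝ) 1 ∧ |u 1 - u1 ω| ≤ 1 / n) ∧ (u 2 ∈ Set.Ico (0 : ℝ) 1 ∧ |u 2 - u2 ω| ≤ 1 / n) := by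
    intro x y u hne
    rw [hw] at hne
    have h1 : ρ x y (fun i => ⌊(n : ℝ) * u i⌋) ≠ 0 := right_ne_zero_of_mul hne
    rw [hρ] at h1
    obtain ⟨ω, ⟨⟨hωB, hωE⟩, hω1⟩, hω2⟩ := nonempty_of_measure_ne_zero h1
    rw [hEv] at hωE
    obtain ⟨b0, b1, b2⟩ := hbox ω hωB
    exact ⟨ω, hωB, hω1, hω2, k8p_MG_floor hn hωE.1 b0, k8p_MG_floor hn hωE.2.1 b1, k8p_MG_floor hn hωE.2.2 b2⟩
  have hconst : a * (ENNReal.ofReal (Lm / (n : ℝ) ^ 3) * T)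
      ≤ ENNReal.ofReal (R ^ ε / ((Fintype.card (↥S₁ ⊕ ↥S₂) : ℝ) * (2 * (1 / 2)) ^ 3)) := by
    rw [ha, hTt, ← ENNReal.ofReal_mul (by positivity), ← ENNReal.ofReal_mul (by positivity), hcE]
    refine ENNReal.ofReal_le_ofReal ?_
    have e1 : (n : ℝ) ^ 3 / (t * Nr) * (Lm / (n : ℝ) ^ 3 * t) = Lm / Nr := by
      field_simp
    rw [e1]
    have e2 : Nr * (2 * (1 / 2 : ℝ)) ^ 3 = Nr := by norm_num
    rw [e2]
    exact div_le_div_of_nonneg_right (by linarith) hNr0.le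
  have hout : ∀ x y u, u ∉ Metric.closedBall (fun _ : Fin 3 => (1 / 2 : ℝ)) (1 / 2) → w x y u = 0 := by
    intro x y u hu
    by_contra hne
    obtain ⟨ω, -, -, -, c0, c1, c2⟩ := hpt x y u hne
    apply hu
    rw [k8p_MG_cube]
    intro i
    fin_cases i
    · exact ⟨c0.1.1, c0.1.2.le⟩
    · exact ⟨c1.1.1, c1.1.2.le⟩
    · exact ⟨c2.1.1, c2.1.2.le⟩
  have hrow : ∀ e₁, ∑ e₂, pr e₁ e₂ ≤ ENNReal.ofReal (R ^ ε / ((Fintype.card (↥S₁ ⊕ ↥S₂) : ℝ) * (2 * (1 / 2)) ^ 3)) •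
      (volume : Measure (Fin 3 → ℝ)).restrict (Metric.closedBall (fun _ : Fin 3 => (1 / 2 : ℝ)) (1 / 2)) := by
    rintro (x | y)
    · rw [Fintype.sum_sum_type, hpr]
      simp only [Sum.elim_inl, Sum.elim_inr, Finset.sum_const_zero, zero_add]
      refine k8p_MG_dens (fun y : ↥S₂ => w x.1 y.1) (fun y => hwm _ _) _ hQm _ fun u => ?_
      by_cases hu : u ∈ Metric.closedBall (fun _ : Fin 3 => (1 / 2 : ℝ)) (1 / 2)
      · rw [Set.indicator_of_mem hu]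
        refine le_trans ?_ hconst
        rw [hw]
        simp only
        rw [← Finset.mul_sum, Finset.sum_coe_sort S₂ (fun y => ρ x.1 y (fun i => ⌊(n : ℝ) * u i⌋)), hρ]
        exact mul_le_mul' le_rfl ((k8p_MG_lab μ i₂ hi₂ S₂ _ ((hB.inter (hEvm _)).inter (hi₁ _))).trans (hc₁ x.1 x.2 _))
      · rw [Set.indicator_of_notMem hu]
        exact le_of_eq (Finset.sum_eq_zero fun y _ => hout _ _ _ hu)
    · rw [hpr]
      simp only [Sum.elim_inr, Finset.sum_const_zero]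
      exact Measure.zero_le _
  have hcol : ∀ e₂, ∑ e₁, pr e₁ e₂ ≤ ENNReal.ofReal (R ^ ε / ((Fintype.card (↥S₁ ⊕ ↥S₂) : ℝ) * (2 * (1 / 2)) ^ 3)) •
      (volume : Measure (Fin 3 → ℝ)).restrict (Metric.closedBall (fun _ : Fin 3 => (1 / 2 : ℝ)) (1 / 2)) := by
    rintro (x | y)
    · rw [Fintype.sum_sum_type, hpr]
      simp only [Sum.elim_inl, Sum.elim_inr, Finset.sum_const_zero, zero_add]
      exact Measure.zero_le _
    · rw [Fintype.sum_sum_type, hpr]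
      simp only [Sum.elim_inl, Sum.elim_inr, Finset.sum_const_zero, add_zero]
      refine k8p_MG_dens (fun x : ↥S₁ => w x.1 y.1) (fun x => hwm _ _) _ hQm _ fun u => ?_
      by_cases hu : u ∈ Metric.closedBall (fun _ : Fin 3 => (1 / 2 : ℝ)) (1 / 2)
      · rw [Set.indicator_of_mem hu]
        refine le_trans ?_ hconst
        rw [hw]
        simp only
        rw [← Finset.mul_sum, Finset.sum_coe_sort S₁ (fun x => ρ x y.1 (fun i => ⌊(n : ℝ) * u i⌋)), hρ]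
        simp only [Set.inter_right_comm _ (i₁ ⁻¹' _) (i₂ ⁻¹' _)]
        exact mul_le_mul' le_rfl ((k8p_MG_lab μ i₁ hi₁ S₁ _ ((hB.inter (hEvm _)).inter (hi₂ _))).trans (hc₂ y.1 y.2 _))
      · rw [Set.indicator_of_notMem hu]
        exact le_of_eq (Finset.sum_eq_zero fun x _ => hout _ _ _ hu)
  have hcl : ∀ e, k4eClose (Metric.closedBall (fun _ : Fin 3 => (1 / 2 : ℝ)) (1 / 2)) (f e) (fun u => f₀.ev (u 0) (u 1) (u 2)) (M * R ^ ε) := by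
    have hb : Lm * M ≤ M * R ^ ε := by
      rw [mul_comm]
      exact mul_le_mul_of_nonneg_left (by linarith) hM0.le
    have habs : ∀ u : Fin 3 → ℝ, (∀ i, 0 ≤ u i ∧ u i ≤ 1) → ∀ i, |u i| ≤ 1 := fun u hu i => abs_le.2 ⟨by linarith [(hu i).1], (hu i).2⟩
    rintro (x | y) u hu
    · rw [k8p_MG_cube] at hu
      rw [hf]
      simp only [Sum.elim_inl]
      rw [← k8p_ev_sub]
      exact ((k8p_ev_le_l1 _ (habs u hu 0) (habs u hu 1) (habs u hu 2)).trans (href₁ x.1 x.2)).trans hb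
    · rw [k8p_MG_cube] at hu
      rw [hf]
      simp only [Sum.elim_inr]
      rw [← k8p_ev_sub]
      exact ((k8p_ev_le_l1 _ (habs u hu 0) (habs u hu 1) (habs u hu 2)).trans (href₂ y.1 y.2)).trans hb
  have hae : ∀ e₁ e₂, ∀ᵐ u ∂(pr e₁ e₂), |f e₁ u - f e₂ u| ≤ Δ * R ^ ε ∧
      ¬ k4eClose (Metric.closedBall (fun _ : Fin 3 => (1 / 2 : ℝ)) (1 / 2)) (f e₁) (f e₂) (M * R ^ (-ε)) := by
    rintro (x | y) (x' | y')
    · rw [hpr]
      simp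
    · rw [hpr]
      simp only [Sum.elim_inl, Sum.elim_inr]
      rw [ae_withDensity_iff (hwm _ _)]
      refine Filter.Eventually.of_forall fun u hne => ?_
      obtain ⟨ω, hωB, e1, e2, c0, c1, c2⟩ := hpt _ _ u hne
      obtain ⟨b0, b1, b2⟩ := hbox ω hωB
      have hcl' := hclose ω hωB
      have hfa := hfar ω hωB
      have hne' := hnear ω hωB
      rw [e1, e2] at hcl' hfa hne'
      rw [hf]
      simp only [Sum.elim_inl, Sum.elim_inr]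
      constructor
      · rw [← k8p_ev_sub] at hcl' ⊢
        have ho := k8p_ev_osc ((f₁ x.1).sub (f₂ y'.1)) (τ := u 0) (y1 := u 1) (y2 := u 2) (τ' := u0 ω) (y1' := u1 ω) (y2' := u2 ω) (η := 1 / n)
          (abs_le.2 ⟨by linarith [c0.1.1], c0.1.2.le⟩) (abs_le.2 ⟨by linarith [b1.1], b1.2.le⟩) (abs_le.2 ⟨by linarith [b2.1], b2.2.le⟩) c0.2 c1.2 c2.2
        have h3 : 2 * ((f₁ x.1).sub (f₂ y'.1)).l1 * (1 / n) ≤ Δ := by
          rw [mul_one_div, div_le_iff₀ hn']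
          linarith
        have h4 : |((f₁ x.1).sub (f₂ y'.1)).ev (u 0) (u 1) (u 2)| ≤ Lm * Δ + Δ := by
          have := abs_sub_abs_le_abs_sub (((f₁ x.1).sub (f₂ y'.1)).ev (u 0) (u 1) (u 2)) (((f₁ x.1).sub (f₂ y'.1)).ev (u0 ω) (u1 ω) (u2 ω))
          linarith
        refine h4.trans ?_
        nlinarith
      · intro hcon
        have hv : ∀ a b c : ℝ, (a = 0 ∨ a = 1) → (b = 0 ∨ b = 1) → (c = 0 ∨ c = 1) → |((f₁ x.1).sub (f₂ y'.1)).ev a b c| ≤ M * R ^ (-ε) := by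
          intro a b c ha hb hc
          have hmem : (![a, b, c] : Fin 3 → ℝ) ∈ Metric.closedBall (fun _ : Fin 3 => (1 / 2 : ℝ)) (1 / 2) := by
            rw [k8p_MG_cube]
            intro i
            fin_cases i
            · rcases ha with rfl | rfl <;> simp
            · rcases hb with rfl | rfl <;> simp
            · rcases hc with rfl | rfl <;> simp
          have := hcon _ hmem
          rw [← k8p_ev_sub] at this
          simpa using this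
        have h15 := k8p_l1_le ((f₁ x.1).sub (f₂ y'.1)) (hv 0 0 0 (Or.inl rfl) (Or.inl rfl) (Or.inl rfl)) (hv 1 0 0 (Or.inr rfl) (Or.inl rfl) (Or.inl rfl))
          (hv 0 1 0 (Or.inl rfl) (Or.inr rfl) (Or.inl rfl)) (hv 1 1 0 (Or.inr rfl) (Or.inr rfl) (Or.inl rfl))
          (hv 0 0 1 (Or.inl rfl) (Or.inl rfl) (Or.inr rfl)) (hv 1 0 1 (Or.inr rfl) (Or.inl rfl) (Or.inr rfl))
        have h16 : 15 * (M * R ^ (-ε)) < M := by
          rw [Real.rpow_neg hR0.le]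
          have : 15 * (M * (R ^ ε)⁻¹) = M * (15 / R ^ ε) := by ring
          rw [this]
          have h17 : 15 / R ^ ε < 1 := by
            rw [div_lt_one hRε]
            linarith
          nlinarith
        linarith
    · rw [hpr]
      simp
    · rw [hpr]
      simp
  have hmain := hub (fun _ => 1 / 2) (1 / 2) M Δ (↥S₁ ⊕ ↥S₂) f (fun u => f₀.ev (u 0) (u 1) (u 2)) pr (by norm_num) hΔ hM (k8p_MG_poly f₀ _ _)
    (by
      rintro (x | y)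
      · rw [hf]; exact k8p_MG_poly _ _ _
      · rw [hf]; exact k8p_MG_poly _ _ _)
    (by
      rw [hcE, hNr, Real.rpow_add hR0, mul_comm (R ^ d)]
      exact hcard.trans (mul_le_mul_of_nonneg_right (by linarith) (Real.rpow_pos_of_pos hR0 _).le))
    hcl hrow hcol hae
  -- the total mass
  have htot : ENNReal.ofReal (1 / (t * Nr)) * μ B ≤ ∑ e₁, ∑ e₂, pr e₁ e₂ Set.univ := by
    have h1 : ∑ e₁, ∑ e₂, pr e₁ e₂ Set.univ = ∑ x ∈ S₁, ∑ y ∈ S₂, (volume : Measure (Fin 3 → ℝ)).withDensity (w x y) Set.univ := by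
      rw [Fintype.sum_sum_type, hpr]
      simp only [Fintype.sum_sum_type, Sum.elim_inl, Sum.elim_inr, Measure.coe_zero, Pi.zero_apply, Finset.sum_const_zero, zero_add, add_zero]
      rw [← Finset.sum_coe_sort S₁]
      refine Finset.sum_congr rfl fun x _ => ?_
      rw [← Finset.sum_coe_sort S₂]
    have h2 : ∀ x y, ENNReal.ofReal (1 / (t * Nr)) * μ (B ∩ i₁ ⁻¹' {x} ∩ i₂ ⁻¹' {y}) ≤ (volume : Measure (Fin 3 → ℝ)).withDensity (w x y) Set.univ := by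
      intro x y
      rw [withDensity_apply _ MeasurableSet.univ, Measure.restrict_univ, hw]
      simp only
      have hmρ : Measurable fun u : Fin 3 → ℝ => ρ x y (fun i => ⌊(n : ℝ) * u i⌋) :=
        (Measurable.of_discrete (f := ρ x y)).comp (k8p_MG_meas_c n)
      rw [lintegral_const_mul a hmρ, k8p_MG_lint n hn (ρ x y), ← mul_assoc]
      have e1 : a * ENNReal.ofReal (1 / (n : ℝ) ^ 3) = ENNReal.ofReal (1 / (t * Nr)) := by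
        rw [ha, ← ENNReal.ofReal_mul (by positivity)]
        congr 1
        field_simp
      rw [e1]
      refine mul_le_mul' le_rfl ((hEvc _).trans (le_of_eq (tsum_congr fun k => ?_)))
      rw [hρ]
      congr 1
      ext ω
      simp only [Set.mem_inter_iff]
      tauto
    rw [h1]
    calc ENNReal.ofReal (1 / (t * Nr)) * μ B
        ≤ ENNReal.ofReal (1 / (t * Nr)) * ∑ x ∈ S₁, ∑ y ∈ S₂, μ (B ∩ i₁ ⁻¹' {x} ∩ i₂ ⁻¹' {y}) := by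
          refine mul_le_mul' le_rfl ?_
          calc μ B ≤ μ (⋃ x ∈ S₁, ⋃ y ∈ S₂, B ∩ i₁ ⁻¹' {x} ∩ i₂ ⁻¹' {y}) := by
                refine measure_mono fun ω hω => ?_
                simp only [Set.mem_iUnion]
                exact ⟨i₁ ω, hS₁ ω hω, i₂ ω, hS₂ ω hω, ⟨hω, rfl⟩, rfl⟩
            _ ≤ ∑ x ∈ S₁, μ (⋃ y ∈ S₂, B ∩ i₁ ⁻¹' {x} ∩ i₂ ⁻¹' {y}) := measure_biUnion_finset_le _ _
            _ ≤ ∑ x ∈ S₁, ∑ y ∈ S₂, μ (B ∩ i₁ ⁻¹' {x} ∩ i₂ ⁻¹' {y}) := Finset.sum_le_sum fun x _ => measure_biUnion_finset_le _ _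
      _ = ∑ x ∈ S₁, ∑ y ∈ S₂, ENNReal.ofReal (1 / (t * Nr)) * μ (B ∩ i₁ ⁻¹' {x} ∩ i₂ ⁻¹' {y}) := by
          rw [Finset.mul_sum]
          exact Finset.sum_congr rfl fun x _ => Finset.mul_sum _ _ _
      _ ≤ _ := Finset.sum_le_sum fun x _ => Finset.sum_le_sum fun y _ => h2 x y
  have hfin : ENNReal.ofReal (1 / (t * Nr)) * μ B ≤ ENNReal.ofReal (R ^ (-ε)) := htot.trans hmain.le
  have hTN : T * ((S₁.card + S₂.card : ℕ) : ℝ≥0∞) = ENNReal.ofReal (t * Nr) := by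
    rw [hTt, ENNReal.ofReal_mul ht.le, hNr, ENNReal.ofReal_natCast]
  rw [hTN]
  calc μ B = ENNReal.ofReal (t * Nr) * (ENNReal.ofReal (1 / (t * Nr)) * μ B) := by
        rw [← mul_assoc, ← ENNReal.ofReal_mul (by positivity), mul_one_div_cancel (by positivity), ENNReal.ofReal_one, one_mul]
    _ ≤ ENNReal.ofReal (t * Nr) * ENNReal.ofReal (R ^ (-ε)) := mul_le_mul' le_rfl hfin
    _ = _ := mul_comm _ _

/-- aux of L-252-S8p-SG: fibres of a label counted with multiplicity at most `m` -/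
theorem k8p_SG_count {Ω Y ι : Type*} [MeasurableSpace Ω] (μ : Measure Ω) (E₁ : Set Ω) (hE₁ : MeasurableSet E₁) (L : Ω → Y) (hL : KsLab L)
    (s : Finset ι) (φ : ι → Y) (m : ℕ) (hm : ∀ b, ∀ S ⊆ s, (∀ a ∈ S, φ a = b) → S.card ≤ m) :
    ∑ a ∈ s, μ (E₁ ∩ L ⁻¹' {φ a}) ≤ m * μ E₁ := by
  classical
  rw [Finset.sum_comp (fun b => μ (E₁ ∩ L ⁻¹' {b})) φ]
  calc ∑ b ∈ s.image φ, (s.filter fun a => φ a = b).card • μ (E₁ ∩ L ⁻¹' {b})
      ≤ ∑ b ∈ s.image φ, (m : ℝ≥0∞) * μ (E₁ ∩ L ⁻¹' {b}) := by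
        refine Finset.sum_le_sum fun b _ => ?_
        rw [nsmul_eq_mul]
        exact mul_le_mul' (by exact_mod_cast hm b _ (Finset.filter_subset _ _) (fun a ha => (Finset.mem_filter.1 ha).2)) le_rfl
    _ = m * ∑ b ∈ s.image φ, μ (E₁ ∩ L ⁻¹' {b}) := by rw [Finset.mul_sum]
    _ = m * μ (⋃ b ∈ s.image φ, E₁ ∩ L ⁻¹' {b}) := by
        rw [measure_biUnion_finset _ fun b _ => hE₁.inter (hL b)]
        intro b _ b' _ hbb
        refine Set.disjoint_left.2 fun ω h1 h2 => hbb ?_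
        have a1 : L ω = b := h1.2
        have a2 : L ω = b' := h2.2
        rw [← a1, a2]
    _ ≤ m * μ E₁ := mul_le_mul' le_rfl (measure_mono (Set.iUnion₂_subset fun _ _ => Set.inter_subset_left))

/-- **LEAF L-252-S8p-SG** (~300 l.).  **Summation over the groups, abstract** (08 l.438 "the weights summed per index, including repetitions in neighbouring groups, still cost `≤ K`").
`key` = group, `dm` = domain, `i₁, i₂` = the two indices, `T` = weight of a domain, `κ` = floor constant, `θ` = gain of one group, `m` = number of groups which use a given index of colour 2.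
PLAN.  `Γ₀ := hfin.toFinset`; `B = ⋃_{γ ∈ Γ₀} B ∩ key ⁻¹' {γ}` disjoint measurable: `μ B = ∑_γ μ (B_γ)`.   For `γ ∈ Γ₀` choose `ω_γ ∈ B` with key `γ`, `S₁ γ := (hf₁.subset ..).toFinset` = the indices occurring in `B_γ`, `S₂ γ` alike; `hgrp`.
`T (dm ω_γ) * card (S₁ γ) = ∑_{x ∈ S₁ γ} T ≤ κ ∑_x μ (E₁ ∩ {dm = δ_γ, i₁ = x}) = κ μ (E₁ ∩ U₁ γ)`, `U₁ γ := ⋃_{x ∈ S₁ γ} {dm = δ_γ ∧ i₁ = x}` (disjoint, measurable by `hd₁`; `hfl₁` at a witness, `hkd`).   Same for colour 2.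
The sets `U₁ γ` are pairwise disjoint (`hk₁`) : `∑_γ μ (E₁ ∩ U₁ γ) ≤ μ E₁`.   Every point lies in at most `m` sets `U₂ γ` (`hk₂`) : `∑_γ μ (E₁ ∩ U₂ γ) = ∫⁻ ∑_γ indicator ≤ m μ E₁` (`lintegral_finset_sum`, `lintegral_indicator_one`, or induction). -/
theorem k8p_sum_groups {Ω Γ 𝔇 X₁ X₂ : Type*} [MeasurableSpace Ω] (μ : Measure Ω) (B E₁ : Set Ω) (key : Ω → Γ) (dm : Ω → 𝔇) (i₁ : Ω → X₁) (i₂ : Ω → X₂)
    (T : 𝔇 → ℝ≥0∞) (θ κ : ℝ≥0∞) (m : ℕ) (hBE : B ⊆ E₁) (hB : MeasurableSet B) (hE₁ : MeasurableSet E₁)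
    (hd₁ : KsLab fun ω => (dm ω, i₁ ω)) (hd₂ : KsLab fun ω => (dm ω, i₂ ω))
    (hfin : (key '' B).Finite) (hf₁ : (i₁ '' B).Finite) (hf₂ : (i₂ '' B).Finite)
    (hkd : ∀ ω ∈ B, ∀ ω' ∈ B, key ω = key ω' → dm ω = dm ω')
    (hk₁ : ∀ ω ∈ B, ∀ ω' ∈ B, dm ω = dm ω' → i₁ ω = i₁ ω' → key ω = key ω')
    (hk₂ : ∀ ω₀ ∈ B, ∀ S : Finset Γ, (∀ γ ∈ S, ∃ ω ∈ B, dm ω = dm ω₀ ∧ i₂ ω = i₂ ω₀ ∧ key ω = γ) → S.card ≤ m)
    (hfl₁ : ∀ ω ∈ B, T (dm ω) ≤ κ * μ (E₁ ∩ {ω' | dm ω' = dm ω ∧ i₁ ω' = i₁ ω}))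
    (hfl₂ : ∀ ω ∈ B, T (dm ω) ≤ κ * μ (E₁ ∩ {ω' | dm ω' = dm ω ∧ i₂ ω' = i₂ ω}))
    (hgrp : ∀ ω₀ ∈ B, ∀ (S₁ : Finset X₁) (S₂ : Finset X₂), (↑S₁ : Set X₁) = i₁ '' (B ∩ key ⁻¹' {key ω₀}) →
      (↑S₂ : Set X₂) = i₂ '' (B ∩ key ⁻¹' {key ω₀}) →
      μ (B ∩ key ⁻¹' {key ω₀}) ≤ θ * (T (dm ω₀) * ((S₁.card + S₂.card : ℕ) : ℝ≥0∞))) :
    μ B ≤ θ * κ * (1 + m) * μ E₁ := by
  classical
  rcases B.eq_empty_or_nonempty with hBe | ⟨ωs, hωs⟩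
  · rw [hBe, measure_empty]
    exact zero_le
  have hne : Nonempty Ω := ⟨ωs⟩
  have hw : ∀ γ ∈ hfin.toFinset, ∃ ω, ω ∈ B ∧ key ω = γ := by
    intro γ hγ
    rw [Set.Finite.mem_toFinset] at hγ
    obtain ⟨ω, h1, h2⟩ := hγ
    exact ⟨ω, h1, h2⟩
  choose! w hwB hwk using hw
  obtain ⟨S₁, hS₁⟩ : ∃ S₁ : Γ → Finset X₁, ∀ γ, (↑(S₁ γ) : Set X₁) = i₁ '' (B ∩ key ⁻¹' {γ}) :=
    ⟨fun γ => (hf₁.subset (Set.image_mono Set.inter_subset_left)).toFinset, fun γ => Set.Finite.coe_toFinset _⟩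
  obtain ⟨S₂, hS₂⟩ : ∃ S₂ : Γ → Finset X₂, ∀ γ, (↑(S₂ γ) : Set X₂) = i₂ '' (B ∩ key ⁻¹' {γ}) :=
    ⟨fun γ => (hf₂.subset (Set.image_mono Set.inter_subset_left)).toFinset, fun γ => Set.Finite.coe_toFinset _⟩
  have hm₁ : ∀ γ x, x ∈ S₁ γ → ∃ ω ∈ B, key ω = γ ∧ i₁ ω = x := by
    intro γ x hx
    have : x ∈ (↑(S₁ γ) : Set X₁) := hx
    rw [hS₁] at this
    obtain ⟨ω, h1, h2⟩ := this
    exact ⟨ω, h1.1, h1.2, h2⟩
  have hm₂ : ∀ γ x, x ∈ S₂ γ → ∃ ω ∈ B, key ω = γ ∧ i₂ ω = x := by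
    intro γ x hx
    have : x ∈ (↑(S₂ γ) : Set X₂) := hx
    rw [hS₂] at this
    obtain ⟨ω, h1, h2⟩ := this
    exact ⟨ω, h1.1, h1.2, h2⟩
  -- A. the groups cover `B`
  have hA : μ B ≤ ∑ γ ∈ hfin.toFinset, μ (B ∩ key ⁻¹' {γ}) := by
    refine (measure_mono ?_).trans (measure_biUnion_finset_le _ _)
    intro ω hω
    rw [Set.mem_iUnion₂]
    exact ⟨key ω, by rw [Set.Finite.mem_toFinset]; exact ⟨ω, hω, rfl⟩, hω, rfl⟩
  -- B, C. one group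
  have hC₁ : ∀ γ ∈ hfin.toFinset, T (dm (w γ)) * (S₁ γ).card
      ≤ κ * ∑ x ∈ S₁ γ, μ (E₁ ∩ (fun ω => (dm ω, i₁ ω)) ⁻¹' {(dm (w γ), x)}) := by
    intro γ hγ
    rw [Finset.mul_sum, mul_comm, ← nsmul_eq_mul, ← Finset.sum_const]
    refine Finset.sum_le_sum fun x hx => ?_
    obtain ⟨ω, hωB, hωk, hωi⟩ := hm₁ γ x hx
    have hdm : dm ω = dm (w γ) := hkd ω hωB (w γ) (hwB γ hγ) (by rw [hωk, hwk γ hγ])
    have h1 := hfl₁ ω hωB
    rw [hdm, hωi] at h1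
    refine h1.trans (le_of_eq ?_)
    congr 3
    ext ω'
    simp only [Set.mem_ofPred_eq, Set.mem_preimage, Set.mem_singleton_iff, Prod.mk.injEq]
  have hC₂ : ∀ γ ∈ hfin.toFinset, T (dm (w γ)) * (S₂ γ).card
      ≤ κ * ∑ x ∈ S₂ γ, μ (E₁ ∩ (fun ω => (dm ω, i₂ ω)) ⁻¹' {(dm (w γ), x)}) := by
    intro γ hγ
    rw [Finset.mul_sum, mul_comm, ← nsmul_eq_mul, ← Finset.sum_const]
    refine Finset.sum_le_sum fun x hx => ?_
    obtain ⟨ω, hωB, hωk, hωi⟩ := hm₂ γ x hx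
    have hdm : dm ω = dm (w γ) := hkd ω hωB (w γ) (hwB γ hγ) (by rw [hωk, hwk γ hγ])
    have h1 := hfl₂ ω hωB
    rw [hdm, hωi] at h1
    refine h1.trans (le_of_eq ?_)
    congr 3
    ext ω'
    simp only [Set.mem_ofPred_eq, Set.mem_preimage, Set.mem_singleton_iff, Prod.mk.injEq]
  have hBg : ∀ γ ∈ hfin.toFinset, μ (B ∩ key ⁻¹' {γ})
      ≤ θ * κ * (∑ x ∈ S₁ γ, μ (E₁ ∩ (fun ω => (dm ω, i₁ ω)) ⁻¹' {(dm (w γ), x)})
        + ∑ x ∈ S₂ γ, μ (E₁ ∩ (fun ω => (dm ω, i₂ ω)) ⁻¹' {(dm (w γ), x)})) := by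
    intro γ hγ
    have h1 := hgrp (w γ) (hwB γ hγ) (S₁ γ) (S₂ γ) (by rw [hwk γ hγ, hS₁]) (by rw [hwk γ hγ, hS₂])
    rw [hwk γ hγ] at h1
    refine h1.trans ?_
    rw [mul_assoc θ κ]
    refine mul_le_mul' le_rfl ?_
    push_cast
    rw [mul_add, mul_add]
    exact add_le_add (hC₁ γ hγ) (hC₂ γ hγ)
  -- D. the two counts
  have hD₁ : ∑ γ ∈ hfin.toFinset, ∑ x ∈ S₁ γ, μ (E₁ ∩ (fun ω => (dm ω, i₁ ω)) ⁻¹' {(dm (w γ), x)}) ≤ ((1 : ℕ) : ℝ≥0∞) * μ E₁ := by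
    rw [Finset.sum_sigma']
    refine k8p_SG_count μ E₁ hE₁ (fun ω => (dm ω, i₁ ω)) hd₁ (hfin.toFinset.sigma S₁)
      (fun a : (_ : Γ) × X₁ => (dm (w a.1), a.2)) 1 ?_
    intro b S hS hb
    rw [Finset.card_le_one]
    intro a ha a' ha'
    have h1 := Finset.mem_sigma.1 (hS ha)
    have h2 := Finset.mem_sigma.1 (hS ha')
    have e1 := hb a ha
    have e2 := hb a' ha'
    have e3 : (dm (w a.1), a.2) = (dm (w a'.1), a'.2) := e1.trans e2.symm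
    obtain ⟨e4, e5⟩ := Prod.mk.inj e3
    obtain ⟨ω, hωB, hωk, hωi⟩ := hm₁ a.1 a.2 h1.2
    obtain ⟨ω', hωB', hωk', hωi'⟩ := hm₁ a'.1 a'.2 h2.2
    have d1 : dm ω = dm (w a.1) := hkd ω hωB (w a.1) (hwB _ h1.1) (by rw [hωk, hwk _ h1.1])
    have d2 : dm ω' = dm (w a'.1) := hkd ω' hωB' (w a'.1) (hwB _ h2.1) (by rw [hωk', hwk _ h2.1])
    have hk := hk₁ ω hωB ω' hωB' (by rw [d1, d2, e4]) (by rw [hωi, hωi', e5])
    rw [hωk, hωk'] at hk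
    exact Sigma.ext hk (heq_of_eq e5)
  have hD₂ : ∑ γ ∈ hfin.toFinset, ∑ x ∈ S₂ γ, μ (E₁ ∩ (fun ω => (dm ω, i₂ ω)) ⁻¹' {(dm (w γ), x)}) ≤ (m : ℝ≥0∞) * μ E₁ := by
    rw [Finset.sum_sigma']
    refine k8p_SG_count μ E₁ hE₁ (fun ω => (dm ω, i₂ ω)) hd₂ (hfin.toFinset.sigma S₂)
      (fun a : (_ : Γ) × X₂ => (dm (w a.1), a.2)) m ?_
    intro b S hS hb
    rcases S.eq_empty_or_nonempty with hSe | ⟨a₀, ha₀⟩
    · rw [hSe]
      simp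
    have h0 := Finset.mem_sigma.1 (hS ha₀)
    obtain ⟨ω₀, hωB₀, hωk₀, hωi₀⟩ := hm₂ a₀.1 a₀.2 h0.2
    have d0 : dm ω₀ = dm (w a₀.1) := hkd ω₀ hωB₀ (w a₀.1) (hwB _ h0.1) (by rw [hωk₀, hwk _ h0.1])
    have hinj : Set.InjOn (fun a : (_ : Γ) × X₂ => a.1) (↑S : Set ((_ : Γ) × X₂)) := by
      intro a ha a' ha' haa
      have e3 : (dm (w a.1), a.2) = (dm (w a'.1), a'.2) := (hb a ha).trans (hb a' ha').symm
      exact Sigma.ext haa (heq_of_eq (Prod.mk.inj e3).2)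
    rw [← Finset.card_image_of_injOn hinj]
    refine hk₂ ω₀ hωB₀ _ ?_
    intro γ hγ
    obtain ⟨a, ha, rfl⟩ := Finset.mem_image.1 hγ
    have h1 := Finset.mem_sigma.1 (hS ha)
    obtain ⟨ω, hωB, hωk, hωi⟩ := hm₂ a.1 a.2 h1.2
    have d1 : dm ω = dm (w a.1) := hkd ω hωB (w a.1) (hwB _ h1.1) (by rw [hωk, hwk _ h1.1])
    have e3 : (dm (w a.1), a.2) = (dm (w a₀.1), a₀.2) := (hb a ha).trans (hb a₀ ha₀).symm
    obtain ⟨e4, e5⟩ := Prod.mk.inj e3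
    exact ⟨ω, hωB, by rw [d1, d0, e4], by rw [hωi, hωi₀, e5], hωk⟩
  -- E. conclusion
  calc μ B ≤ ∑ γ ∈ hfin.toFinset, μ (B ∩ key ⁻¹' {γ}) := hA
    _ ≤ ∑ γ ∈ hfin.toFinset, θ * κ * (∑ x ∈ S₁ γ, μ (E₁ ∩ (fun ω => (dm ω, i₁ ω)) ⁻¹' {(dm (w γ), x)})
        + ∑ x ∈ S₂ γ, μ (E₁ ∩ (fun ω => (dm ω, i₂ ω)) ⁻¹' {(dm (w γ), x)})) := Finset.sum_le_sum hBg
    _ = θ * κ * (∑ γ ∈ hfin.toFinset, ∑ x ∈ S₁ γ, μ (E₁ ∩ (fun ω => (dm ω, i₁ ω)) ⁻¹' {(dm (w γ), x)})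
        + ∑ γ ∈ hfin.toFinset, ∑ x ∈ S₂ γ, μ (E₁ ∩ (fun ω => (dm ω, i₂ ω)) ⁻¹' {(dm (w γ), x)})) := by
        rw [← Finset.mul_sum, Finset.sum_add_distrib]
    _ ≤ θ * κ * (((1 : ℕ) : ℝ≥0∞) * μ E₁ + (m : ℝ≥0∞) * μ E₁) := mul_le_mul' le_rfl (add_le_add hD₁ hD₂)
    _ = θ * κ * (1 + m) * μ E₁ := by
        push_cast
        ring

/-! ## B. Caps and counts of the horizontal problem -/

/-- aux of L-252-S8p-GC: integers of the covering interval -/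
theorem k8p_GC_idx {m a δ : ℝ} (hm : 0 < m) {i : ℤ} (hi : i ∈ Finset.Icc ⌊a / m⌋ ⌊(a + δ) / m⌋) :
    a - m ≤ (i : ℝ) * m ∧ (i : ℝ) * m ≤ a + δ := by
  rw [Finset.mem_Icc] at hi
  have h1 : ((⌊a / m⌋ : ℤ) : ℝ) ≤ (i : ℝ) := by exact_mod_cast hi.1
  have h2 : (i : ℝ) ≤ ((⌊(a + δ) / m⌋ : ℤ) : ℝ) := by exact_mod_cast hi.2
  have h3 := Int.lt_floor_add_one (a / m)
  have h4 := Int.floor_le ((a + δ) / m)
  constructor
  · have : a / m - 1 ≤ (i : ℝ) := by linarith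
    have h5 := mul_le_mul_of_nonneg_right this hm.le
    have : (a / m - 1) * m = a - m := by field_simp
    linarith
  · have : (i : ℝ) ≤ (a + δ) / m := by linarith
    exact (le_div_iff₀ hm).1 this

/-- **LEAF L-252-S8p-GC** (~300 l.).  **The joint cap near the graph of a predictor** (08 l.434, l.523-533): velocity bin `b`, parameters in the square `[p₁, p₁+δ] × [q₁, q₁+δ]`, time in `[t0, t1]`, `x` within `r` of `f(t, P)`.
`D'` = a sub-mesh on which the graph is frozen: `Λ` bounds the parameter slopes over unit time, `Mt` the time slope over the (slightly enlarged) square.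
PLAN.  Let `C₀` be the constant of `k7b_band_cap`.   The set is covered by the sub-groups `g' = (b, i, j)` of mesh `D'`, `i ∈ Icc ⌊p₁/D'⌋ ⌊(p₁+δ)/D'⌋`, `j` alike: at most `(δ/D' + 2)² ≤ 9 δ²/D'²` of them.
On `H.Sp ∩ H.gI c.χ D' g'` : `0 ≤ p - i D' < D'`, `t ∈ [0,1]` (field `time`), so `|f.ev t p q₀ - f.ev t (iD') (jD')| ≤ 2 Λ D' ≤ r`, hence `|x - φ(t)| ≤ 2r`, `φ t := f.ev t (iD') (jD')`, which is affine in `t` with slope `f.c1 + f.p1 iD' + f.q1 jD'`, `|slope| ≤ Mt` (`hMt`: `p₁ - D' ≤ iD' ≤ p₁ + δ`).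
`k7b_band_cap` with `D := D'`, `M := Mt`, radius `2r` : `≤ C₀ K^C₀ (t1 - t0 + ξ) (2r)^d gW c.χ D' g'`, `gW = pal (k7bIv χ b) * ofReal (D'²)`, `(2r)^d ≤ 2 r^d` (`0 ≤ d < 1`).   Sum: `18 C₀ K^C₀ (..) r^d δ²`. -/
theorem k8p_graph_cap : ∃ C : ℕ, ∀ (c : K7bPar) (H : K7bHor) (K D' δ Λ Mt r t0 t1 p₁ q₁ : ℝ) (b : ℤ) (f : K8Pr),
    c.WF → 1 ≤ K → H.Ok c K → D' ≤ δ → δ ≤ 1 → c.ξ ≤ D' → c.χ ≤ D' → c.N ^ (-c.e0) ≤ D' →
    (∀ t ∈ Set.Icc (0 : ℝ) 1, |f.p0 + f.p1 * t| ≤ Λ ∧ |f.q0 + f.q1 * t| ≤ Λ) → 2 * Λ * D' ≤ r →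
    (∀ p q : ℝ, p₁ - D' ≤ p → p ≤ p₁ + δ → q₁ - D' ≤ q → q ≤ q₁ + δ → |f.c1 + f.p1 * p + f.q1 * q| ≤ Mt) → Mt * c.ξ ≤ r → c.ϱ ≤ r → t0 ≤ t1 →
    H.lam (H.Sp ∩ {z | k7bBin c.χ (H.v z.1) = b ∧ H.p z.1 ∈ Set.Icc p₁ (p₁ + δ) ∧ H.q0 z.1 ∈ Set.Icc q₁ (q₁ + δ) ∧ z.2 ∈ Set.Icc t0 t1 ∧
        |H.X z - f.ev z.2 (H.p z.1) (H.q0 z.1)| ≤ r})
      ≤ ENNReal.ofReal ((C : ℝ) * K ^ C * (t1 - t0 + c.ξ) * r ^ c.d * δ ^ 2) * H.pal (k7bIv c.χ b) := by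
  obtain ⟨C₀, hC₀⟩ := k7b_band_cap
  refine ⟨18 * C₀, ?_⟩
  intro c H K D' δ Λ Mt r t0 t1 p₁ q₁ b f hc hK h hDδ hδ1 hξD hχD he hΛ hΛr hMt hMr hϱ ht
  have hD : 0 < D' := hc.ξ0.trans_le hξD
  have hδ : 0 < δ := hD.trans_le hDδ
  have hr : 0 < r := hc.ϱ0.trans_le hϱ
  have hK0 : 0 ≤ K := by linarith
  obtain ⟨cP, bP⟩ := k7b5b_bins D' p₁ (p₁ + δ) hD (by linarith)
  obtain ⟨cQ, bQ⟩ := k7b5b_bins D' q₁ (q₁ + δ) hD (by linarith)
  have hcov := k7b5b_cover H.lam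
    (H.Sp ∩ {z | k7bBin c.χ (H.v z.1) = b ∧ H.p z.1 ∈ Set.Icc p₁ (p₁ + δ) ∧ H.q0 z.1 ∈ Set.Icc q₁ (q₁ + δ) ∧ z.2 ∈ Set.Icc t0 t1 ∧
        |H.X z - f.ev z.2 (H.p z.1) (H.q0 z.1)| ≤ r})
    (Finset.Icc ⌊p₁ / D'⌋ ⌊(p₁ + δ) / D'⌋ ×ˢ Finset.Icc ⌊q₁ / D'⌋ ⌊(q₁ + δ) / D'⌋)
    (fun x : ℤ × ℤ => H.Sp ∩ H.gI c.χ D' (b, x.1, x.2) ∩
      {z | z.2 ∈ Set.Icc t0 t1 ∧ |H.X z - (fun t => f.ev t ((x.1 : ℝ) * D') ((x.2 : ℝ) * D')) z.2| ≤ 2 * r})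
    (ENNReal.ofReal ((C₀ : ℝ) * K ^ C₀ * (t1 - t0 + c.ξ) * (2 * r) ^ c.d) * (H.pal (k7bIv c.χ b) * ENNReal.ofReal (D' ^ 2)))
    ?_ ?_
  · refine hcov.trans ?_
    rw [k7b5b_regroup' (by have : 0 ≤ t1 - t0 + c.ξ := by linarith [hc.ξ0]
                           have : 0 ≤ (2 * r) ^ c.d := Real.rpow_nonneg (by linarith) _
                           positivity), ← mul_assoc, ← ENNReal.ofReal_natCast, ← ENNReal.ofReal_mul (Nat.cast_nonneg _)]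
    refine mul_le_mul_left (ENNReal.ofReal_le_ofReal ?_) _
    have hτ : 0 ≤ t1 - t0 + c.ξ := by linarith [hc.ξ0]
    have hrd : 0 ≤ r ^ c.d := Real.rpow_nonneg hr.le _
    have e2 : (2 * r) ^ c.d ≤ 2 * r ^ c.d := by
      rw [Real.mul_rpow (by norm_num) hr.le]
      refine mul_le_mul_of_nonneg_right ?_ hrd
      calc (2 : ℝ) ^ c.d ≤ (2 : ℝ) ^ (1 : ℝ) := Real.rpow_le_rpow_of_exponent_le (by norm_num) hc.d1.le
        _ = 2 := Real.rpow_one 2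
    have hq : 1 ≤ δ / D' := (one_le_div hD).2 hDδ
    have c1 : ((Finset.Icc ⌊p₁ / D'⌋ ⌊(p₁ + δ) / D'⌋).card : ℝ) ≤ 3 * (δ / D') := by
      have : (p₁ + δ - p₁) / D' = δ / D' := by ring
      rw [this] at cP
      linarith
    have c2 : ((Finset.Icc ⌊q₁ / D'⌋ ⌊(q₁ + δ) / D'⌋).card : ℝ) ≤ 3 * (δ / D') := by
      have : (q₁ + δ - q₁) / D' = δ / D' := by ring
      rw [this] at cQ
      linarith
    have e3 : K ^ C₀ ≤ K ^ (18 * C₀) := pow_le_pow_right₀ hK (by omega)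
    rw [Finset.card_product]
    push_cast
    have h2rd : 0 ≤ (2 * r) ^ c.d := Real.rpow_nonneg (by linarith) _
    calc ((Finset.Icc ⌊p₁ / D'⌋ ⌊(p₁ + δ) / D'⌋).card : ℝ) * ((Finset.Icc ⌊q₁ / D'⌋ ⌊(q₁ + δ) / D'⌋).card : ℝ) *
          ((C₀ : ℝ) * K ^ C₀ * (t1 - t0 + c.ξ) * (2 * r) ^ c.d * D' ^ 2)
        ≤ (3 * (δ / D')) * (3 * (δ / D')) * ((C₀ : ℝ) * K ^ (18 * C₀) * (t1 - t0 + c.ξ) * (2 * r ^ c.d) * D' ^ 2) := by
          gcongr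
      _ = 18 * (C₀ : ℝ) * K ^ (18 * C₀) * (t1 - t0 + c.ξ) * r ^ c.d * δ ^ 2 := by
          field_simp
          ring
  · rintro z ⟨hzS, hb, hp, hq, htz, hx⟩
    refine ⟨(k7bBin D' (H.p z.1), k7bBin D' (H.q0 z.1)), Finset.mem_product.2 ⟨bP _ hp, bQ _ hq⟩, ⟨hzS, ?_⟩, htz, ?_⟩
    · show H.grp c.χ D' z.1 = _
      simp only [K7bHor.grp, hb]
    · have ht01 := h.time z hzS
      obtain ⟨l1, l2⟩ := hΛ z.2 ht01
      obtain ⟨a1, a2⟩ := k7b5b_bin_sub D' (H.p z.1) hD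
      obtain ⟨b1, b2⟩ := k7b5b_bin_sub D' (H.q0 z.1) hD
      have e : H.X z - f.ev z.2 ((k7bBin D' (H.p z.1) : ℝ) * D') ((k7bBin D' (H.q0 z.1) : ℝ) * D')
          = (H.X z - f.ev z.2 (H.p z.1) (H.q0 z.1)) + (f.p0 + f.p1 * z.2) * (H.p z.1 - (k7bBin D' (H.p z.1) : ℝ) * D')
            + (f.q0 + f.q1 * z.2) * (H.q0 z.1 - (k7bBin D' (H.q0 z.1) : ℝ) * D') := by
        simp only [K8Pr.ev]; ring
      have hΛ0 : 0 ≤ Λ := (abs_nonneg _).trans l1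
      have m1 : |(f.p0 + f.p1 * z.2) * (H.p z.1 - (k7bBin D' (H.p z.1) : ℝ) * D')| ≤ Λ * D' := by
        rw [abs_mul, abs_of_nonneg a1]
        exact mul_le_mul l1 a2.le a1 hΛ0
      have m2 : |(f.q0 + f.q1 * z.2) * (H.q0 z.1 - (k7bBin D' (H.q0 z.1) : ℝ) * D')| ≤ Λ * D' := by
        rw [abs_mul, abs_of_nonneg b1]
        exact mul_le_mul l2 b2.le b1 hΛ0
      show |H.X z - f.ev z.2 ((k7bBin D' (H.p z.1) : ℝ) * D') ((k7bBin D' (H.q0 z.1) : ℝ) * D')| ≤ 2 * r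
      rw [e]
      refine (abs_add_three _ _ _).trans ?_
      linarith
  · intro x hx
    obtain ⟨hx1, hx2⟩ := Finset.mem_product.1 hx
    obtain ⟨i1, i2⟩ := k8p_GC_idx hD hx1
    obtain ⟨j1, j2⟩ := k8p_GC_idx hD hx2
    have hM := hMt _ _ i1 i2 j1 j2
    have := hC₀ c H K D' Mt (2 * r) t0 t1 (fun t => f.ev t ((x.1 : ℝ) * D') ((x.2 : ℝ) * D')) (b, x.1, x.2) hc hK h (hDδ.trans hδ1) hξD hχD he
      (fun t t' => by
        have e : f.ev t ((x.1 : ℝ) * D') ((x.2 : ℝ) * D') - f.ev t' ((x.1 : ℝ) * D') ((x.2 : ℝ) * D')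
            = (f.c1 + f.p1 * ((x.1 : ℝ) * D') + f.q1 * ((x.2 : ℝ) * D')) * (t - t') := by
          simp only [K8Pr.ev]; ring
        show |f.ev t ((x.1 : ℝ) * D') ((x.2 : ℝ) * D') - f.ev t' ((x.1 : ℝ) * D') ((x.2 : ℝ) * D')| ≤ _
        rw [e, abs_mul]
        exact mul_le_mul_of_nonneg_right hM (abs_nonneg _))
      (by linarith) (by linarith) ht
    exact this

/-- aux of L-252-S8p-CC: the integers `i` with `|i D - A| ≤ W` -/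
theorem k8p_CC_ints {A W D : ℝ} (hD : 0 < D) (hW : 0 ≤ W) :
    ((Finset.Icc ⌈(A - W) / D⌉ ⌊(A + W) / D⌋).card : ℝ) ≤ 2 * W / D + 1 ∧
      ∀ i : ℤ, |(i : ℝ) * D - A| ≤ W → i ∈ Finset.Icc ⌈(A - W) / D⌉ ⌊(A + W) / D⌋ := by
  constructor
  · rw [Int.card_Icc]
    have h1 := Int.floor_le ((A + W) / D)
    have h2 := Int.le_ceil ((A - W) / D)
    have hpos : 0 ≤ 2 * W / D + 1 := by positivity
    rcases le_or_gt 0 (⌊(A + W) / D⌋ + 1 - ⌈(A - W) / D⌉) with h0 | h0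
    · have e0 : (((⌊(A + W) / D⌋ + 1 - ⌈(A - W) / D⌉).toNat : ℤ) : ℝ) = ((⌊(A + W) / D⌋ + 1 - ⌈(A - W) / D⌉ : ℤ) : ℝ) := by
        rw [Int.toNat_of_nonneg h0]
      have e : (((⌊(A + W) / D⌋ + 1 - ⌈(A - W) / D⌉).toNat : ℕ) : ℝ) = ((⌊(A + W) / D⌋ + 1 - ⌈(A - W) / D⌉ : ℤ) : ℝ) := by
        exact_mod_cast e0
      rw [e]
      push_cast
      have : (A + W) / D - (A - W) / D = 2 * W / D := by ring
      linarith
    · rw [Int.toNat_of_nonpos h0.le]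
      simpa using hpos
  · intro i hi
    rw [abs_le] at hi
    rw [Finset.mem_Icc]
    constructor
    · rw [Int.ceil_le, div_le_iff₀ hD]
      linarith [hi.1]
    · rw [Int.le_floor, le_div_iff₀ hD]
      linarith [hi.2]

/-- aux of L-252-S8p-CC, S1, S2: the trivial consequences of the relations -/
theorem k8p_CC_pos {c : K7bPar} {K s D : ℝ} {n : ℕ} (hr : K8pRel c K s D n) :
    0 < c.a s ∧ 0 < D ∧ 0 < c.h s ∧ c.h s ≤ 1 ∧ D ≤ c.h s ∧ c.χ ≤ D ∧ c.N ^ (-c.e0) ≤ D ∧ c.ξ ≤ D := by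
  have hc := hr.wf
  have hN : 0 < c.N := by linarith [hc.N1]
  have ha : 0 < c.a s := Real.rpow_pos_of_pos hN _
  have hh : 0 < c.h s := Real.rpow_pos_of_pos hN _
  have hD : 0 < D := ha.trans_le hr.aD
  have hK := hr.K1
  have hh1 : c.h s ≤ 1 := by nlinarith [hr.Kh]
  have hn : 0 < (n : ℝ) := by
    have h1 := hr.na
    by_contra hcon
    push Not at hcon
    have h2 : (n : ℝ) * c.a s ≤ 0 := mul_nonpos_of_nonpos_of_nonneg hcon ha.le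
    have h3 : 0 < 4000 * K ^ 4 := by positivity
    linarith
  have hn1 : 1 ≤ (n : ℝ) := by
    have : 0 < n := by exact_mod_cast hn
    exact_mod_cast this
  have hDn : D / n ≤ D := div_le_self hD.le hn1
  refine ⟨ha, hD, hh, hh1, ?_, hr.χn.trans hDn, hr.en.trans hDn, hr.ξn.trans hDn⟩
  have : c.h s ^ 2 ≤ c.h s := by nlinarith
  exact hr.Dh.trans this

/-- **LEAF L-252-S8p-CC** (~250 l.).  **A true label meets few parameter cells** (08 l.410-419): per velocity bin at most `200 K² h³/D²`.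
PLAN.  `S = ∅` trivial.  Fix one witness `z* ∈ H.Sp` of some element, `t* := z*.2 ∈ [0,1] ∩ H.blk q` (`time`, `labmem`).   For `x = (i,j) ∈ S` with witness `z = (l, t)` : `l ∈ H.asg q` (`labmem`), so `H.bs l t* ∈ k7bBox ct cZ cY h K` (`box`);
`k7b_grp_pos` at the time `t*` : `|Z_l(t*) - (iD + t* bχ)| ≤ 2D`, `|Y_l(t*) - (jD - t* iD)| ≤ 3D`.   `|t* - ct| ≤ K h ≤ 1`, so `|ct| ≤ 2`.
Hence `|iD + t* bχ - cZ| ≤ K h + 2D` : `i` lies in an interval of `≤ 2 (K h + 2D)/D + 1 ≤ 7 K h / D` integers (`D ≤ h² ≤ h ≤ 1 ≤ K`);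
given `i` : `|jD - t* iD - cY + cZ (t* - ct) - ct (iD + t* bχ - cZ)| ≤ K h² + 3D + 2·2D` : `≤ 2 (K h² + 7D)/D + 1 ≤ 17 K h²/D` integers.   `S ⊆ Finset.sigma / biUnion` of these intervals (`Int.card_Icc`, `Int.floor`, `Int.ceil`). -/
theorem k8p_cell_count (c : K7bPar) (H : K7bHor) {K s D : ℝ} {n : ℕ} (hr : K8pRel c K s D n) (h : H.Ok c K) (q : H.Q) (hq : q ∈ H.Qat s) (b : ℤ)
    (S : Finset (ℤ × ℤ)) (hS : ∀ x ∈ S, ∃ z ∈ H.Sp, H.lab s z = q ∧ H.grp c.χ D z.1 = (b, x.1, x.2)) :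
    (S.card : ℝ) ≤ 200 * K ^ 2 * c.h s ^ 3 / D ^ 2 := by
  classical
  obtain ⟨ha, hD, hh, hh1, hDh, hχ, he, -⟩ := k8p_CC_pos hr
  have hc := hr.wf
  have hK := hr.K1
  have hK0 : 0 < K := by linarith
  rcases S.eq_empty_or_nonempty with rfl | ⟨xs, hxs⟩
  · simp only [Finset.card_empty, Nat.cast_zero]
    positivity
  obtain ⟨zs, hzs, hls, -⟩ := hS xs hxs
  have ht01 := h.time zs hzs
  have htb : zs.2 ∈ H.blk q := by
    have := (h.labmem s hr.sG zs hzs).2.1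
    rwa [hls] at this
  obtain ⟨ts, hts⟩ : ∃ ts : ℝ, ts = zs.2 := ⟨_, rfl⟩
  rw [← hts] at ht01 htb
  obtain ⟨W₁, hW₁⟩ : ∃ W₁ : ℝ, W₁ = K * c.h s + 2 * D := ⟨_, rfl⟩
  obtain ⟨W₂, hW₂⟩ : ∃ W₂ : ℝ, W₂ = K * c.h s ^ 2 + 7 * D := ⟨_, rfl⟩
  have hW₁0 : 0 ≤ W₁ := by rw [hW₁]; positivity
  have hW₂0 : 0 ≤ W₂ := by rw [hW₂]; positivity
  obtain ⟨A₁, hA₁⟩ : ∃ A₁ : ℝ, A₁ = H.cZ q - ts * ((b : ℝ) * c.χ) := ⟨_, rfl⟩
  obtain ⟨B, hB⟩ : ∃ B : ℤ → ℝ, B = fun i : ℤ => ts * ((i : ℝ) * D) + H.cY q - H.cZ q * (ts - H.ct q)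
      + H.ct q * ((i : ℝ) * D + ts * ((b : ℝ) * c.χ) - H.cZ q) := ⟨_, rfl⟩
  have key : ∀ x ∈ S, |(x.1 : ℝ) * D - A₁| ≤ W₁ ∧ |(x.2 : ℝ) * D - B x.1| ≤ W₂ := by
    intro x hx
    obtain ⟨z, hz, hl, hg⟩ := hS x hx
    have hasg : z.1 ∈ H.asg q := by
      have := (h.labmem s hr.sG z hz).2.2
      rwa [hl] at this
    have hbox := h.box s hr.sG q hq z.1 hasg ts htb
    simp only [k7bBox, K7bHor.bs, Set.mem_ofPred_eq] at hbox
    obtain ⟨b1, b2, b3⟩ := hbox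
    obtain ⟨g1, g2⟩ := k7b_grp_pos c H hc h hD hχ he hz ht01
    rw [hg] at g1 g2
    simp only [k7bRef] at g1 g2
    have hKh := hr.Kh
    have hct : |H.ct q| ≤ 2 := by
      rw [abs_le] at b1 ⊢
      constructor <;> linarith [b1.1, b1.2, ht01.1, ht01.2]
    have m1 : |H.ct q * (H.Zt z.1 ts - ((x.1 : ℝ) * D + ts * ((b : ℝ) * c.χ)))| ≤ 2 * (2 * D) := by
      rw [abs_mul]
      exact mul_le_mul hct g1 (abs_nonneg _) (by norm_num)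
    rw [abs_le] at b2 b3 g1 g2 m1
    constructor
    · rw [hA₁, hW₁, abs_le]
      constructor <;> linarith [b2.1, b2.2, g1.1, g1.2]
    · rw [hB, hW₂, abs_le]
      constructor <;> nlinarith [b3.1, b3.2, g2.1, g2.2, m1.1, m1.2]
  have hsub : S ⊆ (Finset.Icc ⌈(A₁ - W₁) / D⌉ ⌊(A₁ + W₁) / D⌋).biUnion
      (fun i => (Finset.Icc ⌈(B i - W₂) / D⌉ ⌊(B i + W₂) / D⌋).image (fun j => (i, j))) := by
    intro x hx
    obtain ⟨k1, k2⟩ := key x hx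
    rw [Finset.mem_biUnion]
    exact ⟨x.1, (k8p_CC_ints hD hW₁0).2 _ k1, Finset.mem_image.2 ⟨x.2, (k8p_CC_ints hD hW₂0).2 _ k2, rfl⟩⟩
  have hcard : (S.card : ℝ) ≤ (2 * W₁ / D + 1) * (2 * W₂ / D + 1) := by
    calc (S.card : ℝ) ≤ (((Finset.Icc ⌈(A₁ - W₁) / D⌉ ⌊(A₁ + W₁) / D⌋).biUnion
          (fun i => (Finset.Icc ⌈(B i - W₂) / D⌉ ⌊(B i + W₂) / D⌋).image (fun j => (i, j)))).card : ℝ) := by
          exact_mod_cast Finset.card_le_card hsub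
      _ ≤ ((∑ i ∈ Finset.Icc ⌈(A₁ - W₁) / D⌉ ⌊(A₁ + W₁) / D⌋,
          ((Finset.Icc ⌈(B i - W₂) / D⌉ ⌊(B i + W₂) / D⌋).image (fun j => (i, j))).card : ℕ) : ℝ) := by
          exact_mod_cast Finset.card_biUnion_le
      _ = ∑ i ∈ Finset.Icc ⌈(A₁ - W₁) / D⌉ ⌊(A₁ + W₁) / D⌋,
          (((Finset.Icc ⌈(B i - W₂) / D⌉ ⌊(B i + W₂) / D⌋).image (fun j => (i, j))).card : ℝ) := by
          push_cast; rfl
      _ ≤ ∑ _i ∈ Finset.Icc ⌈(A₁ - W₁) / D⌉ ⌊(A₁ + W₁) / D⌋, (2 * W₂ / D + 1) := by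
          refine Finset.sum_le_sum fun i _ => ?_
          refine le_trans ?_ (k8p_CC_ints (A := B i) hD hW₂0).1
          exact_mod_cast Finset.card_image_le
      _ = ((Finset.Icc ⌈(A₁ - W₁) / D⌉ ⌊(A₁ + W₁) / D⌋).card : ℝ) * (2 * W₂ / D + 1) := by
          rw [Finset.sum_const, nsmul_eq_mul]
      _ ≤ (2 * W₁ / D + 1) * (2 * W₂ / D + 1) := by
          refine mul_le_mul_of_nonneg_right (k8p_CC_ints hD hW₁0).1 (by positivity)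
  refine hcard.trans ?_
  have u1 : 2 * W₁ / D + 1 ≤ 7 * K * c.h s / D := by
    rw [le_div_iff₀ hD]
    have : (2 * W₁ / D + 1) * D = 2 * W₁ + D := by field_simp
    rw [this, hW₁]
    nlinarith
  have u2 : 2 * W₂ / D + 1 ≤ 17 * K * c.h s ^ 2 / D := by
    rw [le_div_iff₀ hD]
    have : (2 * W₂ / D + 1) * D = 2 * W₂ + D := by field_simp
    rw [this, hW₂]
    have h2 : 0 < c.h s ^ 2 := by positivity
    nlinarith [hr.Dh]
  calc (2 * W₁ / D + 1) * (2 * W₂ / D + 1) ≤ (7 * K * c.h s / D) * (17 * K * c.h s ^ 2 / D) :=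
        mul_le_mul u1 u2 (by positivity) (by positivity)
    _ = 119 * K ^ 2 * c.h s ^ 3 / D ^ 2 := by field_simp; ring
    _ ≤ 200 * K ^ 2 * c.h s ^ 3 / D ^ 2 := by
        gcongr
        norm_num

/-- **LEAF L-252-S8p-S1** (~250 l.).  **Threshold sum of the first list** (08 l.406-409): labels × blocks.
PLAN.  `S ⊆ S' ×ˢ S''`, `S' := S.image (fun x => (x.1, x.2.1))`, `S'' := S.image (fun x => x.2.2)`; the summand is a product, so `∑_S ≤ (∑_{S'} a^d gW) (∑_{S''} volume I)`.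
BLOCKS: every `I ∈ S''` is `H.blk q`, `q ∈ H.Qat s` (`labmem`), contains a time of `[0,1]` and has length `≤ K h ≤ 1` (`bllen`, `hr.Kh`), so `I ⊆ Icc (-1) 2`; distinct blocks are disjoint (`blkdisj`), measurable: `∑ volume I = volume (⋃ I) ≤ 3`.
LABELS: for `(g, h) ∈ S'` with witness `z ∈ E` : `gW g * ofReal (a^d) ≤ ofReal K * lam (E ∩ F.inc c.χ D z.1)` (`hF.floor`); the sets `F.inc ..` of distinct `(g,h)` are disjoint and measurable (`hF.mdom`, `hF.mpr`, `k7b_group_meas`, `measurable_fst`);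
`lam E ≤ ofReal K * (ν.prod k7bTime) univ ≤ ofReal K` (`dom`, `νle`, `k7bTime univ = 1`). -/
theorem k8p_sum1 (c : K7bPar) (H : K7bHor) {K s D : ℝ} {n : ℕ} (hr : K8pRel c K s D n) (h : H.Ok c K) (F : K8Lab H) {E : Set (H.Lam × ℝ)}
    (hF : F.Ok c K s D E) (hE : E ⊆ H.Sp) (S : Finset ((ℤ × ℤ × ℤ) × K8Pr × Set ℝ))
    (hS : ∀ x ∈ S, ∃ z ∈ E, (H.grp c.χ D z.1, F.pr z.1, H.blk (H.lab s z)) = x) :
    ∑ x ∈ S, volume x.2.2 * ENNReal.ofReal (c.a s ^ c.d) * H.gW c.χ D x.1 ≤ ENNReal.ofReal (3 * K ^ 2) := by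
  classical
  obtain ⟨ha, hD, hh, hh1, hDh, hχ, he, -⟩ := k8p_CC_pos hr
  have hK := hr.K1
  have hK0 : 0 ≤ K := by linarith
  have h1 : ∑ x ∈ S.image (fun x => (x.1, x.2.1)), H.gW c.χ D x.1 * ENNReal.ofReal (c.a s ^ c.d) ≤ ENNReal.ofReal (K ^ 2) :=
    k8f_num_sum hK0 h F hF.pre _ (fun x hx => by
      obtain ⟨y, hy, rfl⟩ := Finset.mem_image.1 hx
      obtain ⟨z, hz, rfl⟩ := hS y hy
      exact ⟨z, hz, rfl⟩)
  have hI : ∀ I ∈ S.image (fun x => x.2.2), ∃ q ∈ H.Qat s, I = H.blk q ∧ I ⊆ Set.Icc (-1 : ℝ) 2 := by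
    intro I hI
    obtain ⟨y, hy, rfl⟩ := Finset.mem_image.1 hI
    obtain ⟨z, hz, rfl⟩ := hS y hy
    obtain ⟨l1, l2, -⟩ := h.labmem s hr.sG z (hE hz)
    refine ⟨_, l1, rfl, ?_⟩
    have t01 := h.time z (hE hz)
    have hb := (h.bllen s hr.sG _ l1).2
    have hKh := hr.Kh
    intro t ht
    simp only [K7bHor.blk, Set.mem_Ico] at l2 ht
    constructor <;> linarith [l2.1, l2.2, ht.1, ht.2, t01.1, t01.2]
  have h2 : ∑ I ∈ S.image (fun x => x.2.2), volume I ≤ ENNReal.ofReal 3 := by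
    rw [← measure_biUnion_finset]
    · calc volume (⋃ I ∈ S.image (fun x => x.2.2), I) ≤ volume (Set.Icc (-1 : ℝ) 2) :=
            measure_mono (Set.iUnion₂_subset fun I hI' => by
              obtain ⟨q, -, -, h3⟩ := hI I hI'
              exact h3)
        _ = ENNReal.ofReal 3 := by rw [Real.volume_Icc]; norm_num
    · intro I hI1 J hJ1 hne
      obtain ⟨q, hq, rfl, -⟩ := hI I hI1
      obtain ⟨q', hq', rfl, -⟩ := hI J hJ1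
      rcases h.blkdisj s hr.sG q hq q' hq' with e | d
      · exact absurd e hne
      · exact d
    · intro I hI1
      obtain ⟨q, hq, rfl, -⟩ := hI I hI1
      exact measurableSet_Ico
  calc ∑ x ∈ S, volume x.2.2 * ENNReal.ofReal (c.a s ^ c.d) * H.gW c.χ D x.1
      = ∑ x ∈ S, (fun y : ((ℤ × ℤ × ℤ) × K8Pr) × Set ℝ => (H.gW c.χ D y.1.1 * ENNReal.ofReal (c.a s ^ c.d)) * volume y.2)
          ((x.1, x.2.1), x.2.2) := by
        refine Finset.sum_congr rfl fun x _ => ?_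
        ring
    _ = ∑ y ∈ S.image (fun x => ((x.1, x.2.1), x.2.2)), (H.gW c.χ D y.1.1 * ENNReal.ofReal (c.a s ^ c.d)) * volume y.2 := by
        rw [Finset.sum_image]
        intro x _ y _ hxy
        simp only [Prod.mk.injEq] at hxy
        exact Prod.ext hxy.1.1 (Prod.ext hxy.1.2 hxy.2)
    _ ≤ ∑ y ∈ S.image (fun x => (x.1, x.2.1)) ×ˢ S.image (fun x => x.2.2),
          (H.gW c.χ D y.1.1 * ENNReal.ofReal (c.a s ^ c.d)) * volume y.2 := by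
        refine Finset.sum_le_sum_of_subset ?_
        intro y hy
        obtain ⟨x, hx, rfl⟩ := Finset.mem_image.1 hy
        exact Finset.mem_product.2 ⟨Finset.mem_image_of_mem _ hx, Finset.mem_image_of_mem _ hx⟩
    _ = (∑ x ∈ S.image (fun x => (x.1, x.2.1)), H.gW c.χ D x.1 * ENNReal.ofReal (c.a s ^ c.d)) *
          (∑ I ∈ S.image (fun x => x.2.2), volume I) := by
        rw [Finset.sum_product, Finset.sum_mul_sum]
    _ ≤ ENNReal.ofReal (K ^ 2) * ENNReal.ofReal 3 := mul_le_mul' h1 h2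
    _ = ENNReal.ofReal (3 * K ^ 2) := by
        rw [← ENNReal.ofReal_mul (by positivity)]
        congr 1
        ring

/-- aux of L-252-S8p-S2: summation along the fibres of a key -/
theorem k8p_S2_fib {α β : Type*} [DecidableEq β] (S : Finset α) (f : α → ℝ≥0∞) (g : α → β) (T : Finset β) (B : β → ℝ≥0∞)
    (hg : ∀ x ∈ S, g x ∈ T) (hB : ∀ y ∈ T, ∑ x ∈ S.filter (fun x => g x = y), f x ≤ B y) : ∑ x ∈ S, f x ≤ ∑ y ∈ T, B y := by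
  rw [← Finset.sum_fiberwise_of_maps_to hg]
  exact Finset.sum_le_sum hB

/-- **LEAF L-252-S8p-S2** (~350 l.).  **Threshold sum of the second list** (08 l.410-424): (true label, entry) × groups.
PLAN.  Group the sum by `q = x.2.1 ∈ H.Qat s`, the entry `L = x.2.2 ∈ H.ent q` (`entmem`; `≤ K` of them: `entcard`), the velocity bin `b = x.1.1`, and the cell `(i,j) = x.1.2`.
`gW (b,i,j) = pal (k7bIv χ b) * ofReal (D²)`; for fixed `(q, L, b)` at most `200 K² h³/D²` cells (`k8p_cell_count`); `∑_b pal (k7bIv χ b) ≤ pal univ ≤ 1` (disjoint measurable intervals, `palle`);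
`volume (blk q) = ofReal (bl q)` (`Real.volume_Ico`), `a^d h³ ≤ K ν (asg q)` (`νQ`), `∑_q ofReal (bl q) * ν (asg q) = ∑ mQ ≤ 1` (`budget`).   Total `≤ K · 200 K² · K`.
(Suggested: bound `∑_S` by the sum over `Q' ×ˢ ..` via `Finset.sum_le_sum_of_subset` and `Finset.sum_fiberwise_of_maps_to`, or prove by `Finset.sum_comm'`.) -/
theorem k8p_sum2 (c : K7bPar) (H : K7bHor) {K s D : ℝ} {n : ℕ} (hr : K8pRel c K s D n) (h : H.Ok c K) {E : Set (H.Lam × ℝ)} (hE : E ⊆ H.Sp)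
    (S : Finset ((ℤ × ℤ × ℤ) × H.Q × (ℝ × ℝ × ℝ × ℝ))) (hS : ∀ x ∈ S, ∃ z ∈ E, (H.grp c.χ D z.1, H.lab s z, H.entOf s z) = x) :
    ∑ x ∈ S, volume (H.blk x.2.1) * ENNReal.ofReal (c.a s ^ c.d) * H.gW c.χ D x.1 ≤ ENNReal.ofReal (200 * K ^ 4) := by
  classical
  obtain ⟨ha, hD, hh, hh1, hDh, hχ, he, -⟩ := k8p_CC_pos hr
  have hc := hr.wf
  have hK := hr.K1
  have hK0 : 0 < K := by linarith
  have had : 0 ≤ c.a s ^ c.d := Real.rpow_nonneg ha.le _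
  have hvol : ∀ q, volume (H.blk q) = ENNReal.ofReal (H.bl q) := by
    intro q
    rw [K7bHor.blk, Real.volume_Ico, add_sub_cancel_left]
  -- level 3 : one label, one entry, one velocity bin
  have L3 : ∀ q ∈ H.Qat s, ∀ (L : ℝ × ℝ × ℝ × ℝ) (b : ℤ),
      ∑ x ∈ ((S.filter (fun x => x.2.1 = q)).filter (fun x => x.2.2 = L)).filter (fun x => x.1.1 = b),
        volume (H.blk x.2.1) * ENNReal.ofReal (c.a s ^ c.d) * H.gW c.χ D x.1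
      ≤ ENNReal.ofReal (200 * K ^ 2 * c.h s ^ 3) * (ENNReal.ofReal (H.bl q) * ENNReal.ofReal (c.a s ^ c.d)) * H.pal (k7bIv c.χ b) := by
    intro q hq L b
    obtain ⟨T, hT⟩ : ∃ T : Finset ((ℤ × ℤ × ℤ) × H.Q × (ℝ × ℝ × ℝ × ℝ)),
      T = ((S.filter (fun x => x.2.1 = q)).filter (fun x => x.2.2 = L)).filter (fun x => x.1.1 = b) := ⟨_, rfl⟩
    rw [← hT]
    have hmem : ∀ x ∈ T, x ∈ S ∧ x.2.1 = q ∧ x.2.2 = L ∧ x.1.1 = b := by
      intro x hx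
      rw [hT] at hx
      simp only [Finset.mem_filter] at hx
      exact ⟨hx.1.1.1, hx.1.1.2, hx.1.2, hx.2⟩
    have hcard : (T.card : ℝ) ≤ 200 * K ^ 2 * c.h s ^ 3 / D ^ 2 := by
      have hinj : Set.InjOn (fun x : (ℤ × ℤ × ℤ) × H.Q × (ℝ × ℝ × ℝ × ℝ) => x.1.2) (↑T : Set _) := by
        intro x hx y hy hxy
        obtain ⟨-, x1, x2, x3⟩ := hmem x hx
        obtain ⟨-, y1, y2, y3⟩ := hmem y hy
        refine Prod.ext (Prod.ext (x3.trans y3.symm) hxy) (Prod.ext (x1.trans y1.symm) (x2.trans y2.symm))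
      rw [← Finset.card_image_of_injOn hinj]
      refine k8p_cell_count c H hr h q hq b _ ?_
      intro y hy
      obtain ⟨x, hx, rfl⟩ := Finset.mem_image.1 hy
      obtain ⟨xS, x1, x2, x3⟩ := hmem x hx
      obtain ⟨z, hz, rfl⟩ := hS x xS
      exact ⟨z, hE hz, x1, Prod.ext x3 rfl⟩
    calc ∑ x ∈ T, volume (H.blk x.2.1) * ENNReal.ofReal (c.a s ^ c.d) * H.gW c.χ D x.1
        = ∑ _x ∈ T, ENNReal.ofReal (H.bl q) * ENNReal.ofReal (c.a s ^ c.d) * (H.pal (k7bIv c.χ b) * ENNReal.ofReal (D ^ 2)) := by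
          refine Finset.sum_congr rfl fun x hx => ?_
          obtain ⟨-, x1, x2, x3⟩ := hmem x hx
          rw [x1, hvol, K7bHor.gW, x3]
      _ = (T.card : ℝ≥0∞) * (ENNReal.ofReal (H.bl q) * ENNReal.ofReal (c.a s ^ c.d) * (H.pal (k7bIv c.χ b) * ENNReal.ofReal (D ^ 2))) := by
          rw [Finset.sum_const, nsmul_eq_mul]
      _ ≤ ENNReal.ofReal (200 * K ^ 2 * c.h s ^ 3 / D ^ 2) *
            (ENNReal.ofReal (H.bl q) * ENNReal.ofReal (c.a s ^ c.d) * (H.pal (k7bIv c.χ b) * ENNReal.ofReal (D ^ 2))) := by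
          refine mul_le_mul' ?_ le_rfl
          rw [← ENNReal.ofReal_natCast]
          exact ENNReal.ofReal_le_ofReal hcard
      _ = (ENNReal.ofReal (200 * K ^ 2 * c.h s ^ 3 / D ^ 2) * ENNReal.ofReal (D ^ 2)) *
            (ENNReal.ofReal (H.bl q) * ENNReal.ofReal (c.a s ^ c.d)) * H.pal (k7bIv c.χ b) := by ring
      _ = ENNReal.ofReal (200 * K ^ 2 * c.h s ^ 3) * (ENNReal.ofReal (H.bl q) * ENNReal.ofReal (c.a s ^ c.d)) * H.pal (k7bIv c.χ b) := by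
          rw [← ENNReal.ofReal_mul (by positivity)]
          congr 3
          field_simp
  -- level 2 : one label, one entry
  have L2 : ∀ q ∈ H.Qat s, ∀ (L : ℝ × ℝ × ℝ × ℝ),
      ∑ x ∈ (S.filter (fun x => x.2.1 = q)).filter (fun x => x.2.2 = L),
        volume (H.blk x.2.1) * ENNReal.ofReal (c.a s ^ c.d) * H.gW c.χ D x.1
      ≤ ENNReal.ofReal (200 * K ^ 2 * c.h s ^ 3) * (ENNReal.ofReal (H.bl q) * ENNReal.ofReal (c.a s ^ c.d)) := by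
    intro q hq L
    refine (k8p_S2_fib _ _ (fun x => x.1.1) (S.image (fun x => x.1.1))
      (fun b => ENNReal.ofReal (200 * K ^ 2 * c.h s ^ 3) * (ENNReal.ofReal (H.bl q) * ENNReal.ofReal (c.a s ^ c.d)) * H.pal (k7bIv c.χ b))
      (fun x hx => Finset.mem_image_of_mem _ (Finset.mem_filter.1 (Finset.mem_filter.1 hx).1).1) (fun b _ => L3 q hq L b)).trans ?_
    rw [← Finset.mul_sum]
    calc _ ≤ ENNReal.ofReal (200 * K ^ 2 * c.h s ^ 3) * (ENNReal.ofReal (H.bl q) * ENNReal.ofReal (c.a s ^ c.d)) * 1 :=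
          mul_le_mul' le_rfl (k7b5a_pal_sum c H hc h _)
      _ = _ := mul_one _
  -- level 1 : one label
  have L1 : ∀ q ∈ H.Qat s, ∑ x ∈ S.filter (fun x => x.2.1 = q), volume (H.blk x.2.1) * ENNReal.ofReal (c.a s ^ c.d) * H.gW c.χ D x.1
      ≤ ENNReal.ofReal (200 * K ^ 4) * H.mQ q := by
    intro q hq
    refine (k8p_S2_fib _ _ (fun x => x.2.2) (H.ent q)
      (fun _ => ENNReal.ofReal (200 * K ^ 2 * c.h s ^ 3) * (ENNReal.ofReal (H.bl q) * ENNReal.ofReal (c.a s ^ c.d)))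
      (fun x hx => by
        obtain ⟨xS, x1⟩ := Finset.mem_filter.1 hx
        obtain ⟨z, hz, rfl⟩ := hS x xS
        have := h.entmem s hr.sG z (hE hz)
        have x1' : H.lab s z = q := x1
        rw [x1'] at this
        exact this) (fun L _ => L2 q hq L)).trans ?_
    rw [Finset.sum_const, nsmul_eq_mul]
    have e1 : ((H.ent q).card : ℝ≥0∞) ≤ ENNReal.ofReal K := by
      rw [← ENNReal.ofReal_natCast]
      exact ENNReal.ofReal_le_ofReal (h.entcard q)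
    have e2 : ENNReal.ofReal (c.a s ^ c.d * c.h s ^ 3) ≤ ENNReal.ofReal K * H.ν (H.asg q) := by
      have := (h.νQ s hr.sG q hq).1
      calc ENNReal.ofReal (c.a s ^ c.d * c.h s ^ 3) = ENNReal.ofReal K * ENNReal.ofReal (c.a s ^ c.d * c.h s ^ 3 / K) := by
            rw [← ENNReal.ofReal_mul hK0.le]
            congr 1
            field_simp
        _ ≤ ENNReal.ofReal K * H.ν (H.asg q) := mul_le_mul' le_rfl this
    calc ((H.ent q).card : ℝ≥0∞) * (ENNReal.ofReal (200 * K ^ 2 * c.h s ^ 3) * (ENNReal.ofReal (H.bl q) * ENNReal.ofReal (c.a s ^ c.d)))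
        ≤ ENNReal.ofReal K * (ENNReal.ofReal (200 * K ^ 2 * c.h s ^ 3) * (ENNReal.ofReal (H.bl q) * ENNReal.ofReal (c.a s ^ c.d))) :=
          mul_le_mul' e1 le_rfl
      _ = ENNReal.ofReal (200 * K ^ 3) * ENNReal.ofReal (H.bl q) * ENNReal.ofReal (c.a s ^ c.d * c.h s ^ 3) := by
          have a1 : ENNReal.ofReal (200 * K ^ 2 * c.h s ^ 3) = ENNReal.ofReal (200 * K ^ 2) * ENNReal.ofReal (c.h s ^ 3) :=
            ENNReal.ofReal_mul (by positivity)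
          have a2 : ENNReal.ofReal (200 * K ^ 3) = ENNReal.ofReal K * ENNReal.ofReal (200 * K ^ 2) := by
            rw [← ENNReal.ofReal_mul hK0.le]
            congr 1
            ring
          have a3 : ENNReal.ofReal (c.a s ^ c.d * c.h s ^ 3) = ENNReal.ofReal (c.a s ^ c.d) * ENNReal.ofReal (c.h s ^ 3) :=
            ENNReal.ofReal_mul had
          rw [a1, a2, a3]
          ring
      _ ≤ ENNReal.ofReal (200 * K ^ 3) * ENNReal.ofReal (H.bl q) * (ENNReal.ofReal K * H.ν (H.asg q)) := mul_le_mul' le_rfl e2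
      _ = ENNReal.ofReal (200 * K ^ 4) * H.mQ q := by
          have a4 : ENNReal.ofReal (200 * K ^ 4) = ENNReal.ofReal (200 * K ^ 3) * ENNReal.ofReal K := by
            rw [← ENNReal.ofReal_mul (by positivity)]
            congr 1
            ring
          rw [a4, K7bHor.mQ]
          ring
  refine (k8p_S2_fib S _ (fun x => x.2.1) (H.Qat s) (fun q => ENNReal.ofReal (200 * K ^ 4) * H.mQ q)
    (fun x hx => by
      obtain ⟨z, hz, rfl⟩ := hS x hx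
      exact (h.labmem s hr.sG z (hE hz)).1) L1).trans ?_
  rw [← Finset.mul_sum]
  calc _ ≤ ENNReal.ofReal (200 * K ^ 4) * 1 := mul_le_mul' le_rfl (h.budget s hr.sG)
    _ = _ := mul_one _

/-! helpers of L-252-S8p-FL -/

theorem k8p_FL_pair {Ω X Y : Type*} [MeasurableSpace Ω] {f : Ω → X} {g : Ω → Y} (hf : KsLab f) (hg : KsLab g) : KsLab fun ω => (f ω, g ω) := by
  intro x
  have : (fun ω => (f ω, g ω)) ⁻¹' {x} = f ⁻¹' {x.1} ∩ g ⁻¹' {x.2} := by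
    ext ω
    simp [Prod.ext_iff]
  rw [this]
  exact (hf _).inter (hg _)

theorem k8p_FL_comp {Ω X Y : Type*} [MeasurableSpace Ω] [Countable X] {f : Ω → X} (hf : KsLab f) (φ : X → Y) : KsLab fun ω => φ (f ω) := by
  intro y
  have : (fun ω => φ (f ω)) ⁻¹' {y} = ⋃ x ∈ {x | φ x = y}, f ⁻¹' {x} := by
    ext ω
    simp
  rw [this]
  exact MeasurableSet.biUnion (Set.to_countable _) fun x _ => hf x

theorem k8p_FL_fin_pair {Ω X Y : Type*} {f : Ω → X} {g : Ω → Y} {E : Set Ω} (hf : (f '' E).Finite) (hg : (g '' E).Finite) :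
    ((fun ω => (f ω, g ω)) '' E).Finite := by
  refine (hf.prod hg).subset ?_
  rintro _ ⟨ω, hω, rfl⟩
  exact ⟨⟨ω, hω, rfl⟩, ⟨ω, hω, rfl⟩⟩

theorem k8p_FL_pos {c : K7bPar} {K s D : ℝ} {n : ℕ} (hr : K8pRel c K s D n) :
    0 < c.a s ∧ 0 < D ∧ D ≤ 1 ∧ 0 < n ∧ c.ξ ≤ D ∧ c.χ ≤ D ∧ c.N ^ (-c.e0) ≤ D := by
  have hN0 : 0 < c.N := lt_of_lt_of_le one_pos hr.wf.N1
  have ha : 0 < c.a s := Real.rpow_pos_of_pos hN0 _
  have hD : 0 < D := ha.trans_le hr.aD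
  have hh0 : 0 < c.h s := Real.rpow_pos_of_pos hN0 _
  have hh : c.h s ≤ 1 := by
    unfold K7bPar.h
    refine Real.rpow_le_one_of_one_le_of_nonpos hr.wf.N1 ?_
    have := mul_nonneg hr.wf.k0.le (hr.wf.G0 s hr.sG)
    linarith
  have hD1 : D ≤ 1 := hr.Dh.trans (pow_le_one₀ hh0.le hh)
  have hn : 0 < n := by
    rcases Nat.eq_zero_or_pos n with h0 | h0
    · have := hr.na
      rw [h0] at this
      have hK := hr.K1
      have : (0 : ℝ) < 4000 * K ^ 4 := by positivity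
      simp at *
      linarith
    · exact h0
  have hn1 : (1 : ℝ) ≤ n := by exact_mod_cast hn
  have hDn : D / n ≤ D := div_le_self hD.le hn1
  exact ⟨ha, hD, hD1, hn, hr.ξn.trans hDn, hr.χn.trans hDn, hr.en.trans hDn⟩

section labels
variable (c : K7bPar) (H : K7bHor) {K s D : ℝ}

theorem k8p_FL_lgrp (h : H.Ok c K) : KsLab fun z : H.Lam × ℝ => H.grp c.χ D z.1 := fun g => (k7b_group_meas c H h g).2

theorem k8p_FL_lpr (F : K8Lab H) {E : Set (H.Lam × ℝ)} (hF : F.Ok c K s D E) : KsLab fun z : H.Lam × ℝ => F.pr z.1 :=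
  fun x => measurable_fst (hF.mpr x)

theorem k8p_FL_fgrp (hc : c.WF) (h : H.Ok c K) (hD : 0 < D) {E : Set (H.Lam × ℝ)} (hE : E ⊆ H.Sp) :
    ((fun z : H.Lam × ℝ => H.grp c.χ D z.1) '' E).Finite := by
  refine (k7b_group_finite c H hc h hD).subset ?_
  rintro _ ⟨z, hz, rfl⟩
  exact ⟨z, hE hz, rfl⟩

theorem k8p_FL_fpr (F : K8Lab H) {E : Set (H.Lam × ℝ)} (hF : F.Ok c K s D E) {E' : Set (H.Lam × ℝ)} (hE : E' ⊆ E) :
    ((fun z : H.Lam × ℝ => F.pr z.1) '' E').Finite := by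
  refine hF.fin.subset ?_
  rintro _ ⟨z, hz, rfl⟩
  exact ⟨z.1, hF.cover z (hE hz), rfl⟩

theorem k8p_FL_fent (h : H.Ok c K) (hs : s ∈ c.G) {E : Set (H.Lam × ℝ)} (hE : E ⊆ H.Sp) : ((fun z : H.Lam × ℝ => H.entOf s z) '' E).Finite := by
  classical
  refine (Finset.finite_toSet (Finset.univ.biUnion H.ent)).subset ?_
  rintro _ ⟨z, hz, rfl⟩
  exact Finset.mem_coe.2 (Finset.mem_biUnion.2 ⟨_, Finset.mem_univ _, h.entmem s hs z (hE hz)⟩)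

end labels

theorem k8p_FL_null (c : K7bPar) (H : K7bHor) {K s D : ℝ} {n : ℕ} (hr : K8pRel c K s D n) (h : H.Ok c K) (g : ℤ × ℤ × ℤ) (hg : H.gW c.χ D g = 0) :
    H.lam (H.Sp ∩ H.gI c.χ D g) = 0 := by
  obtain ⟨C₀, hC₀⟩ := k7b_band_cap
  obtain ⟨ha, hD, hD1, hn, h1, h2, h3⟩ := k8p_FL_pos hr
  have hK := hr.K1
  have := hC₀ c H K D 0 (2 * K) 0 1 (fun _ => 0) g hr.wf hK h hD1 h1 h2 h3 (fun t t' => by simp) (by simp; linarith)
    (hr.wf.ϱ1.trans (by linarith)) zero_le_one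
  rw [hg, mul_zero] at this
  refine le_antisymm (le_trans (measure_mono ?_) this) zero_le
  rintro z ⟨hz, hzg⟩
  refine ⟨⟨hz, hzg⟩, h.time z hz, ?_⟩
  obtain ⟨b0, b1⟩ := h.bddx z hz
  obtain ⟨t0, t1⟩ := h.time z hz
  show |H.X z - 0| ≤ 2 * K
  rw [sub_zero]
  unfold K7bHor.X K7bHor.Xt
  refine (abs_add_le _ _).trans ?_
  rw [abs_mul, abs_of_nonneg t0]
  have : z.2 * |H.x1 z.1| ≤ 1 * K := mul_le_mul t1 b1 (abs_nonneg _) zero_le_one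
  linarith

/-- **LEAF L-252-S8p-FL** (~300 l.).  **The floors of L8.4** (08 l.404-428).
PLAN.  (a) NULL GROUPS: `𝒢 := k7b_group_finite`; for `g` with `gW g = 0` : `lam (Sp ∩ gI g) = 0` (`k7b_band_cap` with `f = 0`, `M = 0`, `r = 2K`, `[t0,t1] = [0,1]`; `|X| ≤ 2K` by `bddx`, `time`).   `E⁰ := E \ ⋃_{g ∈ 𝒢, gW g = 0} gI g` : measurable (`k7b_group_meas`), `lam (E \ E⁰) = 0`.
(b) `k8p_floors_abs` for `μ = H.lam`, `E⁰`, `l₁ z := (grp z.1, F.pr z.1, blk (lab s z))`, `l₂ z := (grp z.1, lab s z, entOf s z)`, `T₁ x := volume x.2.2 * ofReal (a^d) * gW x.1`, `T₂ x := volume (blk x.2.1) * ..`, `B := ofReal (200 K⁴)` (`k8p_sum1`, `k8p_sum2`; `3K² ≤ 200K⁴`),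
`κ := ofReal (400 K⁴ / ε)`.   `KsLab l₁` : `k7b_group_meas`, `hF.mpr` composed with `measurable_fst`, `{blk (lab s z) = I} = ⋃_{q, blk q = I} {lab s z = q}` (`mlab`, `Q` finite).   `KsLab l₂` : `mlab`, `ment`.
Finite ranges: `k7b_group_finite`, `hF.fin` + `hF.cover`, `Q` finite, `entmem` (`H.ent q` finite).   `E₁ ∩ l₁ ⁻¹' {l₁ z} = E₁ ∩ F.ev1 c s D z`, `E₁ ∩ l₂ ⁻¹' {l₂ z} = E₁ ∩ H.ev2 c s D z` (ext).   `κ lam (E⁰ \ E₁) ≤ 2B` gives `lam (E⁰ \ E₁) ≤ ε`. -/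
theorem k8p_floors (c : K7bPar) (H : K7bHor) {K s D ε : ℝ} {n : ℕ} (hr : K8pRel c K s D n) (h : H.Ok c K) (F : K8Lab H) {E : Set (H.Lam × ℝ)}
    (hF : F.Ok c K s D E) (hE : E ⊆ H.Sp) (hm : MeasurableSet E) (hε : 0 < ε) :
    ∃ E₁ ⊆ E, MeasurableSet E₁ ∧ H.lam (E \ E₁) ≤ ENNReal.ofReal ε ∧ F.Fl c (400 * K ^ 4 / ε) s D E₁ := by
  classical
  obtain ⟨ha, hD, hD1, hn, -, -, -⟩ := k8p_FL_pos hr
  have hK := hr.K1
  have hK0 : 0 < K := by linarith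
  have hs := hr.sG
  -- null groups
  obtain ⟨𝒢, h𝒢⟩ : ∃ 𝒢 : Finset (ℤ × ℤ × ℤ), 𝒢 = (k7b_group_finite c H hr.wf h hD).toFinset.filter fun g => H.gW c.χ D g = 0 := ⟨_, rfl⟩
  obtain ⟨Z, hZ⟩ : ∃ Z : Set (H.Lam × ℝ), Z = ⋃ g ∈ 𝒢, H.gI c.χ D g := ⟨_, rfl⟩
  have hZm : MeasurableSet Z := by
    rw [hZ]
    exact Finset.measurableSet_biUnion _ fun g _ => (k7b_group_meas c H h g).2
  have hZ0 : H.lam (E ∩ Z) = 0 := by
    refine le_antisymm ?_ zero_le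
    have : E ∩ Z ⊆ ⋃ g ∈ 𝒢, H.Sp ∩ H.gI c.χ D g := by
      rintro z ⟨hz, hzZ⟩
      rw [hZ, Set.mem_iUnion₂] at hzZ
      obtain ⟨g, hg, hzg⟩ := hzZ
      exact Set.mem_iUnion₂.2 ⟨g, hg, hE hz, hzg⟩
    refine (measure_mono this).trans ((measure_biUnion_finset_le _ _).trans ?_)
    refine (Finset.sum_eq_zero fun g hg => ?_).le
    rw [h𝒢, Finset.mem_filter] at hg
    exact k8p_FL_null c H hr h g hg.2
  have hE0 : E \ Z ⊆ E := Set.sdiff_subset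
  have hE0S : E \ Z ⊆ H.Sp := hE0.trans hE
  -- labels
  have hlg := k8p_FL_lgrp c H (D := D) h
  have hlp := k8p_FL_lpr c H F hF
  have hll := h.mlab s hs
  have hle := h.ment s hs
  have hlb : KsLab fun z : H.Lam × ℝ => H.blk (H.lab s z) := k8p_FL_comp hll H.blk
  have hfg := k8p_FL_fgrp c H (D := D) hr.wf h hD hE0S
  have hfp := k8p_FL_fpr c H F hF hE0
  have hfl : ((fun z : H.Lam × ℝ => H.lab s z) '' (E \ Z)).Finite := Set.toFinite _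
  have hfe := k8p_FL_fent c H h hs hE0S
  have hfb : ((fun z : H.Lam × ℝ => H.blk (H.lab s z)) '' (E \ Z)).Finite := by
    refine (Set.toFinite (Set.range H.blk)).subset ?_
    rintro _ ⟨z, -, rfl⟩
    exact ⟨_, rfl⟩
  have hκp : 0 < 400 * K ^ 4 / ε := by positivity
  obtain ⟨E₁, hsub, hm₁, hloss, hf1, hf2⟩ := k8p_floors_abs H.lam
    (fun z : H.Lam × ℝ => (H.grp c.χ D z.1, F.pr z.1, H.blk (H.lab s z)))
    (fun z : H.Lam × ℝ => (H.grp c.χ D z.1, H.lab s z, H.entOf s z))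
    (k8p_FL_pair hlg (k8p_FL_pair hlp hlb)) (k8p_FL_pair hlg (k8p_FL_pair hll hle)) (E \ Z) (hm.diff hZm)
    (k8p_FL_fin_pair hfg (k8p_FL_fin_pair hfp hfb)) (k8p_FL_fin_pair hfg (k8p_FL_fin_pair hfl hfe))
    (fun x => volume x.2.2 * ENNReal.ofReal (c.a s ^ c.d) * H.gW c.χ D x.1)
    (fun x => volume (H.blk x.2.1) * ENNReal.ofReal (c.a s ^ c.d) * H.gW c.χ D x.1)
    (ENNReal.ofReal (200 * K ^ 4)) (ENNReal.ofReal (400 * K ^ 4 / ε)) (ENNReal.ofReal_pos.2 hκp).ne' ENNReal.ofReal_ne_top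
    (fun S hS => (k8p_sum1 c H hr h F hF hE S fun x hx => by
        obtain ⟨z, hz, e⟩ := hS (Finset.mem_coe.2 hx)
        exact ⟨z, hE0 hz, e⟩).trans (ENNReal.ofReal_le_ofReal (by nlinarith [pow_le_pow_right₀ hK (show 2 ≤ 4 by norm_num), sq_nonneg K])))
    (fun S hS => k8p_sum2 c H hr h hE S fun x hx => by
        obtain ⟨z, hz, e⟩ := hS (Finset.mem_coe.2 hx)
        exact ⟨z, hE0 hz, e⟩)
  refine ⟨E₁, hsub.trans hE0, hm₁, ?_, ?_⟩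
  · have h1 : E \ E₁ ⊆ (E ∩ Z) ∪ ((E \ Z) \ E₁) := by
      rintro z ⟨hz, hz1⟩
      by_cases hzZ : z ∈ Z
      · exact Or.inl ⟨hz, hzZ⟩
      · exact Or.inr ⟨⟨hz, hzZ⟩, hz1⟩
    refine (measure_mono h1).trans ((measure_union_le _ _).trans ?_)
    rw [hZ0, zero_add]
    have e : ENNReal.ofReal (400 * K ^ 4 / ε) * ENNReal.ofReal ε = 2 * ENNReal.ofReal (200 * K ^ 4) := by
      rw [← ENNReal.ofReal_mul hκp.le, div_mul_cancel₀ _ hε.ne', ← ENNReal.ofReal_ofNat 2, ← ENNReal.ofReal_mul (by norm_num)]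
      congr 1
      ring
    rw [← e] at hloss
    exact (ENNReal.mul_le_mul_iff_right (ENNReal.ofReal_pos.2 hκp).ne' ENNReal.ofReal_ne_top).1 hloss
  · refine ⟨fun z hz hg => ?_, fun z hz => ?_, fun z hz => ?_⟩
    · have hz0 := hsub hz
      apply hz0.2
      rw [hZ, Set.mem_iUnion₂]
      refine ⟨H.grp c.χ D z.1, ?_, rfl⟩
      rw [h𝒢, Finset.mem_filter, Set.Finite.mem_toFinset]
      exact ⟨⟨z, hE hz0.1, rfl⟩, hg⟩
    · have := hf1 z hz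
      have e : (fun z : H.Lam × ℝ => (H.grp c.χ D z.1, F.pr z.1, H.blk (H.lab s z))) ⁻¹' {(H.grp c.χ D z.1, F.pr z.1, H.blk (H.lab s z))} = F.ev1 c s D z := by
        ext z'
        simp only [Set.mem_preimage, Set.mem_singleton_iff, Prod.mk.injEq, K8Lab.ev1, K7bHor.dm, Set.mem_ofPred_eq]
        tauto
      rw [e] at this
      exact this
    · have := hf2 z hz
      have e : (fun z : H.Lam × ℝ => (H.grp c.χ D z.1, H.lab s z, H.entOf s z)) ⁻¹' {(H.grp c.χ D z.1, H.lab s z, H.entOf s z)} = H.ev2 c s D z := by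
        ext z'
        simp only [Set.mem_preimage, Set.mem_singleton_iff, Prod.mk.injEq, K7bHor.ev2, Set.mem_ofPred_eq]
      rw [e] at this
      exact this

/-! ## C. Pointwise facts on one incidence -/

section point

variable (c : K7bPar) (H : K7bHor) {K s D : ℝ} {n : ℕ}

/-- **LEAF L-252-S8p-PT** (all theorems of this section, ~450 l. together).   `0 < a ≤ D ≤ h² ≤ h ≤ 1`, `0 < bl`.   (`c.a s = N^(-s)`, `c.h s = N^(-(k s))`, `Real.rpow_pos_of_pos`; `K h ≤ 1`, `1 ≤ K`; `bllen`.) -/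
theorem k8p_rel_pos (hr : K8pRel c K s D n) : 0 < c.a s ∧ 0 < D ∧ 0 < c.h s ∧ c.h s ≤ 1 ∧ D ≤ 1 ∧ c.a s ≤ c.h s ^ 2 ∧ c.a s ≤ c.h s ∧ 0 < n := by
  have hN : 0 < c.N := lt_of_lt_of_le one_pos hr.wf.N1
  have ha : 0 < c.a s := Real.rpow_pos_of_pos hN _
  have hh : 0 < c.h s := Real.rpow_pos_of_pos hN _
  have hD : 0 < D := lt_of_lt_of_le ha hr.aD
  have hh1 : c.h s ≤ 1 := by
    have : 1 * c.h s ≤ K * c.h s := mul_le_mul_of_nonneg_right hr.K1 hh.le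
    linarith [hr.Kh]
  have hh2 : c.h s ^ 2 ≤ c.h s := by nlinarith
  refine ⟨ha, hD, hh, hh1, by linarith [hr.Dh], hr.aD.trans hr.Dh, by linarith [hr.aD, hr.Dh], ?_⟩
  rcases Nat.eq_zero_or_pos n with h0 | h0
  · have h1 := hr.na
    rw [h0] at h1
    have hK : 0 < K ^ 4 := by have := hr.K1; positivity
    simp only [Nat.cast_zero, zero_mul] at h1
    linarith
  · exact h0

/-- the scaled coordinates lie in `[0,1)`   (`labmem`: `z.2 ∈ blk`; `bllen`: `0 < h/K ≤ bl`; `k7bBin D x = ⌊x/D⌋`, `Int.floor_le`, `Int.lt_floor_add_one`) -/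
theorem k8p_u_mem (hr : K8pRel c K s D n) (h : H.Ok c K) {z : H.Lam × ℝ} (hz : z ∈ H.Sp) :
    H.uT s z ∈ Set.Ico (0 : ℝ) 1 ∧ H.uP c D z ∈ Set.Ico (0 : ℝ) 1 ∧ H.uQ c D z ∈ Set.Ico (0 : ℝ) 1 := by
  obtain ⟨ha, hD, hh, hh1, hD1, -, -, -⟩ := k8p_rel_pos c hr
  obtain ⟨hq, hb, -⟩ := h.labmem s hr.sG z hz
  have hbl : 0 < H.bl (H.lab s z) :=
    lt_of_lt_of_le (div_pos hh (by linarith [hr.K1])) (h.bllen s hr.sG _ hq).1
  have key : ∀ x : ℝ, (x - (k7bBin D x : ℝ) * D) / D ∈ Set.Ico (0 : ℝ) 1 := by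
    intro x
    have h1 := Int.floor_le (x / D)
    have h2 := Int.lt_floor_add_one (x / D)
    unfold k7bBin
    rw [sub_div, mul_div_assoc, div_self hD.ne', mul_one]
    exact ⟨by linarith, by linarith⟩
  refine ⟨?_, key _, key _⟩
  unfold K7bHor.uT
  rw [K7bHor.blk] at hb
  exact ⟨div_nonneg (by linarith [hb.1]) hbl.le, by rw [div_lt_one hbl]; linarith [hb.2]⟩

/-- evaluation in scaled coordinates   (`k8p_ev_resc`, `mul_div_cancel₀`) -/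
theorem k8p_sc_ev (hr : K8pRel c K s D n) (h : H.Ok c K) {z : H.Lam × ℝ} (hz : z ∈ H.Sp) (f : K8Pr) :
    (H.sc c s D z f).ev (H.uT s z) (H.uP c D z) (H.uQ c D z) = f.ev z.2 (H.p z.1) (H.q0 z.1) := by
  obtain ⟨ha, hD, hh, hh1, hD1, -, -, -⟩ := k8p_rel_pos c hr
  obtain ⟨hq, hb, -⟩ := h.labmem s hr.sG z hz
  have hbl : 0 < H.bl (H.lab s z) :=
    lt_of_lt_of_le (div_pos hh (by linarith [hr.K1])) (h.bllen s hr.sG _ hq).1
  unfold K7bHor.sc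
  rw [k8p_ev_resc]
  unfold K7bHor.uT K7bHor.uP K7bHor.uQ
  rw [mul_div_cancel₀ _ hbl.ne', mul_div_cancel₀ _ hD.ne', mul_div_cancel₀ _ hD.ne']
  congr 1 <;> ring

/-- the scaling depends only on the domain   (`Set.Ico_eq_Ico_iff` / compare `sInf` and lengths: both blocks are non-empty intervals `Ico bt (bt + bl)`, `0 < bl`) -/
theorem k8p_sc_dm (hr : K8pRel c K s D n) (h : H.Ok c K) {z z' : H.Lam × ℝ} (hz : z ∈ H.Sp) (hz' : z' ∈ H.Sp) (hd : z' ∈ H.dm c s D z) (f : K8Pr) :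
    H.sc c s D z' f = H.sc c s D z f ∧ H.tGI c s D z' = H.tGI c s D z ∧ H.bt (H.lab s z') = H.bt (H.lab s z) ∧ H.bl (H.lab s z') = H.bl (H.lab s z) := by
  obtain ⟨ha, hD, hh, hh1, hD1, -, -, -⟩ := k8p_rel_pos c hr
  obtain ⟨hq, hb, -⟩ := h.labmem s hr.sG z hz
  have hbl : 0 < H.bl (H.lab s z) :=
    lt_of_lt_of_le (div_pos hh (by linarith [hr.K1])) (h.bllen s hr.sG _ hq).1
  obtain ⟨hg, hbk⟩ := hd
  have hbk' := hbk
  unfold K7bHor.blk at hbk'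
  rw [Set.Ico_eq_Ico_iff (Or.inr (by linarith))] at hbk'
  obtain ⟨e1, e2⟩ := hbk'
  have e3 : H.bl (H.lab s z') = H.bl (H.lab s z) := by linarith
  refine ⟨?_, ?_, e1, e3⟩
  · unfold K7bHor.sc
    rw [hg, e1, e3]
  · unfold K7bHor.tGI
    rw [hg, hbk]

/-- the block of an incidence lies in `[-1, 2]`, its length is `≤ 1` -/
theorem k8p_blk_sub (hr : K8pRel c K s D n) (h : H.Ok c K) {z : H.Lam × ℝ} (hz : z ∈ H.Sp) :
    -1 ≤ H.bt (H.lab s z) ∧ H.bt (H.lab s z) + H.bl (H.lab s z) ≤ 2 ∧ c.h s / K ≤ H.bl (H.lab s z) ∧ H.bl (H.lab s z) ≤ 1 := by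
  obtain ⟨hq, hb, -⟩ := h.labmem s hr.sG z hz
  obtain ⟨b1, b2⟩ := h.bllen s hr.sG _ hq
  have ht := h.time z hz
  rw [K7bHor.blk] at hb
  have b3 : H.bl (H.lab s z) ≤ 1 := b2.trans hr.Kh
  exact ⟨by linarith [hb.2, ht.1], by linarith [hb.1, ht.2], b1, b3⟩

/-- the slope bounds with the constant `2K`, and the corner of the velocity bin -/
theorem k8p_PT_sl (hr : K8pRel c K s D n) (h : H.Ok c K) {E : Set (H.Lam × ℝ)} (hE : E ⊆ H.Sp) (hs : H.Slopes c K E) {z : H.Lam × ℝ} (hz : z ∈ E) :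
    |(H.entOf s z).2.1 - (H.entOf s z).2.2.2 * H.Zt z.1 z.2| ≤ 2 * K ∧
      |(H.entOf s z).2.2.1 + (H.entOf s z).2.2.2 * z.2| ≤ 2 * K ∧ |(H.entOf s z).2.2.2| ≤ 2 * K ∧
      |H.v z.1 - ((H.grp c.χ D z.1).1 : ℝ) * c.χ| ≤ c.χ ∧ |((H.grp c.χ D z.1).1 : ℝ) * c.χ| ≤ K + 1 := by
  obtain ⟨ha, hD, hh, hh1, hD1, hah2, hah, -⟩ := k8p_rel_pos c hr
  obtain ⟨s1, s2, s3⟩ := hs s hr.sG z hz
  have hK0 : 0 ≤ K := by linarith [hr.K1]
  have r1 : c.a s / c.h s ≤ 1 := (div_le_one hh).2 hah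
  have r2 : c.a s / c.h s ^ 2 ≤ 1 := (div_le_one (by positivity)).2 hah2
  have k1 : K * (1 + c.a s / c.h s) ≤ 2 * K := by nlinarith
  have k2 : K * (1 + c.a s / c.h s ^ 2) ≤ 2 * K := by nlinarith
  have hχ := hr.wf.χ0
  have f1 := Int.floor_le (H.v z.1 / c.χ)
  have f2 := Int.lt_floor_add_one (H.v z.1 / c.χ)
  have g1 : ((H.grp c.χ D z.1).1 : ℝ) * c.χ ≤ H.v z.1 := by
    show ((⌊H.v z.1 / c.χ⌋ : ℤ) : ℝ) * c.χ ≤ H.v z.1
    rwa [← le_div_iff₀ hχ]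
  have g2 : H.v z.1 < ((H.grp c.χ D z.1).1 : ℝ) * c.χ + c.χ := by
    show H.v z.1 < ((⌊H.v z.1 / c.χ⌋ : ℤ) : ℝ) * c.χ + c.χ
    rw [div_lt_iff₀ hχ] at f2
    linarith
  have hv := (h.bdd z (hE hz)).2.1
  rw [abs_le] at hv
  refine ⟨?_, s2.trans k1, s3.trans k2, ?_, ?_⟩
  · have : (H.entOf s z).2.1 - (H.entOf s z).2.2.2 * H.Zt z.1 z.2
        = (H.entOf s z).2.1 + (H.entOf s z).2.2.2 * (-(H.Zt z.1 z.2)) := by ring
    rw [this]; exact s1.trans k1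
  · rw [abs_le]; exact ⟨by linarith, by linarith⟩
  · rw [abs_le]; exact ⟨by linarith [hv.1, hr.wf.χ1], by linarith [hv.2]⟩

/-- slopes of the calligraphic entry.   With `L = (c₀, α₁, α₂, γ) = H.entOf s z`, `(t_z, Z_z)` the position of `z`, `v₀` the corner of the velocity bin: `H.Slopes` and `a/h, a/h² ≤ 1` give `|α₁ - γ Z_z|, |α₂ + γ t_z|, |γ| ≤ 2K`.
`p0 + p1 t = α₂ - γ t = (α₂ + γ t_z) - γ (t + t_z)`;   `c1 + p1 p + q1 q = α₁ + α₂ v₀ - γ p = (α₁ - γ Z_z) + (α₂ + γ t_z) v₀ + γ t_z (v_l - v₀) + γ (p_l - p)`, `|v₀| ≤ K + 1`, `|v_l - v₀| ≤ χ ≤ 1`. -/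
theorem k8p_cal_slopes (hr : K8pRel c K s D n) (h : H.Ok c K) {E : Set (H.Lam × ℝ)} (hE : E ⊆ H.Sp) (hs : H.Slopes c K E) {z : H.Lam × ℝ} (hz : z ∈ E) :
    (∀ t : ℝ, |t| ≤ 2 → |(H.cal c s D z).p0 + (H.cal c s D z).p1 * t| ≤ 8 * K ∧ |(H.cal c s D z).q0 + (H.cal c s D z).q1 * t| ≤ 8 * K) ∧
      ∀ p q : ℝ, |p - H.p z.1| ≤ 2 → |(H.cal c s D z).c1 + (H.cal c s D z).p1 * p + (H.cal c s D z).q1 * q| ≤ 12 * K ^ 2 := by
  obtain ⟨s1, s2, s3, s4, s5⟩ := k8p_PT_sl c H hr h hE hs hz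
  have hK1 := hr.K1
  have hK0 : 0 ≤ K := by linarith
  have ht := h.time z (hE hz)
  have htz : |z.2| ≤ 1 := abs_le.2 ⟨by linarith [ht.1], ht.2⟩
  simp only [K7bHor.cal, k8pCal]
  generalize (H.entOf s z).2.1 = α₁ at *
  generalize (H.entOf s z).2.2.1 = α₂ at *
  generalize (H.entOf s z).2.2.2 = γ at *
  generalize ((H.grp c.χ D z.1).1 : ℝ) * c.χ = v₀ at *
  refine ⟨fun t ht2 => ⟨?_, ?_⟩, fun p q hp => ?_⟩
  · have e : α₂ + -γ * t = (α₂ + γ * z.2) - γ * (t + z.2) := by ring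
    have b : |γ * (t + z.2)| ≤ 2 * K * 3 := by
      rw [abs_mul]
      exact mul_le_mul s3 ((abs_add_le _ _).trans (by linarith)) (abs_nonneg _) (by linarith)
    rw [e]
    exact (abs_sub _ _).trans (by linarith)
  · have e : γ + 0 * t = γ := by ring
    rw [e]; linarith
  · have e : α₁ + α₂ * v₀ + -γ * p + 0 * q
        = (α₁ - γ * H.Zt z.1 z.2) + (α₂ + γ * z.2) * v₀ + γ * (z.2 * (H.v z.1 - v₀) + (H.p z.1 - p)) := by
      unfold K7bHor.Zt; ring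
    have b1 : |(α₂ + γ * z.2) * v₀| ≤ 2 * K * (K + 1) := by
      rw [abs_mul]
      exact mul_le_mul s2 s5 (abs_nonneg _) (by linarith)
    have b2 : |z.2 * (H.v z.1 - v₀)| ≤ 1 * 1 := by
      rw [abs_mul]
      exact mul_le_mul htz (s4.trans hr.wf.χ1) (abs_nonneg _) (by norm_num)
    have b3 : |γ * (z.2 * (H.v z.1 - v₀) + (H.p z.1 - p))| ≤ 2 * K * 3 := by
      rw [abs_mul]
      refine mul_le_mul s3 ((abs_add_le _ _).trans ?_) (abs_nonneg _) (by linarith)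
      rw [abs_sub_comm (H.p z.1) p]
      linarith
    rw [e]
    refine (abs_add_three _ _ _).trans ?_
    nlinarith

/-- the calligraphic entry predicts `x` at the incidence.   `entfit` at `t = z.2`; `k7bAff L (bs l t) - 𝓛(t, p_l, q₀_l) = α₂ t (v_l - v₀) + γ t (y1_l + p_l)`, `|α₂| ≤ 4K`, `|γ| ≤ 2K`, `heq`, `hr.ea`. -/
theorem k8p_cal_fit (hr : K8pRel c K s D n) (h : H.Ok c K) {E : Set (H.Lam × ℝ)} (hE : E ⊆ H.Sp) (hs : H.Slopes c K E) {z : H.Lam × ℝ} (hz : z ∈ E) :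
    |H.X z - (H.cal c s D z).ev z.2 (H.p z.1) (H.q0 z.1)| ≤ (K + 1) * c.a s := by
  obtain ⟨s1, s2, s3, s4, s5⟩ := k8p_PT_sl c H hr h hE hs hz
  have hK1 := hr.K1
  have hK0 : 0 ≤ K := by linarith
  have ht := h.time z (hE hz)
  have htz : |z.2| ≤ 1 := abs_le.2 ⟨by linarith [ht.1], ht.2⟩
  have hfit := h.entfit s hr.sG z (hE hz) z.2 (h.labmem s hr.sG z (hE hz)).2.1
  have heq := h.heq z (hE hz)
  have hea := hr.ea
  have hN0 : 0 ≤ c.N ^ (-c.e0) := (abs_nonneg _).trans heq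
  have hχ0 := hr.wf.χ0
  simp only [K7bHor.cal, k8pCal, K8Pr.ev, K7bHor.X]
  simp only [k7bAff, K7bHor.bs, K7bHor.Zt, K7bHor.Yt] at hfit
  generalize (H.entOf s z).1 = c₀ at *
  generalize (H.entOf s z).2.1 = α₁ at *
  generalize (H.entOf s z).2.2.1 = α₂ at *
  generalize (H.entOf s z).2.2.2 = γ at *
  generalize ((H.grp c.χ D z.1).1 : ℝ) * c.χ = v₀ at *
  have a2 : |α₂| ≤ 4 * K := by
    have e : α₂ = (α₂ + γ * z.2) - γ * z.2 := by ring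
    have b : |γ * z.2| ≤ 2 * K * 1 := by
      rw [abs_mul]; exact mul_le_mul s3 htz (abs_nonneg _) (by linarith)
    rw [e]
    exact (abs_sub _ _).trans (by linarith)
  have e : H.Xt z.1 z.2 - (c₀ + (α₁ + α₂ * v₀) * z.2 + (α₂ + -γ * z.2) * H.p z.1 + (γ + 0 * z.2) * H.q0 z.1)
      = (H.Xt z.1 z.2 - (c₀ + α₁ * z.2 + α₂ * (H.p z.1 + z.2 * H.v z.1) + γ * (H.q0 z.1 + z.2 * H.y1 z.1)))
        + (α₂ * z.2) * (H.v z.1 - v₀) + (γ * z.2) * (H.y1 z.1 + H.p z.1) := by ring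
  have b1 : |(α₂ * z.2) * (H.v z.1 - v₀)| ≤ (4 * K * 1) * c.χ := by
    rw [abs_mul, abs_mul]
    exact mul_le_mul (mul_le_mul a2 htz (abs_nonneg _) (by linarith)) s4 (abs_nonneg _) (by linarith)
  have b2 : |(γ * z.2) * (H.y1 z.1 + H.p z.1)| ≤ (2 * K * 1) * c.N ^ (-c.e0) := by
    rw [abs_mul, abs_mul]
    exact mul_le_mul (mul_le_mul s3 htz (abs_nonneg _) (by linarith)) heq (abs_nonneg _) (by linarith)
  rw [e]
  refine (abs_add_three _ _ _).trans ?_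
  have : 0 ≤ K * c.χ := by positivity
  have : 0 ≤ K * c.N ^ (-c.e0) := by positivity
  nlinarith

/-- slopes of a full-time predictor from its norm (`K8Lab.Ok.norm`): an affine function bounded by `K` on `[p_l - D, p_l + D]` has slope `≤ K/D`; bounded by `5K` on the square of half-side `2D`; affine in `t`, bounded on `[0,1]` : time slope `≤ 10K`, value `≤ 15 K` for `|t| ≤ 2`. -/
theorem k8p_pr_slopes (hr : K8pRel c K s D n) (F : K8Lab H) {E : Set (H.Lam × ℝ)} (hF : F.Ok c K s D E) {l : H.Lam} (hl : l ∈ F.dom) :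
    (∀ t ∈ Set.Icc (0 : ℝ) 1, |(F.pr l).p0 + (F.pr l).p1 * t| ≤ K / D ∧ |(F.pr l).q0 + (F.pr l).q1 * t| ≤ K / D) ∧
      (∀ p q : ℝ, |p - H.p l| ≤ 2 * D → |q - H.q0 l| ≤ 2 * D → |(F.pr l).c1 + (F.pr l).p1 * p + (F.pr l).q1 * q| ≤ 10 * K) ∧
      ∀ t p q : ℝ, |t| ≤ 2 → |p - H.p l| ≤ 2 * D → |q - H.q0 l| ≤ 2 * D → |(F.pr l).ev t p q| ≤ 25 * K := by
  obtain ⟨ha, hD, -⟩ := k8p_rel_pos c hr
  have hK0 : 0 ≤ K := by linarith [hr.K1]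
  have nrm := hF.norm l hl
  generalize F.pr l = f at *
  generalize H.p l = pl at *
  generalize H.q0 l = ql at *
  have z0 : |pl - pl| ≤ D := by simp [hD.le]
  have z0' : |ql - ql| ≤ D := by simp [hD.le]
  have zp : |pl + D - pl| ≤ D := by rw [add_sub_cancel_left, abs_of_pos hD]
  have zm : |pl - D - pl| ≤ D := by rw [sub_sub_cancel_left, abs_neg, abs_of_pos hD]
  have zp' : |ql + D - ql| ≤ D := by rw [add_sub_cancel_left, abs_of_pos hD]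
  have zm' : |ql - D - ql| ≤ D := by rw [sub_sub_cancel_left, abs_neg, abs_of_pos hD]
  have P1 : ∀ t ∈ Set.Icc (0 : ℝ) 1, |f.p0 + f.p1 * t| ≤ K / D ∧ |f.q0 + f.q1 * t| ≤ K / D := by
    intro t ht
    have n1 := nrm t ht (pl + D) ql zp z0'
    have n2 := nrm t ht (pl - D) ql zm z0'
    have n3 := nrm t ht pl (ql + D) z0 zp'
    have n4 := nrm t ht pl (ql - D) z0 zm'
    simp only [K8Pr.ev] at n1 n2 n3 n4
    rw [abs_le] at n1 n2 n3 n4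
    constructor
    · rw [le_div_iff₀ hD, ← abs_of_pos hD, ← abs_mul, abs_le]
      constructor <;> nlinarith [n1.1, n1.2, n2.1, n2.2]
    · rw [le_div_iff₀ hD, ← abs_of_pos hD, ← abs_mul, abs_le]
      constructor <;> nlinarith [n3.1, n3.2, n4.1, n4.2]
  have P5 : ∀ t ∈ Set.Icc (0 : ℝ) 1, ∀ p q : ℝ, |p - pl| ≤ 2 * D → |q - ql| ≤ 2 * D → |f.ev t p q| ≤ 5 * K := by
    intro t ht p q hp hq
    obtain ⟨a1, a2⟩ := P1 t ht
    have n0 := nrm t ht pl ql z0 z0'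
    have e : f.ev t p q = f.ev t pl ql + (f.p0 + f.p1 * t) * (p - pl) + (f.q0 + f.q1 * t) * (q - ql) := by
      simp only [K8Pr.ev]; ring
    have hKD : K / D * (2 * D) = 2 * K := by field_simp
    have b1 : |(f.p0 + f.p1 * t) * (p - pl)| ≤ 2 * K := by
      rw [abs_mul, ← hKD]
      exact mul_le_mul a1 hp (abs_nonneg _) (by positivity)
    have b2 : |(f.q0 + f.q1 * t) * (q - ql)| ≤ 2 * K := by
      rw [abs_mul, ← hKD]
      exact mul_le_mul a2 hq (abs_nonneg _) (by positivity)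
    rw [e]
    exact (abs_add_three _ _ _).trans (by linarith)
  have P2 : ∀ p q : ℝ, |p - pl| ≤ 2 * D → |q - ql| ≤ 2 * D → |f.c1 + f.p1 * p + f.q1 * q| ≤ 10 * K := by
    intro p q hp hq
    have m1 := P5 1 ⟨by norm_num, le_rfl⟩ p q hp hq
    have m0 := P5 0 ⟨le_rfl, by norm_num⟩ p q hp hq
    have e : f.c1 + f.p1 * p + f.q1 * q = f.ev 1 p q - f.ev 0 p q := by
      simp only [K8Pr.ev]; ring
    rw [e]
    exact (abs_sub _ _).trans (by linarith)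
  refine ⟨P1, P2, fun t p q ht hp hq => ?_⟩
  have m0 := P5 0 ⟨le_rfl, by norm_num⟩ p q hp hq
  have m2 := P2 p q hp hq
  have e : f.ev t p q = f.ev 0 p q + t * (f.c1 + f.p1 * p + f.q1 * q) := by
    simp only [K8Pr.ev]; ring
  have b : |t * (f.c1 + f.p1 * p + f.q1 * q)| ≤ 2 * (10 * K) := by
    rw [abs_mul]
    exact mul_le_mul ht m2 (abs_nonneg _) (by norm_num)
  rw [e]
  exact (abs_add_le _ _).trans (by linarith)

/-- **a priori bound of the discrepancy**.   `k8p_l1_le` at the six vertices of the domain (`k8p_ev_resc`): `|H₀| ≤ 25K` there (`k8p_pr_slopes`, `k8p_blk_sub`); `|𝓛| ≤ |x| + (K+1)a + 12K² bl + 2·8K D ≤ 2K + 2K + 12K² + 16K` (`k8p_cal_fit`, `k8p_cal_slopes`, `bddx`, `time`). -/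
theorem k8p_dis_le (hr : K8pRel c K s D n) (h : H.Ok c K) (F : K8Lab H) {E : Set (H.Lam × ℝ)} (hE : E ⊆ H.Sp) (hs : H.Slopes c K E) (hF : F.Ok c K s D E)
    {z : H.Lam × ℝ} (hz : z ∈ E) : F.dis c s D z ≤ 1000 * K ^ 2 := by
  obtain ⟨ha, hD, hh, hh1, hD1, hah2, hah, -⟩ := k8p_rel_pos c hr
  have hK1 := hr.K1
  have hK0 : 0 ≤ K := by linarith
  have hKK : K ≤ K ^ 2 := by rw [pow_two]; exact le_mul_of_one_le_left hK0 hK1
  have hzS := hE hz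
  obtain ⟨b1, b2, b3, b4⟩ := k8p_blk_sub c H hr h hzS
  obtain ⟨-, ⟨u3, u4⟩, ⟨u5, u6⟩⟩ := k8p_u_mem c H hr h hzS
  have hbz := (h.labmem s hr.sG z hzS).2.1
  rw [K7bHor.blk] at hbz
  have hbl0 : 0 ≤ H.bl (H.lab s z) := by linarith [hbz.1, hbz.2]
  have ht := h.time z hzS
  have htz : |z.2| ≤ 2 := abs_le.2 ⟨by linarith [ht.1], by linarith [ht.2]⟩
  obtain ⟨cs1, cs2⟩ := k8p_cal_slopes c H hr h hE hs hz
  have cf := k8p_cal_fit c H hr h hE hs hz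
  obtain ⟨-, -, ps3⟩ := k8p_pr_slopes c H hr F hF (hF.cover z hz)
  have hX : |H.X z| ≤ 2 * K := by
    obtain ⟨x0, x1⟩ := h.bddx z hzS
    unfold K7bHor.X K7bHor.Xt
    have : |z.2 * H.x1 z.1| ≤ 1 * K := by
      rw [abs_mul]
      exact mul_le_mul (abs_le.2 ⟨by linarith [ht.1], ht.2⟩) x1 (abs_nonneg _) (by norm_num)
    exact (abs_add_le _ _).trans (by linarith)
  have eP : H.p z.1 = ((H.grp c.χ D z.1).2.1 : ℝ) * D + D * H.uP c D z := by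
    unfold K7bHor.uP; rw [mul_div_cancel₀ _ hD.ne']; ring
  have eQ : H.q0 z.1 = ((H.grp c.χ D z.1).2.2 : ℝ) * D + D * H.uQ c D z := by
    unfold K7bHor.uQ; rw [mul_div_cancel₀ _ hD.ne']; ring
  have hcz : |(H.cal c s D z).ev z.2 (H.p z.1) (H.q0 z.1)| ≤ 4 * K := by
    have e : (H.cal c s D z).ev z.2 (H.p z.1) (H.q0 z.1)
        = H.X z - (H.X z - (H.cal c s D z).ev z.2 (H.p z.1) (H.q0 z.1)) := by ring
    rw [e]
    refine (abs_sub _ _).trans ?_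
    have : (K + 1) * c.a s ≤ (K + 1) * 1 := mul_le_mul_of_nonneg_left (by linarith) (by linarith)
    linarith
  have key : ∀ τ y1 y2 : ℝ, 0 ≤ τ → τ ≤ 1 → 0 ≤ y1 → y1 ≤ 1 → 0 ≤ y2 → y2 ≤ 1 →
      |(H.sc c s D z ((H.cal c s D z).sub (F.pr z.1))).ev τ y1 y2| ≤ 57 * K ^ 2 := by
    intro τ y1 y2 hτ0 hτ1 hy0 hy1 hw0 hw1
    unfold K7bHor.sc
    rw [k8p_ev_resc, k8p_ev_sub]
    obtain ⟨t, htd⟩ : ∃ t, t = H.bt (H.lab s z) + H.bl (H.lab s z) * τ := ⟨_, rfl⟩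
    obtain ⟨p, hpd⟩ : ∃ p, p = ((H.grp c.χ D z.1).2.1 : ℝ) * D + D * y1 := ⟨_, rfl⟩
    obtain ⟨q, hqd⟩ : ∃ q, q = ((H.grp c.χ D z.1).2.2 : ℝ) * D + D * y2 := ⟨_, rfl⟩
    rw [← htd, ← hpd, ← hqd]
    have hblτ0 : 0 ≤ H.bl (H.lab s z) * τ := mul_nonneg hbl0 hτ0
    have hblτ1 : H.bl (H.lab s z) * τ ≤ H.bl (H.lab s z) := mul_le_of_le_one_right hbl0 hτ1
    have ht2 : |t| ≤ 2 := abs_le.2 ⟨by linarith, by linarith⟩
    have htz1 : |t - z.2| ≤ 1 := abs_le.2 ⟨by linarith [hbz.2], by linarith [hbz.1]⟩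
    have hpD : |p - H.p z.1| ≤ D := by
      rw [hpd, eP, abs_le]
      constructor <;> nlinarith
    have hqD : |q - H.q0 z.1| ≤ D := by
      rw [hqd, eQ, abs_le]
      constructor <;> nlinarith
    have m1 := ps3 t p q ht2 (by linarith) (by linarith)
    have m2 := cs2 p q (by linarith)
    obtain ⟨m3, m4⟩ := cs1 z.2 htz
    have e : (H.cal c s D z).ev t p q = (H.cal c s D z).ev z.2 (H.p z.1) (H.q0 z.1)
        + (t - z.2) * ((H.cal c s D z).c1 + (H.cal c s D z).p1 * p + (H.cal c s D z).q1 * q)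
        + (((H.cal c s D z).p0 + (H.cal c s D z).p1 * z.2) * (p - H.p z.1)
          + ((H.cal c s D z).q0 + (H.cal c s D z).q1 * z.2) * (q - H.q0 z.1)) := by
      simp only [K8Pr.ev]; ring
    have c1 : |(t - z.2) * ((H.cal c s D z).c1 + (H.cal c s D z).p1 * p + (H.cal c s D z).q1 * q)| ≤ 1 * (12 * K ^ 2) := by
      rw [abs_mul]
      exact mul_le_mul htz1 m2 (abs_nonneg _) (by norm_num)
    have c2 : |((H.cal c s D z).p0 + (H.cal c s D z).p1 * z.2) * (p - H.p z.1)| ≤ 8 * K * 1 := by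
      rw [abs_mul]
      exact mul_le_mul m3 (hpD.trans hD1) (abs_nonneg _) (by linarith)
    have c3 : |((H.cal c s D z).q0 + (H.cal c s D z).q1 * z.2) * (q - H.q0 z.1)| ≤ 8 * K * 1 := by
      rw [abs_mul]
      exact mul_le_mul m4 (hqD.trans hD1) (abs_nonneg _) (by linarith)
    have c4 : |(H.cal c s D z).ev t p q| ≤ 4 * K + 12 * K ^ 2 + 16 * K := by
      rw [e]
      refine (abs_add_three _ _ _).trans ?_
      have := abs_add_le (((H.cal c s D z).p0 + (H.cal c s D z).p1 * z.2) * (p - H.p z.1))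
        (((H.cal c s D z).q0 + (H.cal c s D z).q1 * z.2) * (q - H.q0 z.1))
      linarith
    refine (abs_sub _ _).trans ?_
    linarith
  unfold K8Lab.dis
  have := k8p_l1_le (H.sc c s D z ((H.cal c s D z).sub (F.pr z.1))) (B := 57 * K ^ 2)
    (key 0 0 0 le_rfl zero_le_one le_rfl zero_le_one le_rfl zero_le_one)
    (key 1 0 0 zero_le_one le_rfl le_rfl zero_le_one le_rfl zero_le_one)
    (key 0 1 0 le_rfl zero_le_one zero_le_one le_rfl le_rfl zero_le_one)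
    (key 1 1 0 zero_le_one le_rfl zero_le_one le_rfl le_rfl zero_le_one)
    (key 0 0 1 le_rfl zero_le_one le_rfl zero_le_one zero_le_one le_rfl)
    (key 1 0 1 zero_le_one le_rfl le_rfl zero_le_one zero_le_one le_rfl)
  have hK2 : 0 ≤ K ^ 2 := by positivity
  linarith

/-- **from the discrepancy to (i) of L8.4**.   `t = bt + bl τ`, `τ ∈ [0,1)`, `p = (i + y₁) D`, `|y₁| ≤ 2` because `|p - p_l| ≤ D`, `0 ≤ p_l - iD < D`;  `k8p_ev_resc`, `k8p_ev_sub`, `k8p_ev_cal`, `k8p_ev_le` with `B = 2`. -/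
theorem k8p_close_of_dis (hr : K8pRel c K s D n) (h : H.Ok c K) (F : K8Lab H) {z : H.Lam × ℝ} (hz : z ∈ H.Sp) {t p q : ℝ} (ht : t ∈ H.blk (H.lab s z))
    (hp : |p - H.p z.1| ≤ D) (hq : |q - H.q0 z.1| ≤ D) :
    |k8Cal (H.entOf s z) ((H.grp c.χ D z.1).1 * c.χ) t p q - (F.pr z.1).ev t p q| ≤ 2 * F.dis c s D z := by
  obtain ⟨ha, hD, hh, hh1, hD1, hah2, hah, -⟩ := k8p_rel_pos c hr
  obtain ⟨-, ⟨u3, u4⟩, ⟨u5, u6⟩⟩ := k8p_u_mem c H hr h hz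
  obtain ⟨b1, b2, b3, b4⟩ := k8p_blk_sub c H hr h hz
  have hbl : 0 < H.bl (H.lab s z) := lt_of_lt_of_le (div_pos hh (by linarith [hr.K1])) b3
  rw [K7bHor.blk] at ht
  have eP : H.p z.1 = ((H.grp c.χ D z.1).2.1 : ℝ) * D + D * H.uP c D z := by
    unfold K7bHor.uP; rw [mul_div_cancel₀ _ hD.ne']; ring
  have eQ : H.q0 z.1 = ((H.grp c.χ D z.1).2.2 : ℝ) * D + D * H.uQ c D z := by
    unfold K7bHor.uQ; rw [mul_div_cancel₀ _ hD.ne']; ring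
  have e : (H.sc c s D z ((H.cal c s D z).sub (F.pr z.1))).ev ((t - H.bt (H.lab s z)) / H.bl (H.lab s z))
      ((p - ((H.grp c.χ D z.1).2.1 : ℝ) * D) / D) ((q - ((H.grp c.χ D z.1).2.2 : ℝ) * D) / D)
      = k8Cal (H.entOf s z) ((H.grp c.χ D z.1).1 * c.χ) t p q - (F.pr z.1).ev t p q := by
    unfold K7bHor.sc
    rw [k8p_ev_resc, k8p_ev_sub, mul_div_cancel₀ _ hbl.ne', mul_div_cancel₀ _ hD.ne', mul_div_cancel₀ _ hD.ne',
      add_sub_cancel, add_sub_cancel, add_sub_cancel]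
    unfold K7bHor.cal
    rw [k8p_ev_cal]
  rw [← e]
  unfold K8Lab.dis
  rw [abs_le] at hp hq
  have hDu : 0 ≤ D * H.uP c D z := mul_nonneg hD.le u3
  have hDu' : D * H.uP c D z ≤ D := mul_le_of_le_one_right hD.le u4.le
  have hDw : 0 ≤ D * H.uQ c D z := mul_nonneg hD.le u5
  have hDw' : D * H.uQ c D z ≤ D := mul_le_of_le_one_right hD.le u6.le
  refine k8p_ev_le _ (by norm_num) ?_ ?_ ?_
  · rw [abs_le]
    constructor
    · have : 0 ≤ (t - H.bt (H.lab s z)) / H.bl (H.lab s z) := div_nonneg (by linarith [ht.1]) hbl.le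
      linarith
    · rw [div_le_one hbl]; linarith [ht.2]
  · rw [abs_le]
    constructor
    · rw [le_div_iff₀ hD]; linarith [hp.1]
    · rw [div_le_iff₀ hD]; linarith [hp.2]
  · rw [abs_le]
    constructor
    · rw [le_div_iff₀ hD]; linarith [hq.1]
    · rw [div_le_iff₀ hD]; linarith [hq.2]

end point

/-! ## C'. The finite labels of an incidence (PROVED, helper114; shared by FL, C1, C2, GB, BS) -/

/-- a set cut out of a measurable set by a label with finitely many values is measurable -/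
theorem k8p_lab_meas {Ω X : Type*} [MeasurableSpace Ω] {l : Ω → X} (hl : KsLab l) {E : Set Ω} (hE : MeasurableSet E) (hf : (l '' E).Finite)
    (P : Set X) : MeasurableSet (E ∩ l ⁻¹' P) := by
  have e : E ∩ l ⁻¹' P = ⋃ x ∈ (l '' E ∩ P), (E ∩ l ⁻¹' {x}) := by
    ext ω
    simp only [Set.mem_inter_iff, Set.mem_preimage, Set.mem_iUnion, Set.mem_singleton_iff, exists_prop]
    constructor
    · rintro ⟨h1, h2⟩
      exact ⟨l ω, ⟨⟨ω, h1, rfl⟩, h2⟩, h1, rfl⟩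
    · rintro ⟨x, ⟨-, h2⟩, h3, rfl⟩
      exact ⟨h3, h2⟩
  rw [e]
  exact (hf.subset Set.inter_subset_left).measurableSet_biUnion fun x _ => hE.inter (hl x)

/-- the four labels `(group, predictor, true label, entry)` : level sets are measurable -/
theorem k8p_lb_lab (c : K7bPar) (H : K7bHor) {K s D : ℝ} (hs : s ∈ c.G) (h : H.Ok c K) (F : K8Lab H) (hmpr : ∀ f, MeasurableSet (F.pr ⁻¹' {f})) :
    KsLab fun z : H.Lam × ℝ => (H.grp c.χ D z.1, F.pr z.1, H.lab s z, H.entOf s z) := by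
  rintro ⟨g, f, q, e⟩
  have e1 : (fun z : H.Lam × ℝ => (H.grp c.χ D z.1, F.pr z.1, H.lab s z, H.entOf s z)) ⁻¹' {(g, f, q, e)}
      = H.gI c.χ D g ∩ (Prod.fst ⁻¹' (F.pr ⁻¹' {f})) ∩ (H.lab s ⁻¹' {q}) ∩ (H.entOf s ⁻¹' {e}) := by
    ext z
    simp only [Set.mem_preimage, Set.mem_singleton_iff, Prod.mk.injEq, Set.mem_inter_iff, K7bHor.gI, Set.mem_setOf_eq]
    tauto
  rw [e1]
  exact (((k7b_group_meas c H h g).2.inter (measurable_fst (hmpr f))).inter (h.mlab s hs q)).inter (h.ment s hs e)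

/-- finitely many values on a labelled selection -/
theorem k8p_lb_fin (c : K7bPar) (H : K7bHor) {K s D : ℝ} (hc : c.WF) (hD : 0 < D) (hs : s ∈ c.G) (h : H.Ok c K) (F : K8Lab H) {E : Set (H.Lam × ℝ)}
    (hF : F.Ok c K s D E) (hE : E ⊆ H.Sp) :
    ((fun z : H.Lam × ℝ => (H.grp c.χ D z.1, F.pr z.1, H.lab s z, H.entOf s z)) '' E).Finite := by
  refine Set.Finite.subset ((k7b_group_finite c H hc h hD).prod (hF.fin.prod ((Set.finite_univ (α := H.Q)).prod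
    (Set.finite_iUnion fun q : H.Q => (H.ent q).finite_toSet)))) ?_
  rintro _ ⟨z, hz, rfl⟩
  exact ⟨⟨z, hE hz, rfl⟩, ⟨z.1, hF.cover z hz, rfl⟩, Set.mem_univ _, Set.mem_iUnion.2 ⟨H.lab s z, h.entmem s hs z (hE hz)⟩⟩

/-- **every event which depends only on the four labels is measurable inside a measurable sub-selection** -/
theorem k8p_lb_meas (c : K7bPar) (H : K7bHor) {K s D : ℝ} (hc : c.WF) (hD : 0 < D) (hs : s ∈ c.G) (h : H.Ok c K) (F : K8Lab H) {E E₁ : Set (H.Lam × ℝ)}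
    (hF : F.Ok c K s D E) (hE : E ⊆ H.Sp) (h1 : E₁ ⊆ E) (hm : MeasurableSet E₁) (P : Set ((ℤ × ℤ × ℤ) × K8Pr × H.Q × (ℝ × ℝ × ℝ × ℝ))) :
    MeasurableSet (E₁ ∩ {z | (H.grp c.χ D z.1, F.pr z.1, H.lab s z, H.entOf s z) ∈ P}) :=
  k8p_lab_meas (k8p_lb_lab c H hs h F hF.mpr) hm ((k8p_lb_fin c H hc hD hs h F hF hE).subset (Set.image_mono h1)) P

/-! ## D. Counts, groups, scales -/

/-! helpers of L-252-S8p-C1, C2 -/

/-- the common core of the two counts: disjoint events with the floor `T_{GI}/K₁`, all inside the band of radius `(K+2) r` around the predictor of `z₀` over the domain of `z₀` -/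
theorem k8p_C_core : ∃ C : ℕ, ∀ (c : K7bPar) (H : K7bHor) (K K₁ s D r : ℝ) (n : ℕ) (F : K8Lab H) (E : Set (H.Lam × ℝ)) (z₀ : H.Lam × ℝ)
    (X : Type) (S : Finset X) (A : X → Set (H.Lam × ℝ)),
    K8pRel c K s D n → H.Ok c K → F.Ok c K s D E → z₀ ∈ E → E ⊆ H.Sp → 1 ≤ K₁ → H.gW c.χ D (H.grp c.χ D z₀.1) ≠ 0 → c.a s ≤ r →
    (∀ x ∈ S, MeasurableSet (A x)) → (∀ x ∈ S, ∀ y ∈ S, x ≠ y → Disjoint (A x) (A y)) →
    (∀ x ∈ S, H.tGI c s D z₀ ≤ ENNReal.ofReal K₁ * H.lam (A x)) →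
    (∀ x ∈ S, ∀ z ∈ A x, z ∈ H.Sp ∧ z ∈ H.dm c s D z₀ ∧ |H.X z - (F.pr z₀.1).ev z.2 (H.p z.1) (H.q0 z.1)| ≤ (K + 2) * r) →
    (S.card : ℝ) ≤ (C : ℝ) * K ^ C * K₁ * (r / c.a s) ^ c.d := by
  obtain ⟨C₀, hC₀⟩ := k8p_graph_cap
  refine ⟨6 * C₀ + 1, ?_⟩
  intro c H K K₁ s D r n F E z₀ X S A hr h hF hz₀ hE hK₁ hgW har hAm hAd hAf hAb
  obtain ⟨ha, hD, hh0, hh1, hD1, -, -, hn⟩ := k8p_rel_pos c hr
  have hK := hr.K1
  have hK0 : 0 < K := by linarith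
  have hs := hr.sG
  have hr0 : 0 < r := ha.trans_le har
  have hn0 : (0 : ℝ) < n := by exact_mod_cast hn
  have hn1 : (1 : ℝ) ≤ n := by exact_mod_cast hn
  have hz₀S := hE hz₀
  obtain ⟨hb1, hb2, hb3, hb4⟩ := k8p_blk_sub c H hr h hz₀S
  obtain ⟨bt, hbt⟩ : ∃ bt, bt = H.bt (H.lab s z₀) := ⟨_, rfl⟩
  obtain ⟨bl, hbl⟩ : ∃ bl, bl = H.bl (H.lab s z₀) := ⟨_, rfl⟩
  rw [← hbt, ← hbl] at hb2
  rw [← hbl] at hb3 hb4
  have hbl0 : 0 < bl := lt_of_lt_of_le (by positivity) hb3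
  obtain ⟨g, hg⟩ : ∃ g, g = H.grp c.χ D z₀.1 := ⟨_, rfl⟩
  obtain ⟨π, hπ⟩ : ∃ π, π = H.pal (k7bIv c.χ g.1) := ⟨_, rfl⟩
  have hl₀ : z₀.1 ∈ F.dom := hF.cover z₀ hz₀
  obtain ⟨sl1, sl2, -⟩ := k8p_pr_slopes c H hr F hF hl₀
  have hp₀ := k7b5b_bin_sub D (H.p z₀.1) hD
  have hq₀ := k7b5b_bin_sub D (H.q0 z₀.1) hD
  have hg21 : g.2.1 = k7bBin D (H.p z₀.1) := by rw [hg]; rfl
  have hg22 : g.2.2 = k7bBin D (H.q0 z₀.1) := by rw [hg]; rfl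
  have hDn : D / n ≤ D := div_le_self hD.le hn1
  have hK4 : K ≤ K ^ 4 := by
    calc K = K ^ 1 := (pow_one K).symm
      _ ≤ K ^ 4 := pow_le_pow_right₀ hK (by norm_num)
  have hK6 : K ≤ K ^ 6 := by
    calc K = K ^ 1 := (pow_one K).symm
      _ ≤ K ^ 6 := pow_le_pow_right₀ hK (by norm_num)
  have hrr : r ≤ (K + 2) * r := by nlinarith
  have hcap := hC₀ c H K (D / n) D (K / D) (10 * K) ((K + 2) * r) bt (bt + bl) ((g.2.1 : ℝ) * D) ((g.2.2 : ℝ) * D) g.1 (F.pr z₀.1)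
    hr.wf hK h hDn hD1 hr.ξn hr.χn hr.en sl1
    (by
      have e : 2 * (K / D) * (D / n) = 2 * K / n := by field_simp
      rw [e, div_le_iff₀ hn0]
      have := hr.na
      nlinarith)
    (fun p q h1 h2 h3 h4 => sl2 p q
      (by rw [hg21] at h1 h2; rw [abs_le]; constructor <;> linarith [hp₀.1, hp₀.2])
      (by rw [hg22] at h3 h4; rw [abs_le]; constructor <;> linarith [hq₀.1, hq₀.2]))
    (by
      have h1 := hr.ξa
      have h2 : c.a s * c.h s ≤ c.a s := mul_le_of_le_one_right ha.le hh1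
      have h3 : 10 * K * c.ξ ≤ 1000 * K ^ 6 * c.ξ := mul_le_mul_of_nonneg_right (by linarith) hr.wf.ξ0.le
      linarith)
    (by linarith [hr.ϱa]) (by linarith)
  rw [← hπ] at hcap
  -- the union of the events lies in the band
  have hsub : (⋃ x ∈ S, A x) ⊆ H.Sp ∩ {z | k7bBin c.χ (H.v z.1) = g.1 ∧ H.p z.1 ∈ Set.Icc ((g.2.1 : ℝ) * D) ((g.2.1 : ℝ) * D + D) ∧
      H.q0 z.1 ∈ Set.Icc ((g.2.2 : ℝ) * D) ((g.2.2 : ℝ) * D + D) ∧ z.2 ∈ Set.Icc bt (bt + bl) ∧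
        |H.X z - (F.pr z₀.1).ev z.2 (H.p z.1) (H.q0 z.1)| ≤ (K + 2) * r} := by
    intro z hz
    rw [Set.mem_iUnion₂] at hz
    obtain ⟨x, hx, hzx⟩ := hz
    obtain ⟨hzS, ⟨hzg, hzb⟩, hzX⟩ := hAb x hx z hzx
    rw [← hg] at hzg
    have hp := k7b5b_bin_sub D (H.p z.1) hD
    have hq := k7b5b_bin_sub D (H.q0 z.1) hD
    have e1 : k7bBin c.χ (H.v z.1) = g.1 := by rw [← hzg]; rfl
    have e2 : k7bBin D (H.p z.1) = g.2.1 := by rw [← hzg]; rfl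
    have e3 : k7bBin D (H.q0 z.1) = g.2.2 := by rw [← hzg]; rfl
    rw [e2] at hp
    rw [e3] at hq
    have ht : z.2 ∈ H.blk (H.lab s z₀) := by rw [← hzb]; exact (h.labmem s hs z hzS).2.1
    unfold K7bHor.blk at ht
    rw [← hbt, ← hbl] at ht
    exact ⟨hzS, e1, ⟨by linarith [hp.1], by linarith [hp.2]⟩, ⟨by linarith [hq.1], by linarith [hq.2]⟩, ⟨ht.1, ht.2.le⟩, hzX⟩
  have hπ0 : π ≠ 0 := by
    intro h0
    apply hgW
    unfold K7bHor.gW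
    rw [← hg, ← hπ, h0, zero_mul]
  have hπt : π ≠ ⊤ := by
    rw [hπ]
    exact ((measure_mono (Set.subset_univ _)).trans_lt (h.palle.trans_lt ENNReal.one_lt_top)).ne
  have hT : H.tGI c s D z₀ = ENNReal.ofReal (bl * c.a s ^ c.d * D ^ 2) * π := by
    unfold K7bHor.tGI K7bHor.gW K7bHor.blk
    rw [← hg, ← hπ, ← hbt, ← hbl, Real.volume_Ico, ENNReal.ofReal_mul (by positivity), ENNReal.ofReal_mul hbl0.le]
    have : bt + bl - bt = bl := by ring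
    rw [this]
    ring
  have hsum : (S.card : ℝ≥0∞) * H.tGI c s D z₀ ≤ ENNReal.ofReal K₁ * H.lam (⋃ x ∈ S, A x) := by
    rw [measure_biUnion_finset (fun x hx y hy hxy => hAd x hx y hy hxy) hAm, Finset.mul_sum]
    calc (S.card : ℝ≥0∞) * H.tGI c s D z₀ = ∑ _x ∈ S, H.tGI c s D z₀ := by rw [Finset.sum_const, nsmul_eq_mul]
      _ ≤ _ := Finset.sum_le_sum hAf
  have had : 0 < c.a s ^ c.d := Real.rpow_pos_of_pos ha _
  have hrd : 0 < ((K + 2) * r) ^ c.d := Real.rpow_pos_of_pos (by positivity) _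
  have hfin : ENNReal.ofReal ((S.card : ℝ) * (bl * c.a s ^ c.d * D ^ 2)) * π
      ≤ ENNReal.ofReal (K₁ * ((C₀ : ℝ) * K ^ C₀ * (bt + bl - bt + c.ξ) * ((K + 2) * r) ^ c.d * D ^ 2)) * π := by
    calc ENNReal.ofReal ((S.card : ℝ) * (bl * c.a s ^ c.d * D ^ 2)) * π = (S.card : ℝ≥0∞) * H.tGI c s D z₀ := by
          rw [hT, ENNReal.ofReal_mul (Nat.cast_nonneg _), ENNReal.ofReal_natCast, mul_assoc]
      _ ≤ ENNReal.ofReal K₁ * H.lam (⋃ x ∈ S, A x) := hsum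
      _ ≤ ENNReal.ofReal K₁ * (ENNReal.ofReal ((C₀ : ℝ) * K ^ C₀ * (bt + bl - bt + c.ξ) * ((K + 2) * r) ^ c.d * D ^ 2) * π) :=
          mul_le_mul_right ((measure_mono hsub).trans hcap) _
      _ = _ := by rw [ENNReal.ofReal_mul (p := K₁) (by linarith)]; ring
  have hfin2 := (ENNReal.mul_le_mul_iff_left hπ0 hπt).1 hfin
  have hξbl : c.ξ ≤ bl := by
    have h1 := hr.ξt
    have h2 : c.ξ * K ≤ K * c.ξ * n := by
      have : 0 ≤ K * c.ξ := by have := hr.wf.ξ0; positivity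
      nlinarith
    have h3 : c.ξ ≤ c.h s / K := by
      rw [le_div_iff₀ hK0]
      linarith
    linarith
  have hreal : (S.card : ℝ) * (bl * c.a s ^ c.d * D ^ 2) ≤ K₁ * ((C₀ : ℝ) * K ^ C₀ * (bt + bl - bt + c.ξ) * ((K + 2) * r) ^ c.d * D ^ 2) := by
    refine (ENNReal.ofReal_le_ofReal_iff ?_).1 hfin2
    have : 0 ≤ bt + bl - bt + c.ξ := by linarith [hr.wf.ξ0]
    positivity
  -- real arithmetic
  have e1 : ((K + 2) * r) ^ c.d ≤ 3 * K * (r ^ c.d) := by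
    rw [Real.mul_rpow (by linarith) hr0.le]
    refine mul_le_mul_of_nonneg_right ?_ (Real.rpow_nonneg hr0.le _)
    calc (K + 2) ^ c.d ≤ (K + 2) ^ (1 : ℝ) := Real.rpow_le_rpow_of_exponent_le (by linarith) hr.wf.d1.le
      _ = K + 2 := Real.rpow_one _
      _ ≤ 3 * K := by linarith
  have e2 : (r / c.a s) ^ c.d = r ^ c.d / c.a s ^ c.d := Real.div_rpow hr0.le ha.le _
  have hrd' : 0 ≤ r ^ c.d := Real.rpow_nonneg hr0.le _
  have hC0 : (0 : ℝ) ≤ C₀ := Nat.cast_nonneg _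
  have hKC : 0 < K ^ C₀ := by positivity
  have h5 : (S.card : ℝ) * (bl * c.a s ^ c.d * D ^ 2) ≤ (6 * (C₀ : ℝ) * K ^ (C₀ + 1) * K₁ * r ^ c.d) * (bl * D ^ 2) := by
    calc (S.card : ℝ) * (bl * c.a s ^ c.d * D ^ 2) ≤ K₁ * ((C₀ : ℝ) * K ^ C₀ * (bt + bl - bt + c.ξ) * ((K + 2) * r) ^ c.d * D ^ 2) := hreal
      _ ≤ K₁ * ((C₀ : ℝ) * K ^ C₀ * (2 * bl) * (3 * K * (r ^ c.d)) * D ^ 2) := by
          have : bt + bl - bt + c.ξ ≤ 2 * bl := by linarith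
          gcongr
      _ = _ := by ring
  have h6 : (S.card : ℝ) * c.a s ^ c.d ≤ 6 * (C₀ : ℝ) * K ^ (C₀ + 1) * K₁ * r ^ c.d := by
    have hpos : 0 < bl * D ^ 2 := by positivity
    refine le_of_mul_le_mul_right ?_ hpos
    calc (S.card : ℝ) * c.a s ^ c.d * (bl * D ^ 2) = (S.card : ℝ) * (bl * c.a s ^ c.d * D ^ 2) := by ring
      _ ≤ _ := h5
  rw [e2]
  have h7 : (S.card : ℝ) ≤ 6 * (C₀ : ℝ) * K ^ (C₀ + 1) * K₁ * r ^ c.d / c.a s ^ c.d := by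
    rw [le_div_iff₀ had]
    exact h6
  refine h7.trans ?_
  rw [mul_div_assoc]
  refine mul_le_mul_of_nonneg_right ?_ (by positivity)
  refine mul_le_mul_of_nonneg_right ?_ (by linarith)
  push_cast
  have h8 : K ^ (C₀ + 1) ≤ K ^ (6 * C₀ + 1) := pow_le_pow_right₀ hK (by omega)
  have h9 : 0 < K ^ (6 * C₀ + 1) := by positivity
  calc 6 * (C₀ : ℝ) * K ^ (C₀ + 1) ≤ 6 * (C₀ : ℝ) * K ^ (6 * C₀ + 1) := by gcongr
    _ ≤ (6 * (C₀ : ℝ) + 1) * K ^ (6 * C₀ + 1) := by nlinarith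

theorem k8p_C_ev (c : K7bPar) (H : K7bHor) {K s D : ℝ} {n : ℕ} (hr : K8pRel c K s D n) (h : H.Ok c K) {z₀ z : H.Lam × ℝ} (hz₀ : z₀ ∈ H.Sp) (hz : z ∈ H.Sp)
    (hd : z ∈ H.dm c s D z₀) (f : K8Pr) : |f.ev z.2 (H.p z.1) (H.q0 z.1)| ≤ (H.sc c s D z₀ f).l1 := by
  rw [← k8p_sc_ev c H hr h hz f, (k8p_sc_dm c H hr h hz₀ hz hd f).1]
  obtain ⟨u0, u1, u2⟩ := k8p_u_mem c H hr h hz
  exact k8p_ev_le_l1 _ (abs_le.2 ⟨by linarith [u0.1], u0.2.le⟩) (abs_le.2 ⟨by linarith [u1.1], u1.2.le⟩) (abs_le.2 ⟨by linarith [u2.1], u2.2.le⟩)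

theorem k8p_C_tGI (c : K7bPar) (H : K7bHor) {s D : ℝ} {z₀ z : H.Lam × ℝ} (hd : z ∈ H.dm c s D z₀) : H.tGI c s D z = H.tGI c s D z₀ := by
  unfold K7bHor.tGI
  rw [hd.1, hd.2]

/-- **LEAF L-252-S8p-C1** (~300 l.).  **Count of the first list near a predictor** (08 l.438 "within such groups both list counts are `≤ K (M₀/a₀)^d`").
PLAN.  `C := C₀ + 3` or so, `C₀` from `k8p_graph_cap`.   `h* := F.pr z₀.1`, `(b,i,j) := grp z₀.1`, `I = [bt, bt + bl)` the block of `z₀`.   For `h ∈ S` choose the witness `z_h`; `A_h := E₁ ∩ F.ev1 c s D z_h`: measurable?  NOT needed: use `measure_biUnion_finset` only after replacing `A_h` by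
`E₁ ∩ {z | z ∈ dm z₀ ∧ F.pr z.1 = h}` which IS measurable (`hm₁`, `k7b_group_meas`, `mlab`, `hF.mpr`).   They are pairwise disjoint; `tGI z₀ = tGI z_h ≤ ofReal K₁ * lam A_h` (`hfl.fl1`, `k8p_sc_dm`).
Every `z ∈ A_h` : `|X z - h.ev ..| ≤ K a` (`hF.fit`, `hF.cover`, `time`), `|h.ev .. - h*.ev ..| = |(sc z₀ (h.sub h*)).ev (uT z) (uP z) (uQ z)| ≤ r` (`k8p_sc_ev`, `k8p_sc_dm`, `k8p_u_mem`, `k8p_ev_le_l1`), so `A_h ⊆ W` := the set of `k8p_graph_cap` with `f = h*`, `δ = D`, `D' = D/n`, `p₁ = iD`, `q₁ = jD`,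
`[t0,t1] = [bt, bt + bl]`, radius `K a + r ≤ (K+1) r`, `Λ = K/D`, `Mt = 10K` (`k8p_pr_slopes`; `2 Λ D' = 2K/n ≤ a`, `10 K ξ ≤ a`: `hr.na`, `hr.ξa`).   `bl + ξ ≤ 2 bl` (`hr.ξt`).
`card S * tGI z₀ ≤ ofReal K₁ * lam W ≤ ofReal (K₁ C₀ K^C₀ 2 bl ((K+1) r)^d D²) * pal(..)`, `tGI z₀ = ofReal (bl) * ofReal (a^d) * (pal * ofReal D²) ≠ 0, ∞` (`hfl.gpos`, `palle`).   Cancel.   `((K+1) r)^d ≤ (K+1) r^d`, `r^d / a^d = (r/a)^d`. -/
theorem k8p_count1 : ∃ C : ℕ, ∀ (c : K7bPar) (H : K7bHor) (K K₁ s D r : ℝ) (n : ℕ) (F : K8Lab H) (E E₁ : Set (H.Lam × ℝ)) (z₀ : H.Lam × ℝ) (S : Finset K8Pr),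
    K8pRel c K s D n → H.Ok c K → F.Ok c K s D E → E ⊆ H.Sp → E₁ ⊆ E → MeasurableSet E₁ → 1 ≤ K₁ → F.Fl c K₁ s D E₁ → z₀ ∈ E₁ → c.a s ≤ r →
    (∀ h ∈ S, ∃ z ∈ E₁ ∩ H.dm c s D z₀, F.pr z.1 = h ∧ (H.sc c s D z₀ (h.sub (F.pr z₀.1))).l1 ≤ r) →
    (S.card : ℝ) ≤ (C : ℝ) * K ^ C * K₁ * (r / c.a s) ^ c.d := by
  obtain ⟨C, hC⟩ := k8p_C_core
  refine ⟨C, ?_⟩
  intro c H K K₁ s D r n F E E₁ z₀ S hr h hF hE hE₁ hm₁ hK₁ hfl hz₀ har hS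
  have hs := hr.sG
  have hK := hr.K1
  have ha : 0 < c.a s := (k8p_rel_pos c hr).1
  have hlb : KsLab fun z : H.Lam × ℝ => H.blk (H.lab s z) := k8p_FL_comp (h.mlab s hs) H.blk
  have hl := k8p_FL_pair (k8p_FL_lgrp c H (D := D) h) (k8p_FL_pair (k8p_FL_lpr c H F hF) hlb)
  refine hC c H K K₁ s D r n F E z₀ K8Pr S (fun x => E₁ ∩ {z | z ∈ H.dm c s D z₀ ∧ F.pr z.1 = x}) hr h hF (hE₁ hz₀) hE hK₁ (hfl.gpos z₀ hz₀) har
    (fun x _ => ?_) (fun x _ y _ hxy => ?_) (fun x hx => ?_) (fun x hx z hz => ?_)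
  · have e : {z : H.Lam × ℝ | z ∈ H.dm c s D z₀ ∧ F.pr z.1 = x}
        = (fun z : H.Lam × ℝ => (H.grp c.χ D z.1, F.pr z.1, H.blk (H.lab s z))) ⁻¹' {(H.grp c.χ D z₀.1, x, H.blk (H.lab s z₀))} := by
      ext z
      simp only [Set.mem_preimage, Set.mem_singleton_iff, Prod.mk.injEq, K7bHor.dm, Set.mem_ofPred_eq]
      tauto
    rw [e]
    exact hm₁.inter (hl _)
  · refine Set.disjoint_left.2 fun z h1 h2 => hxy ?_
    rw [← h1.2.2, h2.2.2]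
  · obtain ⟨z, ⟨hz1, hzd⟩, hzx, -⟩ := hS x hx
    have := hfl.fl1 z hz1
    rw [k8p_C_tGI c H hzd] at this
    have e : F.ev1 c s D z = {z' | z' ∈ H.dm c s D z₀ ∧ F.pr z'.1 = x} := by
      ext z'
      simp only [K8Lab.ev1, K7bHor.dm, Set.mem_ofPred_eq, hzx, hzd.1, hzd.2]
    rw [e] at this
    exact this
  · obtain ⟨hz1, hzd, hzx⟩ := hz
    obtain ⟨-, -, -, hxr⟩ := hS x hx
    have hzS := hE (hE₁ hz1)
    refine ⟨hzS, hzd, ?_⟩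
    have f1 := hF.fit z.1 (hF.cover z (hE₁ hz1)) z.2 (h.time z hzS)
    rw [hzx] at f1
    have f2 := (k8p_C_ev c H hr h (hE (hE₁ hz₀)) hzS hzd (x.sub (F.pr z₀.1))).trans hxr
    rw [k8p_ev_sub] at f2
    have e : H.X z - (F.pr z₀.1).ev z.2 (H.p z.1) (H.q0 z.1)
        = (H.Xt z.1 z.2 - x.ev z.2 (H.p z.1) (H.q0 z.1)) + (x.ev z.2 (H.p z.1) (H.q0 z.1) - (F.pr z₀.1).ev z.2 (H.p z.1) (H.q0 z.1)) := by
      unfold K7bHor.X
      ring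
    rw [e]
    refine (abs_add_le _ _).trans ?_
    have : K * c.a s ≤ K * r := mul_le_mul_of_nonneg_left har (by linarith)
    have hr0 : 0 < r := ha.trans_le har
    nlinarith

/-- **LEAF L-252-S8p-C2** (~300 l.).  **Count of the second list near a predictor.**   As `k8p_count1` with the events `E₁ ∩ H.ev2 c s D z_e` (measurable: `mlab`, `ment`, `k7b_group_meas`), floors `hfl.fl2`, and `|X z - 𝓛.ev ..| ≤ (K+1) a` (`k8p_cal_fit`; `H.cal c s D z` depends only on `(entOf s z, grp z.1)`). -/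
theorem k8p_count2 : ∃ C : ℕ, ∀ (c : K7bPar) (H : K7bHor) (K K₁ s D r : ℝ) (n : ℕ) (F : K8Lab H) (E E₁ : Set (H.Lam × ℝ)) (z₀ : H.Lam × ℝ)
    (S : Finset (H.Q × (ℝ × ℝ × ℝ × ℝ))),
    K8pRel c K s D n → H.Ok c K → H.Slopes c K E → F.Ok c K s D E → E ⊆ H.Sp → E₁ ⊆ E → MeasurableSet E₁ → 1 ≤ K₁ → F.Fl c K₁ s D E₁ → z₀ ∈ E₁ → c.a s ≤ r →
    (∀ e ∈ S, ∃ z ∈ E₁ ∩ H.dm c s D z₀, (H.lab s z, H.entOf s z) = e ∧ (H.sc c s D z₀ ((H.cal c s D z).sub (F.pr z₀.1))).l1 ≤ r) →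
    (S.card : ℝ) ≤ (C : ℝ) * K ^ C * K₁ * (r / c.a s) ^ c.d := by
  obtain ⟨C, hC⟩ := k8p_C_core
  refine ⟨C, ?_⟩
  intro c H K K₁ s D r n F E E₁ z₀ S hr h hsl hF hE hE₁ hm₁ hK₁ hfl hz₀ har hS
  have hs := hr.sG
  have hK := hr.K1
  have ha : 0 < c.a s := (k8p_rel_pos c hr).1
  have hl := k8p_FL_pair (k8p_FL_lgrp c H (D := D) h) (k8p_FL_pair (h.mlab s hs) (h.ment s hs))
  refine hC c H K K₁ s D r n F E z₀ _ S (fun x => E₁ ∩ {z | H.grp c.χ D z.1 = H.grp c.χ D z₀.1 ∧ H.lab s z = x.1 ∧ H.entOf s z = x.2}) hr h hF (hE₁ hz₀) hE hK₁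
    (hfl.gpos z₀ hz₀) har (fun x _ => ?_) (fun x _ y _ hxy => ?_) (fun x hx => ?_) (fun x hx z hz => ?_)
  · have e : {z : H.Lam × ℝ | H.grp c.χ D z.1 = H.grp c.χ D z₀.1 ∧ H.lab s z = x.1 ∧ H.entOf s z = x.2}
        = (fun z : H.Lam × ℝ => (H.grp c.χ D z.1, H.lab s z, H.entOf s z)) ⁻¹' {(H.grp c.χ D z₀.1, x.1, x.2)} := by
      ext z
      simp only [Set.mem_preimage, Set.mem_singleton_iff, Prod.mk.injEq, Set.mem_ofPred_eq]
    rw [e]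
    exact hm₁.inter (hl _)
  · refine Set.disjoint_left.2 fun z h1 h2 => hxy ?_
    exact Prod.ext (by rw [← h1.2.2.1, h2.2.2.1]) (by rw [← h1.2.2.2, h2.2.2.2])
  · obtain ⟨z, ⟨hz1, hzd⟩, hzx, -⟩ := hS x hx
    have := hfl.fl2 z hz1
    rw [k8p_C_tGI c H hzd] at this
    have e1 : H.lab s z = x.1 := by rw [← hzx]
    have e2 : H.entOf s z = x.2 := by rw [← hzx]
    have e : H.ev2 c s D z = {z' | H.grp c.χ D z'.1 = H.grp c.χ D z₀.1 ∧ H.lab s z' = x.1 ∧ H.entOf s z' = x.2} := by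
      ext z'
      simp only [K7bHor.ev2, Set.mem_ofPred_eq, e1, e2, hzd.1]
    rw [e] at this
    exact this
  · obtain ⟨hz1, hzg, hzl, hze⟩ := hz
    obtain ⟨w, ⟨hw1, hwd⟩, hwx, hxr⟩ := hS x hx
    have e1 : H.lab s w = x.1 := by rw [← hwx]
    have e2 : H.entOf s w = x.2 := by rw [← hwx]
    have hzS := hE (hE₁ hz1)
    have hzd : z ∈ H.dm c s D z₀ := ⟨hzg, by rw [hzl, ← e1]; exact hwd.2⟩
    refine ⟨hzS, hzd, ?_⟩
    have hcal : H.cal c s D z = H.cal c s D w := by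
      unfold K7bHor.cal
      rw [hze, e2, hzg, hwd.1]
    have f1 := k8p_cal_fit c H hr h hE hsl (hE₁ hz1)
    rw [hcal] at f1
    have f2 := (k8p_C_ev c H hr h (hE (hE₁ hz₀)) hzS hzd ((H.cal c s D w).sub (F.pr z₀.1))).trans hxr
    rw [k8p_ev_sub] at f2
    have e : H.X z - (F.pr z₀.1).ev z.2 (H.p z.1) (H.q0 z.1)
        = (H.X z - (H.cal c s D w).ev z.2 (H.p z.1) (H.q0 z.1)) + ((H.cal c s D w).ev z.2 (H.p z.1) (H.q0 z.1) - (F.pr z₀.1).ev z.2 (H.p z.1) (H.q0 z.1)) := by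
      ring
    rw [e]
    refine (abs_add_le _ _).trans ?_
    have : (K + 1) * c.a s ≤ (K + 1) * r := mul_le_mul_of_nonneg_left har (by linarith)
    linarith

theorem k8p_GB_cell {n : ℕ} (hn : 0 < n) {x x₀ w : ℝ} (hw : 0 < w) {k : ℤ} (hk : ⌊(n : ℝ) * ((x - x₀) / w)⌋ = k) :
    x ∈ Set.Icc (x₀ + k * (w / n)) (x₀ + k * (w / n) + w / n) := by
  have hn' : (0 : ℝ) < n := Nat.cast_pos.2 hn
  have h1 := Int.floor_le ((n : ℝ) * ((x - x₀) / w))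
  have h2 := Int.lt_floor_add_one ((n : ℝ) * ((x - x₀) / w))
  rw [hk] at h1 h2
  have e : (n : ℝ) * ((x - x₀) / w) = (x - x₀) / (w / n) := by field_simp
  rw [e] at h1 h2
  have hwn : 0 < w / n := by positivity
  rw [le_div_iff₀ hwn] at h1
  rw [div_lt_iff₀ hwn] at h2
  constructor <;> nlinarith

/-- the cap of one jitter cell -/
theorem k8p_GB_cap : ∃ C : ℕ, ∀ (c : K7bPar) (H : K7bHor) (K s D Λ Mt ρ : ℝ) (n : ℕ) (z₀ : H.Lam × ℝ) (f : K8Pr) (k0 k1 k2 : ℤ) (W : Set (H.Lam × ℝ)),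
    K8pRel c K s D n → H.Ok c K → z₀ ∈ H.Sp → 1 ≤ ρ → ρ ≤ 2 * K → 2 * Λ * (D / n) ≤ ρ * c.a s → Mt * c.ξ ≤ ρ * c.a s →
    (∀ ω ∈ W, ω ∈ H.Sp ∧ H.grp c.χ D ω.1 = H.grp c.χ D z₀.1 ∧ |H.X ω - f.ev ω.2 (H.p ω.1) (H.q0 ω.1)| ≤ ρ * c.a s ∧
       ⌊(n : ℝ) * ((ω.2 - H.bt (H.lab s z₀)) / H.bl (H.lab s z₀))⌋ = k0 ∧ ⌊(n : ℝ) * ((H.p ω.1 - (H.grp c.χ D z₀.1).2.1 * D) / D)⌋ = k1 ∧
       ⌊(n : ℝ) * ((H.q0 ω.1 - (H.grp c.χ D z₀.1).2.2 * D) / D)⌋ = k2 ∧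
       (∀ t ∈ Set.Icc (0 : ℝ) 1, |f.p0 + f.p1 * t| ≤ Λ ∧ |f.q0 + f.q1 * t| ≤ Λ) ∧
       ∀ p q : ℝ, |p - H.p ω.1| ≤ 2 * D → |q - H.q0 ω.1| ≤ 2 * D → |f.c1 + f.p1 * p + f.q1 * q| ≤ Mt) →
    H.lam W ≤ ENNReal.ofReal ((C : ℝ) * K ^ C / (n : ℝ) ^ 3) * H.tGI c s D z₀ := by
  obtain ⟨C₀, hC₀⟩ := k8p_graph_cap
  refine ⟨4 * C₀ + 1, ?_⟩
  intro c H K s D Λ Mt ρ n z₀ f k0 k1 k2 W hr h hz₀ hρ1 hρ2 hΛ hMt hW
  rcases W.eq_empty_or_nonempty with hemp | ⟨ω₀, hω₀⟩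
  · rw [hemp]; simp
  obtain ⟨ha, hD, hh, hh1, hD1, -, -, hn⟩ := k8p_rel_pos c hr
  have hn' : (0 : ℝ) < n := Nat.cast_pos.2 hn
  have hn1 : (1 : ℝ) ≤ n := by exact_mod_cast hn
  have hK1 := hr.K1
  have hK0 : 0 < K := by linarith
  obtain ⟨-, -, hbl1, hbl2⟩ := k8p_blk_sub c H hr h hz₀
  set bt₀ := H.bt (H.lab s z₀) with hbt₀
  set bl₀ := H.bl (H.lab s z₀) with hbl₀
  have hbl0 : 0 < bl₀ := lt_of_lt_of_le (by positivity) hbl1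
  set b₀ := (H.grp c.χ D z₀.1).1 with hb₀
  set i₀ := (H.grp c.χ D z₀.1).2.1 with hi₀
  set j₀ := (H.grp c.χ D z₀.1).2.2 with hj₀
  have hDn : D / n ≤ D := div_le_self hD.le hn1
  have hDn0 : 0 < D / n := by positivity
  obtain ⟨-, -, -, -, hp₀, hq₀, hsl1, hsl2⟩ := hW ω₀ hω₀
  have hp₀' := k8p_GB_cell hn hD hp₀
  have hq₀' := k8p_GB_cell hn hD hq₀
  have hcap := hC₀ c H K (D / n) (D / n) Λ Mt (ρ * c.a s) (bt₀ + k0 * (bl₀ / n)) (bt₀ + k0 * (bl₀ / n) + bl₀ / n)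
    (i₀ * D + k1 * (D / n)) (j₀ * D + k2 * (D / n)) b₀ f hr.wf hK1 h le_rfl (hDn.trans hD1) hr.ξn hr.χn hr.en hsl1 hΛ
    (fun p q h1 h2 h3 h4 => hsl2 p q (by rw [abs_le]; constructor <;> linarith [hp₀'.1, hp₀'.2]) (by rw [abs_le]; constructor <;> linarith [hq₀'.1, hq₀'.2]))
    hMt (hr.ϱa.trans (by nlinarith)) (by have : 0 < bl₀ / n := by positivity
                                         linarith)
  refine (measure_mono ?_).trans (hcap.trans ?_)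
  · intro ω hω
    obtain ⟨h1, h2, h3, h4, h5, h6, -, -⟩ := hW ω hω
    exact ⟨h1, congrArg Prod.fst h2, k8p_GB_cell hn hD h5, k8p_GB_cell hn hD h6, k8p_GB_cell hn hbl0 h4, h3⟩
  · have hT : H.tGI c s D z₀ = ENNReal.ofReal (bl₀ * c.a s ^ c.d * D ^ 2) * H.pal (k7bIv c.χ b₀) := by
      have had : 0 < c.a s ^ c.d := Real.rpow_pos_of_pos ha _
      unfold K7bHor.tGI K7bHor.gW K7bHor.blk
      rw [Real.volume_Ico, add_sub_cancel_left, ENNReal.ofReal_mul (by positivity), ENNReal.ofReal_mul hbl0.le]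
      ring
    rw [hT, ← mul_assoc]
    refine mul_le_mul' ?_ le_rfl
    have had : 0 < c.a s ^ c.d := Real.rpow_pos_of_pos ha _
    rw [← ENNReal.ofReal_mul (by positivity)]
    refine ENNReal.ofReal_le_ofReal ?_
    have t1 : bt₀ + k0 * (bl₀ / n) + bl₀ / n - (bt₀ + k0 * (bl₀ / n)) + c.ξ ≤ 2 * (bl₀ / n) := by
      have : c.ξ ≤ bl₀ / n := by
        rw [le_div_iff₀ hn']
        have h1 : c.ξ * n ≤ c.h s / K := by
          rw [le_div_iff₀ hK0]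
          have := hr.ξt
          nlinarith
        exact h1.trans hbl1
      linarith
    have t2 : (ρ * c.a s) ^ c.d ≤ 2 * K * c.a s ^ c.d := by
      rw [Real.mul_rpow (by linarith) ha.le]
      refine mul_le_mul_of_nonneg_right ?_ had.le
      calc ρ ^ c.d ≤ ρ ^ (1 : ℝ) := Real.rpow_le_rpow_of_exponent_le hρ1 hr.wf.d1.le
        _ = ρ := Real.rpow_one _
        _ ≤ 2 * K := hρ2
    have t0 : 0 ≤ bt₀ + k0 * (bl₀ / n) + bl₀ / n - (bt₀ + k0 * (bl₀ / n)) + c.ξ := by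
      have : 0 < bl₀ / n := by positivity
      have := hr.wf.ξ0
      linarith
    have t3 : 0 ≤ (ρ * c.a s) ^ c.d := Real.rpow_nonneg (by positivity) _
    calc (C₀ : ℝ) * K ^ C₀ * (bt₀ + k0 * (bl₀ / n) + bl₀ / n - (bt₀ + k0 * (bl₀ / n)) + c.ξ) * (ρ * c.a s) ^ c.d * (D / n) ^ 2
        ≤ (C₀ : ℝ) * K ^ C₀ * (2 * (bl₀ / n)) * (2 * K * c.a s ^ c.d) * (D / n) ^ 2 := by gcongr
      _ = (4 * C₀ : ℝ) * K ^ (C₀ + 1) / (n : ℝ) ^ 3 * (bl₀ * c.a s ^ c.d * D ^ 2) := by field_simp; ring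
      _ ≤ ((4 * C₀ + 1 : ℕ) : ℝ) * K ^ (4 * C₀ + 1) / (n : ℝ) ^ 3 * (bl₀ * c.a s ^ c.d * D ^ 2) := by
          refine mul_le_mul_of_nonneg_right (div_le_div_of_nonneg_right ?_ (by positivity)) (by positivity)
          have h3 : K ^ (C₀ + 1) ≤ K ^ (4 * C₀ + 1) := pow_le_pow_right₀ hK1 (by omega)
          have h4 : (4 * C₀ : ℝ) ≤ ((4 * C₀ + 1 : ℕ) : ℝ) := by push_cast; linarith
          exact mul_le_mul h4 h3 (by positivity) (by positivity)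

theorem k8p_GB_cpow {K : ℝ} (hK : 1 ≤ K) {C₀ : ℝ} {a C : ℕ} (h1 : C₀ ≤ C) (h2 : a ≤ C) : C₀ * K ^ a ≤ (C : ℝ) * K ^ C := by
  have h3 : K ^ a ≤ K ^ C := pow_le_pow_right₀ hK h2
  have h4 : 0 < K ^ a := by positivity
  calc C₀ * K ^ a ≤ (C : ℝ) * K ^ a := mul_le_mul_of_nonneg_right h1 h4.le
    _ ≤ (C : ℝ) * K ^ C := mul_le_mul_of_nonneg_left h3 (Nat.cast_nonneg _)

set_option maxHeartbeats 1600000 in
/-- **L-252-S8p-GB** (PROVED, helper114).  **One group of bad pairings** (08 l.434-438).   `R = M / a`.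
PLAN.  `B := E₁ ∩ F.bad c s D M ∩ F.gM c s D M z₀` (measurable: all conditions are functions of the finite labels `grp z.1`, `F.pr z.1`, `lab s z`, `entOf s z`: write `B` as a finite union of events, or show measurability of each level set).   If `B = ∅` trivial.
Apply `k8p_match_group` with `Ω = H.Lam × ℝ`, `μ = H.lam`, `i₁ z = F.pr z.1`, `i₂ z = (lab s z, entOf s z)`, `u0 = H.uT s` REPLACED by the measurable `fun z => (z.2 - bt₀)/bl₀` (`bt₀, bl₀, i₀, j₀` those of `z₀`; they agree on `B` by `k8p_sc_dm`), `u1 z = (p z.1 - i₀ D)/D`, `u2` alike,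
`f₁ h := H.sc c s D z₀ h`, `f₂ e := H.sc c s D z₀ (k8pCal e.2 (b₀ χ))`, `f₀ := f₁ (F.pr z₀.1)`, `Δ = a`, `T = H.tGI c s D z₀`, `Lm := max` of the constants below.
`hosc` : `B ≠ ∅` gives `M ≤ dis ≤ 1000 K²` (`k8p_dis_le`), `hr.na`.   `href₁` : same code, `k8p_code_same` : `≤ 6M`.   `href₂` : `k8p_l1_tri` with the partner: `< 2M + 6M`.   `hcard` : `k8p_count1` (`r = 6M`), `k8p_count2` (`r = 8M`), `(8M/a)^d ≤ 8 R^d`.
`hclose` : `k8p_sc_ev`, `hF.fit`, `k8p_cal_fit` : `≤ (2K+1) a`.   `hfar`, `hnear` : definition of `bad`, `k8p_resc_sub`.   `hbox` : `k8p_u_mem`.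
`hcap₁` : the cell `{⌊n u0⌋ = k0, ..}` is `t ∈ [bt₀ + k0 bl₀/n, bt₀ + (k0+1) bl₀/n)`, `p ∈ [i₀D + k1 D/n, ..)`; `k8p_graph_cap` with `f = h`, `δ = D' = D/n`, radius `K a`, `Λ = K/D`, `Mt = 10K` : `≤ C₀ K^C₀ (bl₀/n + ξ) (K a)^d (D/n)² pal ≤ 2 C₀ K^(C₀+1) n⁻³ T` (`hr.ξt`).
`hcap₂` : `f = k8pCal e.2 (b₀ χ)`, radius `(K+1) a`, `Λ = 8K`, `Mt = 12K²` (`k8p_cal_slopes` at a point of the event; empty event: trivial). -/
theorem k8p_group_bad : ∃ C : ℕ, ∀ (d ε R : ℝ), K4eMatch 3 d ε R → 0 < ε → ∀ (c : K7bPar) (H : K7bHor) (K K₁ s D M : ℝ) (n : ℕ) (F : K8Lab H)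
    (E E₁ : Set (H.Lam × ℝ)) (z₀ : H.Lam × ℝ) (S₁ : Finset K8Pr) (S₂ : Finset (H.Q × (ℝ × ℝ × ℝ × ℝ))),
    c.d = d → K8pRel c K s D n → H.Ok c K → H.Slopes c K E → F.Ok c K s D E → E ⊆ H.Sp → E₁ ⊆ E → MeasurableSet E₁ → 1 ≤ K₁ → F.Fl c K₁ s D E₁ → z₀ ∈ E₁ →
    M = R * c.a s → 1 ≤ R → (C : ℝ) * K ^ C * K₁ ≤ R ^ ε →
    (↑S₁ : Set K8Pr) = (fun z : H.Lam × ℝ => F.pr z.1) '' (E₁ ∩ F.bad c s D M ∩ F.gM c s D M z₀) →
    (↑S₂ : Set (H.Q × (ℝ × ℝ × ℝ × ℝ))) = (fun z : H.Lam × ℝ => (H.lab s z, H.entOf s z)) '' (E₁ ∩ F.bad c s D M ∩ F.gM c s D M z₀) →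
    H.lam (E₁ ∩ F.bad c s D M ∩ F.gM c s D M z₀) ≤ ENNReal.ofReal (R ^ (-ε)) * (H.tGI c s D z₀ * ((S₁.card + S₂.card : ℕ) : ℝ≥0∞)) := by
  obtain ⟨C₀, hC₀⟩ := k8p_GB_cap
  obtain ⟨C₁, hC₁⟩ := k8p_count1
  obtain ⟨C₂, hC₂⟩ := k8p_count2
  obtain ⟨A, hA0, hA0', hA1, hA1', hA2, hA2', hA8⟩ : ∃ A : ℕ, (C₀ : ℝ) ≤ A ∧ C₀ ≤ A ∧ (12 * C₁ : ℝ) ≤ A ∧ C₁ ≤ A ∧ (16 * C₂ : ℝ) ≤ A ∧ C₂ ≤ A ∧ (8 : ℝ) ≤ A := by
    have p0 : (0 : ℝ) ≤ C₀ := Nat.cast_nonneg _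
    have p1 : (0 : ℝ) ≤ C₁ := Nat.cast_nonneg _
    have p2 : (0 : ℝ) ≤ C₂ := Nat.cast_nonneg _
    refine ⟨C₀ + 12 * C₁ + 16 * C₂ + 8, ?_, by omega, ?_, by omega, ?_, by omega, ?_⟩ <;> push_cast <;> linarith
  have hA1n : 1 ≤ A := by
    have : ((1 : ℕ) : ℝ) ≤ A := by push_cast; linarith
    exact_mod_cast this
  refine ⟨16 * A, ?_⟩
  intro d ε R hub hε c H K K₁ s D M n F E E₁ z₀ S₁ S₂ hd hr h hs hF hE hE₁ hmE₁ hK₁ hfl hz₀ hM hR hCR hS₁ hS₂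
  set B : Set (H.Lam × ℝ) := E₁ ∩ F.bad c s D M ∩ F.gM c s D M z₀ with hB
  rcases B.eq_empty_or_nonempty with hemp | ⟨zB, hzB⟩
  · rw [hemp]; simp
  obtain ⟨ha, hD, hh, hh1, hD1, -, hah, hn⟩ := k8p_rel_pos c hr
  have hn' : (0 : ℝ) < n := Nat.cast_pos.2 hn
  have hK1 := hr.K1
  have hK0 : 0 < K := by linarith
  have hR0 : 0 < R := by linarith
  have hM0 : 0 < M := by rw [hM]; positivity
  have hz₀S : z₀ ∈ H.Sp := hE (hE₁ hz₀)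
  -- the constant
  set Lm : ℝ := (A : ℝ) * K ^ A * K₁ with hLm
  have hAK0 : 0 < (A : ℝ) * K ^ A := by
    have : (0 : ℝ) < A := by linarith
    positivity
  have hL : ∀ (C' : ℝ) (a : ℕ), C' ≤ A → a ≤ A → C' * K ^ a ≤ Lm := by
    intro C' a h1 h2
    have := k8p_GB_cpow hK1 h1 h2
    rw [hLm]
    nlinarith
  have hL' : ∀ (C' : ℝ) (a : ℕ), C' ≤ A → a ≤ A → C' * K ^ a * K₁ ≤ Lm := by
    intro C' a h1 h2
    exact mul_le_mul_of_nonneg_right (k8p_GB_cpow hK1 h1 h2) (by linarith)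
  have hLm8 : 8 ≤ Lm := by simpa using hL 8 0 hA8 (Nat.zero_le _)
  have hLm1 : 1 ≤ Lm := by linarith
  have hLR : 16 * Lm ≤ R ^ ε := by
    refine le_trans ?_ hCR
    have := k8p_GB_cpow hK1 (C₀ := 16 * A) (a := A) (C := 16 * A) (by push_cast; linarith) (by omega)
    rw [hLm]
    nlinarith
  -- facts on `B`
  have fB : ∀ ω ∈ B, ω ∈ E₁ ∧ ω ∈ E ∧ ω ∈ H.Sp ∧ ω ∈ H.dm c s D z₀ := fun ω hω => ⟨hω.1.1, hE₁ hω.1.1, hE (hE₁ hω.1.1), hω.2.1⟩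
  have fdm : ∀ ω ∈ B, ∀ f, H.sc c s D ω f = H.sc c s D z₀ f ∧ H.tGI c s D ω = H.tGI c s D z₀ ∧ H.bt (H.lab s ω) = H.bt (H.lab s z₀) ∧
      H.bl (H.lab s ω) = H.bl (H.lab s z₀) := fun ω hω f => k8p_sc_dm c H hr h hz₀S (fB ω hω).2.2.1 (fB ω hω).2.2.2 f
  have fgr : ∀ ω ∈ B, H.grp c.χ D ω.1 = H.grp c.χ D z₀.1 := fun ω hω => hω.2.1.1
  have fcal : ∀ ω ∈ B, H.cal c s D ω = k8pCal (H.entOf s ω) ((H.grp c.χ D z₀.1).1 * c.χ) := by
    intro ω hω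
    unfold K7bHor.cal
    rw [fgr ω hω]
  have fdis : ∀ ω ∈ B, F.dis c s D ω
      = ((H.sc c s D z₀ (F.pr ω.1)).sub (H.sc c s D z₀ (k8pCal (H.entOf s ω) ((H.grp c.χ D z₀.1).1 * c.χ)))).l1 := by
    intro ω hω
    unfold K8Lab.dis
    rw [(fdm ω hω _).1, fcal ω hω]
    unfold K7bHor.sc
    rw [k8p_resc_sub, k8p_l1_comm]
  have fcode : ∀ ω ∈ B, ((H.sc c s D z₀ (F.pr ω.1)).sub (H.sc c s D z₀ (F.pr z₀.1))).l1 ≤ 6 * M := by
    intro ω hω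
    refine k8p_code_same hM0 ?_
    have := hω.2.2
    rwa [(fdm ω hω _).1] at this
  have fu : ∀ ω ∈ B, H.uT s ω = (ω.2 - H.bt (H.lab s z₀)) / H.bl (H.lab s z₀) ∧ H.uP c D ω = (H.p ω.1 - (H.grp c.χ D z₀.1).2.1 * D) / D ∧
      H.uQ c D ω = (H.q0 ω.1 - (H.grp c.χ D z₀.1).2.2 * D) / D := by
    intro ω hω
    unfold K7bHor.uT K7bHor.uP K7bHor.uQ
    rw [(fdm ω hω (F.pr z₀.1)).2.2.1, (fdm ω hω (F.pr z₀.1)).2.2.2, fgr ω hω]
    exact ⟨rfl, rfl, rfl⟩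
  -- measurability
  have hmB : MeasurableSet B := by
    have e : B = E₁ ∩ {z | (H.grp c.χ D z.1, F.pr z.1, H.lab s z, H.entOf s z) ∈
        {x : (ℤ × ℤ × ℤ) × K8Pr × H.Q × (ℝ × ℝ × ℝ × ℝ) |
          (M ≤ (((k8pCal x.2.2.2 (x.1.1 * c.χ)).sub x.2.1).resc (H.bt x.2.2.1) (H.bl x.2.2.1) (x.1.2.1 * D) (x.1.2.2 * D) D).l1 ∧
            (((k8pCal x.2.2.2 (x.1.1 * c.χ)).sub x.2.1).resc (H.bt x.2.2.1) (H.bl x.2.2.1) (x.1.2.1 * D) (x.1.2.2 * D) D).l1 < 2 * M) ∧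
          (x.1 = H.grp c.χ D z₀.1 ∧ H.blk x.2.2.1 = H.blk (H.lab s z₀)) ∧
          (x.2.1.resc (H.bt x.2.2.1) (H.bl x.2.2.1) (x.1.2.1 * D) (x.1.2.2 * D) D).code M = (H.sc c s D z₀ (F.pr z₀.1)).code M}} := by
      ext z
      constructor
      · rintro ⟨⟨h1, h2⟩, h3, h4⟩
        exact ⟨h1, h2, h3, h4⟩
      · rintro ⟨h1, h2, h3, h4⟩
        exact ⟨⟨h1, h2⟩, h3, h4⟩
    rw [e]
    exact k8p_lb_meas c H hr.wf hD hr.sG h F hF hE hE₁ hmE₁ _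
  have hi₁ : KsLab fun z : H.Lam × ℝ => F.pr z.1 := fun f => measurable_fst (hF.mpr f)
  have hi₂ : KsLab fun z : H.Lam × ℝ => (H.lab s z, H.entOf s z) := by
    rintro ⟨q, e⟩
    have e1 : (fun z : H.Lam × ℝ => (H.lab s z, H.entOf s z)) ⁻¹' {(q, e)} = (H.lab s ⁻¹' {q}) ∩ (H.entOf s ⁻¹' {e}) := by
      ext z
      simp only [Set.mem_preimage, Set.mem_singleton_iff, Prod.mk.injEq, Set.mem_inter_iff]
    rw [e1]
    exact (h.mlab s hr.sG q).inter (h.ment s hr.sG e)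
  have hu0 : Measurable fun z : H.Lam × ℝ => (z.2 - H.bt (H.lab s z₀)) / H.bl (H.lab s z₀) := (measurable_snd.sub_const _).div_const _
  have hu1 : Measurable fun z : H.Lam × ℝ => (H.p z.1 - (H.grp c.χ D z₀.1).2.1 * D) / D := ((h.mp.comp measurable_fst).sub_const _).div_const _
  have hu2 : Measurable fun z : H.Lam × ℝ => (H.q0 z.1 - (H.grp c.χ D z₀.1).2.2 * D) / D := ((h.mq0.comp measurable_fst).sub_const _).div_const _
  have hosc : 4 * M ≤ n * c.a s := by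
    have h1 := k8p_dis_le c H hr h F hE hs hF (fB zB hzB).2.1
    have h2 : M ≤ F.dis c s D zB := hzB.1.2.1
    have h3 : K ^ 2 ≤ K ^ 4 := pow_le_pow_right₀ hK1 (by norm_num)
    have := hr.na
    linarith
  have hT : H.tGI c s D z₀ ≠ ⊤ := by
    unfold K7bHor.tGI K7bHor.gW K7bHor.blk
    rw [Real.volume_Ico]
    refine ENNReal.mul_ne_top (ENNReal.mul_ne_top ENNReal.ofReal_ne_top ENNReal.ofReal_ne_top) (ENNReal.mul_ne_top ?_ ENNReal.ofReal_ne_top)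
    exact (lt_of_le_of_lt ((measure_mono (Set.subset_univ _)).trans h.palle) ENNReal.one_lt_top).ne
  have hS₁' : ∀ ω ∈ B, F.pr ω.1 ∈ S₁ := fun ω hω => by
    rw [← Finset.mem_coe, hS₁]
    exact ⟨ω, hω, rfl⟩
  have hS₂' : ∀ ω ∈ B, (H.lab s ω, H.entOf s ω) ∈ S₂ := fun ω hω => by
    rw [← Finset.mem_coe, hS₂]
    exact ⟨ω, hω, rfl⟩
  have gS₁ : ∀ x ∈ S₁, ∃ ω ∈ B, F.pr ω.1 = x := fun x hx => by
    rw [← Finset.mem_coe, hS₁] at hx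
    exact hx
  have gS₂ : ∀ x ∈ S₂, ∃ ω ∈ B, (H.lab s ω, H.entOf s ω) = x := fun x hx => by
    rw [← Finset.mem_coe, hS₂] at hx
    exact hx
  have href₁ : ∀ x ∈ S₁, ((H.sc c s D z₀ x).sub (H.sc c s D z₀ (F.pr z₀.1))).l1 ≤ 6 * M := by
    intro x hx
    obtain ⟨ω, hω, rfl⟩ := gS₁ x hx
    exact fcode ω hω
  have href₂ : ∀ x ∈ S₂, ((H.sc c s D z₀ (k8pCal x.2 ((H.grp c.χ D z₀.1).1 * c.χ))).sub (H.sc c s D z₀ (F.pr z₀.1))).l1 ≤ 8 * M := by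
    intro x hx
    obtain ⟨ω, hω, rfl⟩ := gS₂ x hx
    have h1 := k8p_l1_tri (H.sc c s D z₀ (k8pCal (H.entOf s ω) ((H.grp c.χ D z₀.1).1 * c.χ))) (H.sc c s D z₀ (F.pr ω.1)) (H.sc c s D z₀ (F.pr z₀.1))
    have h2 : F.dis c s D ω < 2 * M := hω.1.2.2
    rw [fdis ω hω, k8p_l1_comm] at h2
    have h3 := fcode ω hω
    linarith
  have hRd : 0 < R ^ d := Real.rpow_pos_of_pos hR0 _
  have hpw : ∀ m : ℝ, 1 ≤ m → (m * M / c.a s) ^ c.d ≤ m * R ^ d := by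
    intro m hm
    have e1 : m * M / c.a s = m * R := by rw [hM]; field_simp
    rw [e1, Real.mul_rpow (by linarith) hR0.le, hd]
    refine mul_le_mul_of_nonneg_right ?_ hRd.le
    calc m ^ d ≤ m ^ (1 : ℝ) := Real.rpow_le_rpow_of_exponent_le hm (hd ▸ hr.wf.d1.le)
      _ = m := Real.rpow_one _
  have haM : c.a s ≤ M := by rw [hM]; nlinarith
  have hcard : ((S₁.card + S₂.card : ℕ) : ℝ) ≤ Lm * R ^ d := by
    have c1 := hC₁ c H K K₁ s D (6 * M) n F E E₁ z₀ S₁ hr h hF hE hE₁ hmE₁ hK₁ hfl hz₀ (by linarith) (by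
      intro x hx
      obtain ⟨ω, hω, rfl⟩ := gS₁ x hx
      refine ⟨ω, ⟨(fB ω hω).1, (fB ω hω).2.2.2⟩, rfl, ?_⟩
      have := fcode ω hω
      unfold K7bHor.sc at this ⊢
      rwa [k8p_resc_sub])
    have c2 := hC₂ c H K K₁ s D (8 * M) n F E E₁ z₀ S₂ hr h hs hF hE hE₁ hmE₁ hK₁ hfl hz₀ (by linarith) (by
      intro x hx
      obtain ⟨ω, hω, hωx⟩ := gS₂ x hx
      refine ⟨ω, ⟨(fB ω hω).1, (fB ω hω).2.2.2⟩, hωx, ?_⟩
      have := href₂ x hx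
      rw [← hωx] at this
      rw [fcal ω hω]
      unfold K7bHor.sc at this ⊢
      rwa [k8p_resc_sub])
    have d1 : (C₁ : ℝ) * K ^ C₁ * K₁ * (6 * M / c.a s) ^ c.d ≤ (C₁ : ℝ) * K ^ C₁ * K₁ * (6 * R ^ d) :=
      mul_le_mul_of_nonneg_left (hpw 6 (by norm_num)) (by positivity)
    have d2 : (C₂ : ℝ) * K ^ C₂ * K₁ * (8 * M / c.a s) ^ c.d ≤ (C₂ : ℝ) * K ^ C₂ * K₁ * (8 * R ^ d) :=
      mul_le_mul_of_nonneg_left (hpw 8 (by norm_num)) (by positivity)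
    have e1 := hL' (12 * C₁) C₁ hA1 hA1'
    have e2 := hL' (16 * C₂) C₂ hA2 hA2'
    push_cast
    nlinarith
  have hbox : ∀ ω ∈ B, (ω.2 - H.bt (H.lab s z₀)) / H.bl (H.lab s z₀) ∈ Set.Ico (0 : ℝ) 1 ∧
      (H.p ω.1 - (H.grp c.χ D z₀.1).2.1 * D) / D ∈ Set.Ico (0 : ℝ) 1 ∧ (H.q0 ω.1 - (H.grp c.χ D z₀.1).2.2 * D) / D ∈ Set.Ico (0 : ℝ) 1 := by
    intro ω hω
    have := k8p_u_mem c H hr h (fB ω hω).2.2.1
    rwa [(fu ω hω).1, (fu ω hω).2.1, (fu ω hω).2.2] at this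
  have hna : 4000 ≤ n * c.a s := by
    have : 1 ≤ K ^ 4 := one_le_pow₀ hK1
    have := hr.na
    linarith
  have hξa : 1000 * K ^ 2 * c.ξ ≤ c.a s := by
    have h2 : K ^ 2 ≤ K ^ 6 := pow_le_pow_right₀ hK1 (by norm_num)
    calc 1000 * K ^ 2 * c.ξ ≤ 1000 * K ^ 6 * c.ξ :=
          mul_le_mul_of_nonneg_right (mul_le_mul_of_nonneg_left h2 (by norm_num)) hr.wf.ξ0.le
      _ ≤ c.a s * c.h s := hr.ξa
      _ ≤ c.a s * 1 := mul_le_mul_of_nonneg_left hh1 ha.le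
      _ = c.a s := mul_one _
  have hcapL : ENNReal.ofReal ((C₀ : ℝ) * K ^ C₀ / (n : ℝ) ^ 3) ≤ ENNReal.ofReal (Lm / (n : ℝ) ^ 3) :=
    ENNReal.ofReal_le_ofReal (div_le_div_of_nonneg_right (hL _ _ hA0 hA0') (by positivity))
  have hcap₁ : ∀ x ∈ S₁, ∀ k0 k1 k2 : ℤ, H.lam (B ∩ (fun z : H.Lam × ℝ => F.pr z.1) ⁻¹' {x} ∩
      {ω | ⌊(n : ℝ) * ((ω.2 - H.bt (H.lab s z₀)) / H.bl (H.lab s z₀))⌋ = k0 ∧ ⌊(n : ℝ) * ((H.p ω.1 - (H.grp c.χ D z₀.1).2.1 * D) / D)⌋ = k1 ∧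
        ⌊(n : ℝ) * ((H.q0 ω.1 - (H.grp c.χ D z₀.1).2.2 * D) / D)⌋ = k2}) ≤ ENNReal.ofReal (Lm / (n : ℝ) ^ 3) * H.tGI c s D z₀ := by
    intro x _ k0 k1 k2
    refine (hC₀ c H K s D (K / D) (10 * K) K n z₀ x k0 k1 k2 _ hr h hz₀S hK1 (by linarith) ?_ ?_ ?_).trans (mul_le_mul' hcapL le_rfl)
    · have e1 : 2 * (K / D) * (D / n) = K * (2 / n) := by field_simp
      rw [e1]
      refine mul_le_mul_of_nonneg_left ?_ hK0.le
      rw [div_le_iff₀ hn']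
      linarith
    · have : K ≤ K ^ 2 := by nlinarith
      have := hr.wf.ξ0
      nlinarith
    · rintro ω ⟨⟨hω, hωx⟩, h0, h1, h2⟩
      have hωx' : F.pr ω.1 = x := hωx
      have hdom := hF.cover ω (fB ω hω).2.1
      have hsl := k8p_pr_slopes c H hr F hF hdom
      rw [hωx'] at hsl
      have hfit := hF.fit ω.1 hdom ω.2 (h.time ω (fB ω hω).2.2.1)
      rw [hωx'] at hfit
      exact ⟨(fB ω hω).2.2.1, fgr ω hω, hfit, h0, h1, h2, hsl.1, hsl.2.1⟩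
  have hcap₂ : ∀ x ∈ S₂, ∀ k0 k1 k2 : ℤ, H.lam (B ∩ (fun z : H.Lam × ℝ => (H.lab s z, H.entOf s z)) ⁻¹' {x} ∩
      {ω | ⌊(n : ℝ) * ((ω.2 - H.bt (H.lab s z₀)) / H.bl (H.lab s z₀))⌋ = k0 ∧ ⌊(n : ℝ) * ((H.p ω.1 - (H.grp c.χ D z₀.1).2.1 * D) / D)⌋ = k1 ∧
        ⌊(n : ℝ) * ((H.q0 ω.1 - (H.grp c.χ D z₀.1).2.2 * D) / D)⌋ = k2}) ≤ ENNReal.ofReal (Lm / (n : ℝ) ^ 3) * H.tGI c s D z₀ := by
    intro x _ k0 k1 k2
    refine (hC₀ c H K s D (8 * K) (12 * K ^ 2) (K + 1) n z₀ (k8pCal x.2 ((H.grp c.χ D z₀.1).1 * c.χ)) k0 k1 k2 _ hr h hz₀S (by linarith) (by linarith)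
      ?_ ?_ ?_).trans (mul_le_mul' hcapL le_rfl)
    · have e1 : 2 * (8 * K) * (D / n) = K * (16 * D / n) := by field_simp; ring
      rw [e1]
      have h1 : 16 * D / n ≤ c.a s := by
        rw [div_le_iff₀ hn']
        nlinarith
      nlinarith
    · have := hr.wf.ξ0
      nlinarith
    · rintro ω ⟨⟨hω, hωx⟩, h0, h1, h2⟩
      have hωx' : H.entOf s ω = x.2 := congrArg Prod.snd hωx
      have hc := fcal ω hω
      rw [hωx'] at hc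
      have hsl := k8p_cal_slopes c H hr h hE hs (fB ω hω).2.1
      have hfit := k8p_cal_fit c H hr h hE hs (fB ω hω).2.1
      rw [hc] at hsl hfit
      refine ⟨(fB ω hω).2.2.1, fgr ω hω, hfit, h0, h1, h2, fun t ht => hsl.1 t ?_, fun p q hp _ => hsl.2 p q (by linarith)⟩
      rw [abs_le]
      constructor <;> linarith [ht.1, ht.2]
  have hclose : ∀ ω ∈ B, |(H.sc c s D z₀ (F.pr ω.1)).ev ((ω.2 - H.bt (H.lab s z₀)) / H.bl (H.lab s z₀)) ((H.p ω.1 - (H.grp c.χ D z₀.1).2.1 * D) / D)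
        ((H.q0 ω.1 - (H.grp c.χ D z₀.1).2.2 * D) / D)
      - (H.sc c s D z₀ (k8pCal (H.entOf s ω) ((H.grp c.χ D z₀.1).1 * c.χ))).ev ((ω.2 - H.bt (H.lab s z₀)) / H.bl (H.lab s z₀))
        ((H.p ω.1 - (H.grp c.χ D z₀.1).2.1 * D) / D) ((H.q0 ω.1 - (H.grp c.χ D z₀.1).2.2 * D) / D)| ≤ Lm * c.a s := by
    intro ω hω
    have e1 := k8p_sc_ev c H hr h (fB ω hω).2.2.1 (F.pr ω.1)
    have e2 := k8p_sc_ev c H hr h (fB ω hω).2.2.1 (H.cal c s D ω)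
    rw [(fdm ω hω _).1, (fu ω hω).1, (fu ω hω).2.1, (fu ω hω).2.2] at e1 e2
    rw [fcal ω hω] at e2
    rw [e1, e2]
    have hfit1 := hF.fit ω.1 (hF.cover ω (fB ω hω).2.1) ω.2 (h.time ω (fB ω hω).2.2.1)
    have hfit2 := k8p_cal_fit c H hr h hE hs (fB ω hω).2.1
    rw [fcal ω hω] at hfit2
    have e3 : H.X ω = H.Xt ω.1 ω.2 := rfl
    rw [e3] at hfit2
    have h3 : (2 * K + 1) ≤ Lm := by
      have := hL 3 1 (by linarith) hA1n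
      linarith
    have h4 : (2 * K + 1) * c.a s ≤ Lm * c.a s := mul_le_mul_of_nonneg_right h3 ha.le
    rw [abs_le] at hfit1 hfit2 ⊢
    constructor <;> linarith [hfit1.1, hfit1.2, hfit2.1, hfit2.2]
  have key := k8p_match_group hub H.lam (fun z : H.Lam × ℝ => F.pr z.1) (fun z : H.Lam × ℝ => (H.lab s z, H.entOf s z)) hi₁ hi₂ S₁ S₂
    (fun z : H.Lam × ℝ => (z.2 - H.bt (H.lab s z₀)) / H.bl (H.lab s z₀)) (fun z : H.Lam × ℝ => (H.p z.1 - (H.grp c.χ D z₀.1).2.1 * D) / D)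
    (fun z : H.Lam × ℝ => (H.q0 z.1 - (H.grp c.χ D z₀.1).2.2 * D) / D) hu0 hu1 hu2
    (fun f => H.sc c s D z₀ f) (fun e => H.sc c s D z₀ (k8pCal e.2 ((H.grp c.χ D z₀.1).1 * c.χ))) (H.sc c s D z₀ (F.pr z₀.1)) B hmB n M (c.a s) Lm
    (H.tGI c s D z₀) hR hε ha hM hLm1 hLR hn hosc hT hS₁' hS₂' hcard hbox
    (fun x hx => (href₁ x hx).trans (by nlinarith)) (fun x hx => (href₂ x hx).trans (by nlinarith)) hcap₁ hcap₂ hclose
    (fun ω hω => by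
      have h2 : M ≤ F.dis c s D ω := hω.1.2.1
      rwa [fdis ω hω] at h2)
    (fun ω hω => by
      have h2 : F.dis c s D ω < 2 * M := hω.1.2.2
      rw [fdis ω hω] at h2
      exact h2.le)
  exact key

/-- at most `5^6` codes within `2` of a given code -/
theorem k8p_BS_codes {Γ : Type*} (β₀ : Fin 6 → ℤ) (S : Finset Γ) (φ : (Fin 6 → ℤ) → Γ)
    (hS : ∀ γ ∈ S, ∃ β : Fin 6 → ℤ, (∀ i, |β i - β₀ i| ≤ 2) ∧ φ β = γ) : S.card ≤ 5 ^ 6 := by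
  classical
  have hsub : S ⊆ (Fintype.piFinset fun i => Finset.Icc (β₀ i - 2) (β₀ i + 2)).image φ := by
    intro γ hγ
    obtain ⟨β, h1, h2⟩ := hS γ hγ
    refine Finset.mem_image.2 ⟨β, Fintype.mem_piFinset.2 fun i => ?_, h2⟩
    have := abs_le.1 (h1 i)
    exact Finset.mem_Icc.2 ⟨by linarith [this.1], by linarith [this.2]⟩
  refine (Finset.card_le_card hsub).trans (Finset.card_image_le.trans ?_)
  rw [Fintype.card_piFinset]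
  have : ∀ i : Fin 6, (Finset.Icc (β₀ i - 2) (β₀ i + 2)).card = 5 := by
    intro i
    rw [Int.card_Icc]
    have : β₀ i + 2 + 1 - (β₀ i - 2) = 5 := by ring
    rw [this]
    rfl
  simp [this]

set_option maxHeartbeats 800000 in
/-- **L-252-S8p-BS** (PROVED, helper114).  **The bad pairings of one dyadic scale** (08 l.438).
PLAN.  `k8p_sum_groups` with `Ω = H.Lam × ℝ`, `μ = H.lam`, `B := E₁ ∩ F.bad c s D M`, `dm z := (grp z.1, blk (lab s z))`, `key z := (dm z, (H.sc c s D z (F.pr z.1)).code M)`, `i₁ z := F.pr z.1`, `i₂ z := (lab s z, entOf s z)`,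
`T δ := volume δ.2 * ofReal (a^d) * gW δ.1`, `κ := ofReal K₁`, `θ := ofReal (R^(-ε))`, `m := 5^6`.   Measurability and finiteness as in `k8p_floors` (all labels are functions of `grp z.1`, `F.pr z.1`, `lab s z`, `entOf s z`).
`hk₁` : `k8p_sc_dm`.   `hk₂` : on `B`, `dis < 2M`, so `k8p_code_near` (with `k8p_resc_sub`) puts the code of the scaled predictor in `Fintype.piFinset fun i => Icc (β i - 2) (β i + 2)`, `β` = code of the scaled `𝓛` (fixed by `dm`, `i₂`): `5^6` values.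
`hfl₁`, `hfl₂` : `hfl.fl1`, `hfl.fl2` (set equalities; in `ev2` the block is determined by the label).   `hgrp` : `k8p_group_bad` (`B ∩ key ⁻¹' {key z₀} = E₁ ∩ bad ∩ gM z₀`).   `1 + 5^6 ≤ 20000`. -/
theorem k8p_bad_scale : ∃ C : ℕ, ∀ (d ε R : ℝ), K4eMatch 3 d ε R → 0 < ε → ∀ (c : K7bPar) (H : K7bHor) (K K₁ s D M : ℝ) (n : ℕ) (F : K8Lab H)
    (E E₁ : Set (H.Lam × ℝ)),
    c.d = d → K8pRel c K s D n → H.Ok c K → H.Slopes c K E → F.Ok c K s D E → E ⊆ H.Sp → E₁ ⊆ E → MeasurableSet E₁ → 1 ≤ K₁ → F.Fl c K₁ s D E₁ →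
    M = R * c.a s → 1 ≤ R → (C : ℝ) * K ^ C * K₁ ≤ R ^ ε →
    MeasurableSet (E₁ ∩ F.bad c s D M) ∧ H.lam (E₁ ∩ F.bad c s D M) ≤ ENNReal.ofReal (20000 * K₁ * R ^ (-ε)) * H.lam E₁ := by
  obtain ⟨C, hC⟩ := k8p_group_bad
  refine ⟨C, ?_⟩
  intro d ε R hub hε c H K K₁ s D M n F E E₁ hd hr h hs hF hE hE₁ hmE₁ hK₁ hfl hM hR hCR
  obtain ⟨ha, hD, hh, hh1, hD1, -, hah, hn⟩ := k8p_rel_pos c hr
  have hR0 : 0 < R := by linarith
  have hM0 : 0 < M := by rw [hM]; positivity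
  set B : Set (H.Lam × ℝ) := E₁ ∩ F.bad c s D M with hB
  have hmB : MeasurableSet B := by
    have e : B = E₁ ∩ {z | (H.grp c.χ D z.1, F.pr z.1, H.lab s z, H.entOf s z) ∈
        {x : (ℤ × ℤ × ℤ) × K8Pr × H.Q × (ℝ × ℝ × ℝ × ℝ) |
          M ≤ (((k8pCal x.2.2.2 (x.1.1 * c.χ)).sub x.2.1).resc (H.bt x.2.2.1) (H.bl x.2.2.1) (x.1.2.1 * D) (x.1.2.2 * D) D).l1 ∧
            (((k8pCal x.2.2.2 (x.1.1 * c.χ)).sub x.2.1).resc (H.bt x.2.2.1) (H.bl x.2.2.1) (x.1.2.1 * D) (x.1.2.2 * D) D).l1 < 2 * M}} := rfl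
    rw [e]
    exact k8p_lb_meas c H hr.wf hD hr.sG h F hF hE hE₁ hmE₁ _
  refine ⟨hmB, ?_⟩
  have fS : ∀ ω ∈ B, ω ∈ H.Sp := fun ω hω => hE (hE₁ hω.1)
  have hΛfin := k8p_lb_fin c H hr.wf hD hr.sG h F hF hE
  have hBE : B ⊆ E := fun ω hω => hE₁ hω.1
  have hblk : ∀ I : Set ℝ, MeasurableSet {z : H.Lam × ℝ | H.blk (H.lab s z) = I} := by
    intro I
    have e : {z : H.Lam × ℝ | H.blk (H.lab s z) = I} = ⋃ q ∈ {q : H.Q | H.blk q = I}, H.lab s ⁻¹' {q} := by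
      ext z
      simp only [Set.mem_setOf_eq, Set.mem_iUnion, Set.mem_preimage, Set.mem_singleton_iff, exists_prop]
      exact ⟨fun hz => ⟨_, hz, rfl⟩, fun ⟨q, h1, h2⟩ => h2 ▸ h1⟩
    rw [e]
    exact (Set.toFinite _).measurableSet_biUnion fun q _ => h.mlab s hr.sG q
  have key := k8p_sum_groups H.lam B E₁
    (fun z : H.Lam × ℝ => ((H.grp c.χ D z.1, H.blk (H.lab s z)), (H.sc c s D z (F.pr z.1)).code M))
    (fun z : H.Lam × ℝ => (H.grp c.χ D z.1, H.blk (H.lab s z))) (fun z : H.Lam × ℝ => F.pr z.1) (fun z : H.Lam × ℝ => (H.lab s z, H.entOf s z))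
    (fun δ => volume δ.2 * ENNReal.ofReal (c.a s ^ c.d) * H.gW c.χ D δ.1) (ENNReal.ofReal (R ^ (-ε))) (ENNReal.ofReal K₁) (5 ^ 6)
    Set.inter_subset_left hmB hmE₁ ?_ ?_ ?_ ?_ ?_ ?_ ?_ ?_ ?_ ?_ ?_
  · refine key.trans (mul_le_mul' ?_ le_rfl)
    have e1 : (1 + ((5 ^ 6 : ℕ) : ℝ≥0∞)) = ENNReal.ofReal 15626 := by
      rw [show (15626 : ℝ) = ((15626 : ℕ) : ℝ) by norm_num, ENNReal.ofReal_natCast]
      norm_num
    have hRε : 0 < R ^ (-ε) := Real.rpow_pos_of_pos hR0 _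
    rw [e1, ← ENNReal.ofReal_mul hRε.le, ← ENNReal.ofReal_mul (by positivity)]
    refine ENNReal.ofReal_le_ofReal ?_
    have : 0 < R ^ (-ε) * K₁ := by positivity
    nlinarith
  · -- hd₁
    rintro ⟨⟨g, I⟩, f⟩
    have e : (fun z : H.Lam × ℝ => ((H.grp c.χ D z.1, H.blk (H.lab s z)), F.pr z.1)) ⁻¹' {((g, I), f)}
        = H.gI c.χ D g ∩ {z : H.Lam × ℝ | H.blk (H.lab s z) = I} ∩ (Prod.fst ⁻¹' (F.pr ⁻¹' {f})) := by
      ext z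
      simp only [Set.mem_preimage, Set.mem_singleton_iff, Prod.mk.injEq, Set.mem_inter_iff, K7bHor.gI, Set.mem_setOf_eq]
    rw [e]
    exact ((k7b_group_meas c H h g).2.inter (hblk I)).inter (measurable_fst (hF.mpr f))
  · -- hd₂
    rintro ⟨⟨g, I⟩, q, e'⟩
    have e : (fun z : H.Lam × ℝ => ((H.grp c.χ D z.1, H.blk (H.lab s z)), (H.lab s z, H.entOf s z))) ⁻¹' {((g, I), (q, e'))}
        = H.gI c.χ D g ∩ {z : H.Lam × ℝ | H.blk (H.lab s z) = I} ∩ ((H.lab s ⁻¹' {q}) ∩ (H.entOf s ⁻¹' {e'})) := by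
      ext z
      simp only [Set.mem_preimage, Set.mem_singleton_iff, Prod.mk.injEq, Set.mem_inter_iff, K7bHor.gI, Set.mem_setOf_eq]
    rw [e]
    exact ((k7b_group_meas c H h g).2.inter (hblk I)).inter ((h.mlab s hr.sG q).inter (h.ment s hr.sG e'))
  · -- hfin
    refine ((hΛfin.image fun x : (ℤ × ℤ × ℤ) × K8Pr × H.Q × (ℝ × ℝ × ℝ × ℝ) =>
      ((x.1, H.blk x.2.2.1), (x.2.1.resc (H.bt x.2.2.1) (H.bl x.2.2.1) (x.1.2.1 * D) (x.1.2.2 * D) D).code M))).subset ?_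
    rintro _ ⟨z, hz, rfl⟩
    exact ⟨_, ⟨z, hBE hz, rfl⟩, rfl⟩
  · -- hf₁
    refine (hΛfin.image fun x : (ℤ × ℤ × ℤ) × K8Pr × H.Q × (ℝ × ℝ × ℝ × ℝ) => x.2.1).subset ?_
    rintro _ ⟨z, hz, rfl⟩
    exact ⟨_, ⟨z, hBE hz, rfl⟩, rfl⟩
  · -- hf₂
    refine (hΛfin.image fun x : (ℤ × ℤ × ℤ) × K8Pr × H.Q × (ℝ × ℝ × ℝ × ℝ) => x.2.2).subset ?_
    rintro _ ⟨z, hz, rfl⟩
    exact ⟨_, ⟨z, hBE hz, rfl⟩, rfl⟩
  · -- hkd
    intro ω _ ω' _ hk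
    exact congrArg Prod.fst hk
  · -- hk₁
    intro ω hω ω' hω' hdm hi
    have hdm' : ω' ∈ H.dm c s D ω := ⟨(congrArg Prod.fst hdm).symm, (congrArg Prod.snd hdm).symm⟩
    have hsc := (k8p_sc_dm c H hr h (fS ω hω) (fS ω' hω') hdm' (F.pr ω'.1)).1
    refine Prod.ext hdm ?_
    show (H.sc c s D ω (F.pr ω.1)).code M = (H.sc c s D ω' (F.pr ω'.1)).code M
    rw [hsc, show F.pr ω.1 = F.pr ω'.1 from hi]
  · -- hk₂
    intro ω₀ hω₀ S hS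
    refine k8p_BS_codes ((H.sc c s D ω₀ (H.cal c s D ω₀)).code M) S (fun β => ((H.grp c.χ D ω₀.1, H.blk (H.lab s ω₀)), β)) ?_
    intro γ hγ
    obtain ⟨ω, hω, hdm, hi, rfl⟩ := hS γ hγ
    have hdm' : ω ∈ H.dm c s D ω₀ := ⟨congrArg Prod.fst hdm, congrArg Prod.snd hdm⟩
    have hsc := fun f => (k8p_sc_dm c H hr h (fS ω₀ hω₀) (fS ω hω) hdm' f).1
    have hcal : H.cal c s D ω = H.cal c s D ω₀ := by
      unfold K7bHor.cal
      rw [show H.entOf s ω = H.entOf s ω₀ from congrArg Prod.snd hi, show H.grp c.χ D ω.1 = H.grp c.χ D ω₀.1 from congrArg Prod.fst hdm]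
    refine ⟨(H.sc c s D ω (F.pr ω.1)).code M, fun i => ?_, Prod.ext hdm.symm rfl⟩
    rw [hsc]
    refine k8p_code_near hM0 ?_ i
    have h2 : F.dis c s D ω < 2 * M := hω.2.2
    unfold K8Lab.dis at h2
    rw [hsc, hcal] at h2
    unfold K7bHor.sc at h2 ⊢
    rwa [k8p_resc_sub, k8p_l1_comm] at h2
  · -- hfl₁
    intro ω hω
    refine (hfl.fl1 ω hω.1).trans (mul_le_mul' le_rfl (measure_mono (Set.inter_subset_inter_right _ ?_)))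
    intro z' hz'
    exact ⟨Prod.ext hz'.1.1 hz'.1.2, hz'.2⟩
  · -- hfl₂
    intro ω hω
    refine (hfl.fl2 ω hω.1).trans (mul_le_mul' le_rfl (measure_mono (Set.inter_subset_inter_right _ ?_)))
    intro z' hz'
    exact ⟨Prod.ext hz'.1 (congrArg H.blk hz'.2.1), Prod.ext hz'.2.1 hz'.2.2⟩
  · -- hgrp
    intro ω₀ hω₀ S₁ S₂ hS₁ hS₂
    have e : B ∩ (fun z : H.Lam × ℝ => ((H.grp c.χ D z.1, H.blk (H.lab s z)), (H.sc c s D z (F.pr z.1)).code M)) ⁻¹'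
        {((H.grp c.χ D ω₀.1, H.blk (H.lab s ω₀)), (H.sc c s D ω₀ (F.pr ω₀.1)).code M)} = E₁ ∩ F.bad c s D M ∩ F.gM c s D M ω₀ := by
      ext z
      simp only [Set.mem_inter_iff, Set.mem_preimage, Set.mem_singleton_iff, Prod.mk.injEq]
      exact ⟨fun ⟨h1, ⟨h2, h3⟩, h4⟩ => ⟨h1, ⟨h2, h3⟩, h4⟩, fun ⟨h1, ⟨h2, h3⟩, h4⟩ => ⟨h1, ⟨h2, h3⟩, h4⟩⟩
    rw [e] at hS₁ hS₂ ⊢
    exact hC d ε R hub hε c H K K₁ s D M n F E E₁ ω₀ S₁ S₂ hd hr h hs hF hE hE₁ hmE₁ hK₁ hfl hω₀.1 hM hR hCR hS₁ hS₂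

/-- **L-252-S8p-RF** (PROVED, helper114, from `k8f_refloor`).  **The current floors of the labels are restored** (08 l.794-805; twin of `k8_split` with `Ds = D`, but for a sub-selection `E₂ ⊆ E`).
PLAN.  `k8p_floors_abs` with `l₁ z := (grp z.1, F.pr z.1)`, `T₁ (g, h) := gW g * ofReal (a^d) + ν {l | l ∈ F.dom ∧ grp l = g ∧ F.pr l = h}`, `l₂ := fun _ => ()`, `T₂ := 0`, `B := ofReal (2K²)`, `κ := ofReal (4K²/ε)`.
`∑ gW a^d ≤ K lam E ≤ K²` (as in `k8p_sum1`: OLD floors `hF.floor` in `E`, disjoint `F.inc`);  `∑ ν (asg) ≤ ν univ ≤ 1` (disjoint measurable).   For `z ∈ E'` : `E' ∩ l₁ ⁻¹' {l₁ z} = E' ∩ F.inc c.χ D z.1` (`hF.cover`).   Other fields: `K8Lab.Ok.mono`-type, `K ≤ 4K²/ε`. -/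
theorem k8p_refloor (c : K7bPar) (H : K7bHor) {K s D ε : ℝ} (hc : c.WF) (hK : 1 ≤ K) (hD : 0 < D) (h : H.Ok c K) (F : K8Lab H) {E E₂ : Set (H.Lam × ℝ)}
    (hF : F.Ok c K s D E) (hE : E ⊆ H.Sp) (h2 : E₂ ⊆ E) (hm : MeasurableSet E₂) (hε : 0 < ε) (hε1 : ε ≤ 1) :
    ∃ E' ⊆ E₂, MeasurableSet E' ∧ H.lam (E₂ \ E') ≤ ENNReal.ofReal ε ∧ F.Ok c (4 * K ^ 2 / ε) s D E' := by
  have hK0 : 0 < K := by linarith
  have hK1p : 0 < 4 * K ^ 2 / ε := by positivity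
  have hKK : K ≤ 4 * K ^ 2 / ε := by
    rw [le_div_iff₀ hε]
    nlinarith
  obtain ⟨E', hsub, hmE', hloss, hfl⟩ := k8f_refloor H c hc h (ι := Unit) (fun _ => F) (fun _ => D)
    (fun _ => ENNReal.ofReal (c.a s ^ c.d)) (fun _ => ENNReal.ofReal (K ^ 2)) (ENNReal.ofReal (4 * K ^ 2 / ε))⁻¹ (h2.trans hE) hm
    (fun _ => hD) (fun _ => hF.mdom) (fun _ => hF.mpr) (fun _ => hF.fin) (fun _ z hz => hF.cover z (h2 hz))
    (fun _ S hS => k8f_num_sum hK0.le h F hF.pre S (fun x hx => by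
      obtain ⟨z, hz, e⟩ := hS x hx
      exact ⟨z, h2 hz, e⟩))
  have hF' := hF.mono hc hKK
  refine ⟨E', hsub, hmE', hloss.trans ?_, ?_⟩
  · rw [ENNReal.inv_mul_le_iff (ENNReal.ofReal_pos.2 hK1p).ne' ENNReal.ofReal_ne_top]
    simp only [Finset.univ_unique, Finset.sum_const, Finset.card_singleton, one_smul]
    rw [← ENNReal.ofReal_one, ← ENNReal.ofReal_add (by positivity) zero_le_one, ← ENNReal.ofReal_mul hK1p.le]
    refine ENNReal.ofReal_le_ofReal ?_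
    rw [div_mul_cancel₀ _ hε.ne']
    nlinarith
  · exact
    { mdom := hF.mdom, mpr := hF.mpr, fin := hF.fin, cover := fun z hz => hF.cover z (h2 (hsub hz))
      fit := hF'.fit, norm := hF'.norm
      floor := fun z hz => (k8f_read hK1p (hfl () z hz)).1
      prior := fun z hz => (k8f_read hK1p (hfl () z hz)).2 }

end

end Claimed.Agent.R252
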