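-- KEEP
import Claimed.Agent.R252.S8p.CmpContract
import Claimed.Agent.R252.S3c.HubsContract

/-!
# Row 252 (Kakeya in R^4), Sec. 8: L8.4 `a07:full-time-comparison` (08 l.372-440): ASSEMBLY      (helper114; prefix `k8p`)

* `k8p_cmp_one`  : L8.4 at one scale, from the leaves of `S8p/CmpContract.lean`.
* `k8p_rel_ev`   : the relations `K8pRel` hold eventually.
* `k8p_cmp`      : `K8pHM → K8HCmp`  (exit of the post BP-252-S8p).
* `k8p_hm`       : `K8pHM` from `k3c_K4eMatch` (helper172, S3c);      `k8p_hcmp : K8HCmp`.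
No sorry in this file.
-/

set_option autoImplicit false

namespace Claimed.Agent.R252

open MeasureTheory
open scoped ENNReal BigOperators

noncomputable section

/-- finite geometric sums -/
theorem k8p_geom {x : ℝ} (h0 : 0 ≤ x) (h1 : x < 1) (J : ℕ) : ∑ j ∈ Finset.range J, x ^ j ≤ 1 / (1 - x) := by
  have h2 : 0 < 1 - x := by linarith
  rw [le_div_iff₀ h2, mul_comm, mul_neg_geom_sum]
  have := pow_nonneg h0 J
  linarith

theorem k8p_two_rpow {ε : ℝ} (hε : 0 < ε) : 0 < (2 : ℝ) ^ (-ε) ∧ (2 : ℝ) ^ (-ε) < 1 :=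
  ⟨Real.rpow_pos_of_pos two_pos _, Real.rpow_lt_one_of_one_lt_of_neg one_lt_two (by linarith)⟩

theorem k8p_scale_rpow {Ko ε : ℝ} (hKo : 0 < Ko) (j : ℕ) : ((2 : ℝ) ^ j * Ko) ^ (-ε) = ((2 : ℝ) ^ (-ε)) ^ j * Ko ^ (-ε) := by
  rw [Real.mul_rpow (by positivity) hKo.le]
  congr 1
  rw [← Real.rpow_natCast, ← Real.rpow_mul two_pos.le, mul_comm, Real.rpow_mul two_pos.le, Real.rpow_natCast]

/-- `C₀ K^a ≤ C K^C` -/
theorem k8p_const_pow {K : ℝ} (hK : 1 ≤ K) {C₀ : ℝ} {a C : ℕ} (h1 : C₀ ≤ C) (h2 : a ≤ C) : C₀ * K ^ a ≤ (C : ℝ) * K ^ C := by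
  have h3 : K ^ a ≤ K ^ C := pow_le_pow_right₀ hK h2
  have h4 : 0 < K ^ a := by positivity
  calc C₀ * K ^ a ≤ (C : ℝ) * K ^ a := mul_le_mul_of_nonneg_right h1 h4.le
    _ ≤ (C : ℝ) * K ^ C := mul_le_mul_of_nonneg_left h3 (Nat.cast_nonneg _)

/-- **L8.4 at one scale.**   `Ko` = the output slack of the comparison. -/
theorem k8p_cmp_one : ∃ C : ℕ, ∀ (d ε R₀ : ℝ), 0 < ε → (∀ R : ℝ, R₀ ≤ R → K4eMatch 3 d ε R) →
    ∀ (c : K7bPar) (H : K7bHor) (K Ko s D : ℝ) (n : ℕ) (F : K8Lab H) (E : Set (H.Lam × ℝ)),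
    c.d = d → K8pRel c K s D n → H.Ok c K → H.Slopes c K E → F.Ok c K s D E → H.Res E (1 / K) →
    1 ≤ Ko → R₀ ≤ Ko → (C : ℝ) * K ^ C / (1 - (2 : ℝ) ^ (-ε)) ≤ Ko ^ ε →
    ∃ E' ⊆ E, H.Res E' (1 / (2 * K)) ∧ F.Ok c (16 * K ^ 3) s D E' ∧ F.Cmp c ((C : ℝ) * K ^ C * Ko) s D E' := by
  obtain ⟨C₂, hC₂⟩ := k8p_count2
  obtain ⟨C₃, hC₃⟩ := k8p_bad_scale
  obtain ⟨C, hCa, hCb, hCc, hCd, hCe⟩ : ∃ C : ℕ, (3200 * C₂ : ℝ) ≤ C ∧ (3200 * C₃ : ℝ) ≤ C ∧ (512000000 : ℝ) ≤ C ∧ C₂ + 5 ≤ C ∧ C₃ + 5 ≤ C := by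
    refine ⟨3200 * (C₂ + C₃) + 512000000, ?_, ?_, ?_, by omega, by omega⟩
    · push_cast; nlinarith [(Nat.cast_nonneg C₂ : (0 : ℝ) ≤ C₂), (Nat.cast_nonneg C₃ : (0 : ℝ) ≤ C₃)]
    · push_cast; nlinarith [(Nat.cast_nonneg C₂ : (0 : ℝ) ≤ C₂), (Nat.cast_nonneg C₃ : (0 : ℝ) ≤ C₃)]
    · push_cast; nlinarith [(Nat.cast_nonneg C₂ : (0 : ℝ) ≤ C₂), (Nat.cast_nonneg C₃ : (0 : ℝ) ≤ C₃)]
  have hC7 : 7 ≤ C := by
    have : ((7 : ℕ) : ℝ) ≤ C := by push_cast; linarith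
    exact_mod_cast this
  refine ⟨C, ?_⟩
  intro d ε R₀ hε hub c H K Ko s D n F E hd hr h hs hF hRes hKo1 hKoR hKoε
  have hK1 : 1 ≤ K := hr.K1
  have hK0 : 0 < K := by linarith
  have hKo0 : 0 < Ko := by linarith
  obtain ⟨ha, hD, hh, hh1, hD1, -, -, hn⟩ := k8p_rel_pos c hr
  obtain ⟨hx0, hx1⟩ := k8p_two_rpow hε
  set x : ℝ := (2 : ℝ) ^ (-ε) with hxdef
  have h1x : 0 < 1 - x := by linarith
  have h1x1 : 1 - x ≤ 1 := by linarith
  have hCK : (C : ℝ) * K ^ C ≤ Ko ^ ε := by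
    refine le_trans ?_ hKoε
    rw [le_div_iff₀ h1x]
    have : 0 ≤ (C : ℝ) * K ^ C := by positivity
    nlinarith
  -- the floors
  obtain ⟨E₁, hE₁, hmE₁, hl₁, hfl⟩ := k8p_floors c H hr h F hF hRes.sub hRes.meas (ε := 1 / (8 * K)) (by positivity)
  have hK₁e : 400 * K ^ 4 / (1 / (8 * K)) = 3200 * K ^ 5 := by field_simp; ring
  rw [hK₁e] at hfl
  have hK₁1 : 1 ≤ 3200 * K ^ 5 := by
    have : 1 ≤ K ^ 5 := one_le_pow₀ hK1
    linarith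
  -- the scales
  obtain ⟨J, hJ⟩ := pow_unbounded_of_one_lt (1000 * K ^ 2 / (Ko * c.a s)) one_lt_two
  have hbs : ∀ j : ℕ, MeasurableSet (E₁ ∩ F.bad c s D ((2 : ℝ) ^ j * Ko * c.a s)) ∧
      H.lam (E₁ ∩ F.bad c s D ((2 : ℝ) ^ j * Ko * c.a s)) ≤ ENNReal.ofReal (20000 * (3200 * K ^ 5) * ((2 : ℝ) ^ j * Ko) ^ (-ε)) * H.lam E₁ := by
    intro j
    have h2j : (1 : ℝ) ≤ 2 ^ j := one_le_pow₀ one_le_two
    have hR1 : Ko ≤ 2 ^ j * Ko := by nlinarith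
    refine hC₃ d ε ((2 : ℝ) ^ j * Ko) (hub _ (hKoR.trans hR1)) hε c H K (3200 * K ^ 5) s D _ n F E E₁ hd hr h hs hF hRes.sub hE₁ hmE₁ hK₁1 hfl rfl
      (hKo1.trans hR1) ?_
    have e1 : (C₃ : ℝ) * K ^ C₃ * (3200 * K ^ 5) = (3200 * C₃ : ℝ) * K ^ (C₃ + 5) := by ring
    rw [e1]
    exact (k8p_const_pow hK1 (C := C) hCb hCe).trans (hCK.trans (Real.rpow_le_rpow hKo0.le hR1 hε.le))
  set Bd : Set (H.Lam × ℝ) := ⋃ j ∈ Finset.range J, E₁ ∩ F.bad c s D ((2 : ℝ) ^ j * Ko * c.a s) with hBd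
  have hmBd : MeasurableSet Bd := Finset.measurableSet_biUnion _ fun j _ => (hbs j).1
  have hlE₁ : H.lam E₁ ≤ ENNReal.ofReal K := k8f_lam_le h _
  have hlBd : H.lam Bd ≤ ENNReal.ofReal (1 / (8 * K)) := by
    have hKoε0 : 0 < Ko ^ (-ε) := Real.rpow_pos_of_pos hKo0 _
    calc H.lam Bd ≤ ∑ j ∈ Finset.range J, H.lam (E₁ ∩ F.bad c s D ((2 : ℝ) ^ j * Ko * c.a s)) := measure_biUnion_finset_le _ _
      _ ≤ ∑ j ∈ Finset.range J, ENNReal.ofReal (20000 * (3200 * K ^ 5) * (x ^ j * Ko ^ (-ε)) * K) := by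
          refine Finset.sum_le_sum fun j _ => ((hbs j).2.trans (mul_le_mul' le_rfl hlE₁)).trans ?_
          rw [← ENNReal.ofReal_mul (by positivity), k8p_scale_rpow hKo0]
      _ = ENNReal.ofReal (∑ j ∈ Finset.range J, 20000 * (3200 * K ^ 5) * (x ^ j * Ko ^ (-ε)) * K) :=
          (ENNReal.ofReal_sum_of_nonneg fun j _ => by positivity).symm
      _ ≤ ENNReal.ofReal (1 / (8 * K)) := by
          refine ENNReal.ofReal_le_ofReal ?_
          have e2 : ∑ j ∈ Finset.range J, 20000 * (3200 * K ^ 5) * (x ^ j * Ko ^ (-ε)) * K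
              = 64000000 * K ^ 6 * Ko ^ (-ε) * ∑ j ∈ Finset.range J, x ^ j := by
            rw [Finset.mul_sum]
            refine Finset.sum_congr rfl fun j _ => by ring
          rw [e2]
          have h3 : (512000000 : ℝ) * K ^ 7 / (1 - x) ≤ Ko ^ ε := by
            refine le_trans ?_ hKoε
            exact div_le_div_of_nonneg_right (k8p_const_pow hK1 (C := C) hCc hC7) h1x.le
          have h4 : Ko ^ (-ε) = (Ko ^ ε)⁻¹ := Real.rpow_neg hKo0.le _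
          have h5 : 0 < Ko ^ ε := Real.rpow_pos_of_pos hKo0 _
          have h6 := k8p_geom hx0.le hx1 J
          have h7 : 64000000 * K ^ 6 * Ko ^ (-ε) * ∑ j ∈ Finset.range J, x ^ j ≤ 64000000 * K ^ 6 * Ko ^ (-ε) * (1 / (1 - x)) :=
            mul_le_mul_of_nonneg_left h6 (by positivity)
          refine h7.trans ?_
          rw [h4, div_le_iff₀ h1x] at *
          rw [show 64000000 * K ^ 6 * (Ko ^ ε)⁻¹ * (1 / (1 - x)) = 64000000 * K ^ 6 / ((1 - x) * Ko ^ ε) by field_simp,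
            div_le_div_iff₀ (by positivity) (by positivity)]
          nlinarith
  -- the good selection
  have hmE₂ : MeasurableSet (E₁ \ Bd) := hmE₁.diff hmBd
  have hE₂E : E₁ \ Bd ⊆ E := Set.sdiff_subset.trans hE₁
  have hdis : ∀ z ∈ E₁ \ Bd, F.dis c s D z < Ko * c.a s := by
    intro z hz
    by_contra hcon
    rw [not_lt] at hcon
    have hKa : 0 < Ko * c.a s := by positivity
    have h1 : 1 ≤ F.dis c s D z / (Ko * c.a s) := by rwa [le_div_iff₀ hKa, one_mul]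
    obtain ⟨j, hj1, hj2⟩ := exists_nat_pow_near h1 one_lt_two
    have hle := k8p_dis_le c H hr h F hRes.sub hs hF (hE₁ hz.1)
    have hjJ : j < J := by
      have : (2 : ℝ) ^ j < 2 ^ J := hj1.trans_lt (lt_of_le_of_lt (div_le_div_of_nonneg_right hle hKa.le) hJ)
      exact (pow_lt_pow_iff_right₀ one_lt_two).1 this
    refine hz.2 ?_
    rw [hBd]
    simp only [Set.mem_iUnion, Finset.mem_range]
    refine ⟨j, hjJ, hz.1, ?_, ?_⟩
    · rw [le_div_iff₀ hKa] at hj1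
      linarith
    · rw [div_lt_iff₀ hKa, pow_succ] at hj2
      linarith
  obtain ⟨E', hE', hmE', hl₃, hOk⟩ := k8p_refloor c H hr.wf hK1 hD h F hF hRes.sub hE₂E hmE₂ (ε := 1 / (4 * K)) (by positivity)
    (by rw [div_le_one (by positivity)]; linarith)
  have hK₃e : 4 * K ^ 2 / (1 / (4 * K)) = 16 * K ^ 3 := by field_simp; ring
  rw [hK₃e] at hOk
  have hE'E : E' ⊆ E := hE'.trans hE₂E
  have hloss : H.lam (E \ E') ≤ ENNReal.ofReal (1 / (2 * K)) := by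
    have hsub : E \ E' ⊆ (E \ E₁) ∪ Bd ∪ ((E₁ \ Bd) \ E') := by
      intro z hz
      by_cases h1 : z ∈ E₁
      · by_cases h2 : z ∈ Bd
        · exact Or.inl (Or.inr h2)
        · exact Or.inr ⟨⟨h1, h2⟩, hz.2⟩
      · exact Or.inl (Or.inl ⟨hz.1, h1⟩)
    calc H.lam (E \ E') ≤ H.lam ((E \ E₁) ∪ Bd ∪ ((E₁ \ Bd) \ E')) := measure_mono hsub
      _ ≤ H.lam (E \ E₁) + H.lam Bd + H.lam ((E₁ \ Bd) \ E') := (measure_union_le _ _).trans (add_le_add (measure_union_le _ _) le_rfl)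
      _ ≤ ENNReal.ofReal (1 / (8 * K)) + ENNReal.ofReal (1 / (8 * K)) + ENNReal.ofReal (1 / (4 * K)) := add_le_add (add_le_add hl₁ hlBd) hl₃
      _ = ENNReal.ofReal (1 / (2 * K)) := by
          rw [← ENNReal.ofReal_add (by positivity) (by positivity), ← ENNReal.ofReal_add (by positivity) (by positivity)]
          congr 1
          field_simp
          norm_num
  refine ⟨E', hE'E, ⟨hE'E.trans hRes.sub, hmE', k8f_mass_half H.lam hK0 hRes.mass hloss⟩, hOk, ?_, ?_⟩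
  · -- (i)
    intro z hz t ht p q hp hq
    refine (k8p_close_of_dis c H hr h F (hRes.sub (hE'E hz)) ht hp hq).trans ?_
    have h1 := hdis z (hE' hz)
    have h2 : (2 : ℝ) ≤ (C : ℝ) * K ^ C := by
      have := k8p_const_pow hK1 (C₀ := 2) (a := 0) (C := C) (by linarith) (Nat.zero_le _)
      simpa using this
    have h3 : 2 * (Ko * c.a s) ≤ (C : ℝ) * K ^ C * (Ko * c.a s) := mul_le_mul_of_nonneg_right h2 (by positivity)
    nlinarith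
  · -- (ii)
    intro l₀ I
    classical
    by_cases hex : ∃ z₀ ∈ E', z₀.1 ∈ F.asg c.χ D l₀ ∧ H.blk (H.lab s z₀) = I
    · obtain ⟨z₀, hz₀, hz₀a, hz₀I⟩ := hex
      have hfin : ((fun z : H.Lam × ℝ => (H.lab s z, H.entOf s z)) '' {z | z ∈ E' ∧ z.1 ∈ F.asg c.χ D l₀ ∧ H.blk (H.lab s z) = I}).Finite := by
        refine Set.Finite.subset (Set.finite_iUnion fun q : H.Q => (Set.finite_singleton q).prod (H.ent q).finite_toSet) ?_
        rintro _ ⟨z, hz, rfl⟩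
        exact Set.mem_iUnion.2 ⟨H.lab s z, rfl, h.entmem s hr.sG z (hRes.sub (hE'E hz.1))⟩
      refine ⟨hfin.toFinset, ?_, fun z hz hza hzI => (Set.Finite.mem_toFinset _).2 ⟨z, ⟨hz, hza, hzI⟩, rfl⟩⟩
      have hcnt := hC₂ c H K (3200 * K ^ 5) s D (Ko * c.a s) n F E E₁ z₀ hfin.toFinset hr h hs hF hRes.sub hE₁ hmE₁ hK₁1 hfl (hE' hz₀).1
        (by nlinarith) ?_
      · refine hcnt.trans ?_
        rw [mul_div_assoc, div_self ha.ne', mul_one]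
        have h1 : Ko ^ c.d ≤ Ko := by
          calc Ko ^ c.d ≤ Ko ^ (1 : ℝ) := Real.rpow_le_rpow_of_exponent_le hKo1 hr.wf.d1.le
            _ = Ko := Real.rpow_one _
        have h2 : (C₂ : ℝ) * K ^ C₂ * (3200 * K ^ 5) ≤ (C : ℝ) * K ^ C := by
          have e1 : (C₂ : ℝ) * K ^ C₂ * (3200 * K ^ 5) = (3200 * C₂ : ℝ) * K ^ (C₂ + 5) := by ring
          rw [e1]
          exact k8p_const_pow hK1 hCa hCd
        have h3 : 0 < Ko ^ c.d := Real.rpow_pos_of_pos hKo0 _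
        calc (C₂ : ℝ) * K ^ C₂ * (3200 * K ^ 5) * Ko ^ c.d ≤ (C : ℝ) * K ^ C * Ko ^ c.d := mul_le_mul_of_nonneg_right h2 h3.le
          _ ≤ (C : ℝ) * K ^ C * Ko := mul_le_mul_of_nonneg_left h1 (by positivity)
      · intro e he
        obtain ⟨z, ⟨hz, hza, hzI⟩, rfl⟩ := (Set.Finite.mem_toFinset _).1 he
        have hdm : z ∈ H.dm c s D z₀ := ⟨hza.2.1.trans hz₀a.2.1.symm, hzI.trans hz₀I.symm⟩
        refine ⟨z, ⟨(hE' hz).1, hdm⟩, rfl, ?_⟩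
        have hsc := (k8p_sc_dm c H hr h (hRes.sub (hE'E hz₀)) (hRes.sub (hE'E hz)) hdm ((H.cal c s D z).sub (F.pr z₀.1))).1
        rw [← hsc, show F.pr z₀.1 = F.pr z.1 from hz₀a.2.2.trans hza.2.2.symm]
        exact (hdis z (hE' hz)).le
    · refine ⟨∅, by simp; positivity, fun z hz hza hzI => (hex ⟨z, hz, hza, hzI⟩).elim⟩

/-! ## The relations hold eventually -/

theorem k8p_pw {N C σ α β : ℝ} (hN : 1 ≤ N) (hC : C ≤ N ^ σ) (h : α + σ ≤ β) : C * N ^ α ≤ N ^ β := by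
  have hN0 : 0 < N := by linarith
  calc C * N ^ α ≤ N ^ σ * N ^ α := mul_le_mul_of_nonneg_right hC (Real.rpow_pos_of_pos hN0 _).le
    _ = N ^ (σ + α) := (Real.rpow_add hN0 _ _).symm
    _ ≤ N ^ β := Real.rpow_le_rpow_of_exponent_le hN (by linarith)

theorem k8p_pow_le {N K τ' : ℝ} (hN : 1 ≤ N) (hK0 : 0 ≤ K) (hK : K ≤ N ^ τ') (m : ℕ) : K ^ m ≤ N ^ (τ' * m) := by
  have hN0 : 0 < N := by linarith
  rw [Real.rpow_mul hN0.le, Real.rpow_natCast]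
  exact pow_le_pow_left₀ hK0 hK m

theorem k8p_rel_ev {x : K8Exp} {M : ℝ × ℝ × ℝ} {G0 : Finset ℝ} {N1 : ℝ} {c : K7bPar} (hA : K8Adm x M G0 N1 c) {K s u τ' σ : ℝ}
    (hK1 : 1 ≤ K) (hK : K ≤ c.N ^ τ') (hs0 : 0 < s) (hsG : s ∈ G0) (hse : 4 * s < x.e0) (hu0 : 2 * x.k ≤ u) (hu1 : u ≤ 1)
    (hM1 : 3 * s + 2 ≤ M.1) (hM2 : 3 * s + 2 ≤ M.2.1) (hM3 : 3 * s + 2 ≤ M.2.2)
    (hτ1 : τ' ≤ 1 / 6) (hτ2 : τ' ≤ x.k * s) (hτ3 : τ' ≤ s / 8) (hτ4 : τ' ≤ x.e0 / 4)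
    (hσ1 : σ ≤ 1) (hσ2 : σ ≤ x.e0 / 4) (hσ3 : σ ≤ s / 2) (hN : 4000 ≤ c.N ^ σ) :
    K8pRel c K s (c.a s ^ u) ⌈c.N ^ (2 * s)⌉₊ := by
  have hN1 : 1 ≤ c.N := hA.wf.N1
  have hN0 : 0 < c.N := by linarith
  have hK0 : 0 < K := by linarith
  have hk0 : 0 < x.k := hA.hk ▸ hA.wf.k0
  have hk1 : x.k ≤ 1 := hA.hk ▸ hA.wf.k1
  have hks : x.k * s ≤ s := by nlinarith
  have hpos : ∀ e : ℝ, 0 < c.N ^ e := fun e => Real.rpow_pos_of_pos hN0 e
  have ea : c.a s = c.N ^ (-s) := rfl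
  have eh : c.h s = c.N ^ (-(x.k * s)) := by rw [← hA.hk]; rfl
  have eD : c.a s ^ u = c.N ^ (-s * u) := by rw [ea, ← Real.rpow_mul hN0.le]
  have ee : c.N ^ (-c.e0) = c.N ^ (-x.e0) := by rw [hA.he]
  have hDa : c.N ^ (-s) ≤ c.N ^ (-s * u) := Real.rpow_le_rpow_of_exponent_le hN1 (by nlinarith)
  set n : ℕ := ⌈c.N ^ (2 * s)⌉₊ with hn
  have hn1 : c.N ^ (2 * s) ≤ n := Nat.le_ceil _
  have hn2 : (n : ℝ) ≤ 2 * c.N ^ (2 * s) := by
    have h1 : (n : ℝ) < c.N ^ (2 * s) + 1 := Nat.ceil_lt_add_one (hpos _).le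
    have h2 : 1 ≤ c.N ^ (2 * s) := Real.one_le_rpow hN1 (by linarith)
    linarith
  have hn0 : (0 : ℝ) < n := lt_of_lt_of_le (hpos _) hn1
  have cst : ∀ C : ℝ, C ≤ 4000 → C ≤ c.N ^ σ := fun C hC => hC.trans hN
  -- a mesh below `N^(-s) / n`
  have mesh : ∀ m μ : ℝ, m < 2 * c.N ^ (-μ) → 3 * s + 2 ≤ μ → m ≤ c.N ^ (-s * u) / n := by
    intro m μ hm hμ
    rw [le_div_iff₀ hn0]
    have h1 : m * n ≤ 2 * c.N ^ (-μ) * (2 * c.N ^ (2 * s)) := by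
      by_cases hm0 : 0 ≤ m
      · exact mul_le_mul hm.le hn2 hn0.le (by have := hpos (-μ); linarith)
      · have : m * n ≤ 0 := mul_nonpos_of_nonpos_of_nonneg (by linarith) hn0.le
        have := hpos (-μ); have := hpos (2 * s)
        exact le_trans ‹m * n ≤ 0› (by positivity)
    have h2 : 2 * c.N ^ (-μ) * (2 * c.N ^ (2 * s)) = 4 * c.N ^ (-μ + 2 * s) := by rw [Real.rpow_add hN0]; ring
    rw [h2] at h1
    exact h1.trans ((k8p_pw hN1 (cst 4 (by norm_num)) (by linarith)).trans hDa)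
  refine ⟨hA.wf, hK1, hA.hG hsG, ?_, ?_, ?_, ?_, ?_, ?_, ?_, ?_, ?_, ?_, ?_⟩
  · rw [eD, ea]; exact hDa
  · rw [eD, eh, ← Real.rpow_natCast, ← Real.rpow_mul hN0.le]
    refine Real.rpow_le_rpow_of_exponent_le hN1 ?_
    push_cast
    nlinarith
  · rw [eh]
    calc K * c.N ^ (-(x.k * s)) ≤ c.N ^ τ' * c.N ^ (-(x.k * s)) := mul_le_mul_of_nonneg_right hK (hpos _).le
      _ = c.N ^ (τ' + -(x.k * s)) := (Real.rpow_add hN0 _ _).symm
      _ ≤ c.N ^ (0 : ℝ) := Real.rpow_le_rpow_of_exponent_le hN1 (by linarith)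
      _ = 1 := Real.rpow_zero _
  · rw [ea]
    have h1 : 4000 * K ^ 4 ≤ 4000 * c.N ^ (τ' * (4 : ℕ)) := mul_le_mul_of_nonneg_left (k8p_pow_le hN1 hK0.le hK 4) (by norm_num)
    have h2 : 4000 * c.N ^ (τ' * (4 : ℕ)) ≤ c.N ^ s := k8p_pw hN1 (cst _ le_rfl) (by push_cast; linarith)
    have h3 : c.N ^ s = c.N ^ (2 * s) * c.N ^ (-s) := by rw [← Real.rpow_add hN0]; congr 1; ring
    calc 4000 * K ^ 4 ≤ c.N ^ (2 * s) * c.N ^ (-s) := h3 ▸ h1.trans h2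
      _ ≤ n * c.N ^ (-s) := mul_le_mul_of_nonneg_right hn1 (hpos _).le
  · rw [eD]; exact mesh _ _ hA.hξ.2 hM1
  · rw [eD]; exact mesh _ _ hA.hχ.2 hM2
  · rw [eD, ee, le_div_iff₀ hn0]
    have h1 : c.N ^ (-x.e0) * n ≤ c.N ^ (-x.e0) * (2 * c.N ^ (2 * s)) := mul_le_mul_of_nonneg_left hn2 (hpos _).le
    have h2 : c.N ^ (-x.e0) * (2 * c.N ^ (2 * s)) = 2 * c.N ^ (-x.e0 + 2 * s) := by rw [Real.rpow_add hN0]; ring
    rw [h2] at h1
    exact h1.trans ((k8p_pw hN1 (cst 2 (by norm_num)) (by linarith)).trans hDa)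
  · rw [eh]
    have h1 : K * c.ξ * n ≤ c.N ^ τ' * (2 * c.N ^ (-M.1)) * (2 * c.N ^ (2 * s)) :=
      mul_le_mul (mul_le_mul hK hA.hξ.2.le hA.wf.ξ0.le (hpos _).le) hn2 hn0.le (by have := hpos τ'; have := hpos (-M.1); positivity)
    have h2 : c.N ^ τ' * (2 * c.N ^ (-M.1)) * (2 * c.N ^ (2 * s)) = 4 * c.N ^ (τ' + -M.1 + 2 * s) := by
      rw [Real.rpow_add hN0, Real.rpow_add hN0]; ring
    rw [h2] at h1
    exact h1.trans (k8p_pw hN1 (cst 4 (by norm_num)) (by linarith))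
  · rw [ea, eh]
    have h1 : 1000 * K ^ 6 * c.ξ ≤ 1000 * c.N ^ (τ' * (6 : ℕ)) * (2 * c.N ^ (-M.1)) :=
      mul_le_mul (mul_le_mul_of_nonneg_left (k8p_pow_le hN1 hK0.le hK 6) (by norm_num)) hA.hξ.2.le hA.wf.ξ0.le
        (by have := hpos (τ' * (6 : ℕ)); positivity)
    have h2 : 1000 * c.N ^ (τ' * (6 : ℕ)) * (2 * c.N ^ (-M.1)) = 2000 * c.N ^ (τ' * (6 : ℕ) + -M.1) := by
      rw [Real.rpow_add hN0]; ring
    rw [h2] at h1
    rw [← Real.rpow_add hN0]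
    exact h1.trans (k8p_pw hN1 (cst 2000 (by norm_num)) (by push_cast; linarith))
  · rw [ea, ee]
    have h1 : 100 * K * (c.χ + c.N ^ (-x.e0)) ≤ 100 * c.N ^ τ' * (2 * c.N ^ (-M.2.1) + c.N ^ (-x.e0)) :=
      mul_le_mul (mul_le_mul_of_nonneg_left hK (by norm_num)) (by linarith [hA.hχ.2]) (by have := hA.wf.χ0; have := hpos (-x.e0); positivity)
        (by have := hpos τ'; positivity)
    have h2 : 100 * c.N ^ τ' * (2 * c.N ^ (-M.2.1) + c.N ^ (-x.e0)) = (400 * c.N ^ (τ' + -M.2.1) + 200 * c.N ^ (τ' + -x.e0)) / 2 := by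
      rw [Real.rpow_add hN0, Real.rpow_add hN0]; ring
    rw [h2] at h1
    have h3 : 400 * c.N ^ (τ' + -M.2.1) ≤ c.N ^ (-s) := k8p_pw hN1 (cst 400 (by norm_num)) (by linarith)
    have h4 : 200 * c.N ^ (τ' + -x.e0) ≤ c.N ^ (-s) := k8p_pw hN1 (cst 200 (by norm_num)) (by linarith)
    linarith
  · rw [ea]
    exact hA.hϱ.2.le.trans (k8p_pw hN1 (cst 2 (by norm_num)) (by linarith))

/-! ## The hub -/

/-- **L8.4** `a07:full-time-comparison`: exit of the post BP-252-S8p -/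
theorem k8p_cmp (hM : K8pHM) : K8HCmp := by
  obtain ⟨C, hC⟩ := k8p_cmp_one
  intro x hx _
  obtain ⟨ε, R₀, hε, hub⟩ := hM x.d hx.d0 hx.d1
  refine ⟨min x.R (x.e0 / 4), 3 * (x.e0 / 4) + 2, lt_min hx.R0 (by have := hx.e0; positivity), ?_⟩
  intro u hu0 hu1 s hs0 hsm M hM1 hM2 hM3 τ hτ
  have hsR : s ≤ x.R := (hsm.trans_le (min_le_left _ _)).le
  have hse : s < x.e0 / 4 := hsm.trans_le (min_le_right _ _)
  have he0 := hx.e0
  have hk0 := hx.k0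
  obtain ⟨hx0, hx1⟩ := k8p_two_rpow hε
  have h1x : 0 < 1 - (2 : ℝ) ^ (-ε) := by linarith
  -- the exponents
  obtain ⟨τ', hτ0, hτ1, hτ2, hτ3, hτ4, hτ5, hτ6⟩ : ∃ τ' : ℝ, 0 < τ' ∧ τ' ≤ 1 / 6 ∧ τ' ≤ x.k * s ∧ τ' ≤ s / 8 ∧ τ' ≤ x.e0 / 4 ∧
      τ' * (C + 3 : ℝ) ≤ ε * τ / 4 ∧ τ' * (C + 3 : ℝ) ≤ τ / 4 := by
    have hC3 : (0 : ℝ) < C + 3 := by positivity
    refine ⟨min (1 / 6) (min (x.k * s) (min (s / 8) (min (x.e0 / 4) (min (ε * τ / 4 / (C + 3)) (τ / 4 / (C + 3)))))), ?_, ?_, ?_, ?_, ?_, ?_, ?_⟩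
    · refine lt_min (by norm_num) (lt_min (by positivity) (lt_min (by positivity) (lt_min (by positivity) (lt_min (by positivity) (by positivity)))))
    · exact min_le_left _ _
    · exact (min_le_right _ _).trans (min_le_left _ _)
    · exact (min_le_right _ _).trans ((min_le_right _ _).trans (min_le_left _ _))
    · exact (min_le_right _ _).trans ((min_le_right _ _).trans ((min_le_right _ _).trans (min_le_left _ _)))
    · rw [← le_div_iff₀ hC3]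
      exact (min_le_right _ _).trans ((min_le_right _ _).trans ((min_le_right _ _).trans ((min_le_right _ _).trans (min_le_left _ _))))
    · rw [← le_div_iff₀ hC3]
      exact (min_le_right _ _).trans ((min_le_right _ _).trans ((min_le_right _ _).trans ((min_le_right _ _).trans (min_le_right _ _))))
  obtain ⟨σ, hσ0, hσ1, hσ2, hσ3⟩ : ∃ σ : ℝ, 0 < σ ∧ σ ≤ 1 ∧ σ ≤ x.e0 / 4 ∧ σ ≤ s / 2 :=
    ⟨min 1 (min (x.e0 / 4) (s / 2)), lt_min one_pos (lt_min (by positivity) (by positivity)), min_le_left _ _,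
      (min_le_right _ _).trans (min_le_left _ _), (min_le_right _ _).trans (min_le_right _ _)⟩
  -- the constants
  set A₁ : ℝ := (4000 : ℝ) ^ (1 / σ) with hA₁
  set A₂ : ℝ := (max R₀ 1) ^ (1 / (τ / 2)) with hA₂
  set A₃ : ℝ := (max ((C : ℝ) / (1 - (2 : ℝ) ^ (-ε))) 1) ^ (1 / (ε * τ / 4)) with hA₃
  set A₄ : ℝ := (max (C : ℝ) 16) ^ (1 / (τ / 4)) with hA₄
  refine ⟨{s}, τ', max A₁ (max A₂ (max A₃ A₄)), hτ0, ?_, ?_⟩
  · intro s' hs'
    rw [Finset.mem_singleton] at hs'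
    subst hs'
    exact ⟨hs0.le, hsR⟩
  intro H a c K E hA hI hK hyp
  obtain ⟨hprep, hF⟩ := hyp
  have hN1 : 1 ≤ c.N := hA.wf.N1
  have hN0 : 0 < c.N := by linarith
  have hK1 : 1 ≤ K := hI.K1
  have hK0 : 0 < K := by linarith
  have hpos : ∀ e : ℝ, 0 < c.N ^ e := fun e => Real.rpow_pos_of_pos hN0 e
  have n1 : (4000 : ℝ) ≤ c.N ^ σ := k8_const_le (by norm_num) hσ0 ((le_max_left _ _).trans hA.hN)
  have n2 : max R₀ 1 ≤ c.N ^ (τ / 2) :=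
    k8_const_le (le_max_right _ _) (by positivity) (((le_max_left _ _).trans (le_max_right _ _)).trans hA.hN)
  have n3 : max ((C : ℝ) / (1 - (2 : ℝ) ^ (-ε))) 1 ≤ c.N ^ (ε * τ / 4) :=
    k8_const_le (le_max_right _ _) (by positivity)
      (((le_max_left _ _).trans ((le_max_right _ _).trans (le_max_right _ _))).trans hA.hN)
  have n4 : max (C : ℝ) 16 ≤ c.N ^ (τ / 4) :=
    k8_const_le ((by norm_num : (1 : ℝ) ≤ 16).trans (le_max_right _ _)) (by positivity)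
      (((le_max_right _ _).trans ((le_max_right _ _).trans (le_max_right _ _))).trans hA.hN)
  have hr : K8pRel c K s (c.a s ^ u) ⌈c.N ^ (2 * s)⌉₊ :=
    k8p_rel_ev hA hK1 hK hs0 (Finset.mem_singleton_self s) (by linarith) hu0 hu1 (by linarith) (by linarith) (by linarith)
      hτ1 hτ2 hτ3 hτ4 hσ1 hσ2 hσ3 n1
  have hKC : K ^ C ≤ c.N ^ (τ' * C) := k8p_pow_le hN1 hK0.le hK C
  have hτC : τ' * (C : ℝ) ≤ τ' * (C + 3 : ℝ) := by nlinarith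
  obtain ⟨E', hE', hres, hok, hcmp⟩ := hC x.d ε R₀ hε hub c H K (c.N ^ (τ / 2)) s (c.a s ^ u) _ a.2 E hA.hd hr hI.ok hprep.slopes hF hI.res
    (Real.one_le_rpow hN1 (by positivity)) ((le_max_left _ _).trans n2) (by
      rw [← Real.rpow_mul hN0.le]
      have e1 : (C : ℝ) * K ^ C / (1 - (2 : ℝ) ^ (-ε)) = (C : ℝ) / (1 - (2 : ℝ) ^ (-ε)) * K ^ C := by ring
      rw [e1]
      calc (C : ℝ) / (1 - (2 : ℝ) ^ (-ε)) * K ^ C ≤ (C : ℝ) / (1 - (2 : ℝ) ^ (-ε)) * c.N ^ (τ' * C) :=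
            mul_le_mul_of_nonneg_left hKC (by positivity)
        _ ≤ c.N ^ (τ / 2 * ε) := k8p_pw hN1 ((le_max_left _ _).trans n3) (by nlinarith))
  -- the output slack
  have o1 : 16 * K ^ 3 ≤ c.N ^ τ := by
    calc 16 * K ^ 3 ≤ 16 * c.N ^ (τ' * (3 : ℕ)) := mul_le_mul_of_nonneg_left (k8p_pow_le hN1 hK0.le hK 3) (by norm_num)
      _ ≤ c.N ^ τ := k8p_pw hN1 ((le_max_right _ _).trans n4) (by
          push_cast
          have : τ' * 3 ≤ τ' * (C + 3 : ℝ) := by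
            have : (0 : ℝ) ≤ C := Nat.cast_nonneg _
            nlinarith
          linarith)
  have o0 : 2 * K ≤ c.N ^ τ := by
    have : K ≤ K ^ 3 := by
      calc K = K ^ 1 := (pow_one K).symm
        _ ≤ K ^ 3 := pow_le_pow_right₀ hK1 (by norm_num)
    linarith
  have o2 : (C : ℝ) * K ^ C * c.N ^ (τ / 2) ≤ c.N ^ τ := by
    calc (C : ℝ) * K ^ C * c.N ^ (τ / 2) ≤ (C : ℝ) * c.N ^ (τ' * C) * c.N ^ (τ / 2) :=
          mul_le_mul_of_nonneg_right (mul_le_mul_of_nonneg_left hKC (Nat.cast_nonneg _)) (hpos _).le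
      _ = (C : ℝ) * c.N ^ (τ' * C + τ / 2) := by rw [Real.rpow_add hN0]; ring
      _ ≤ c.N ^ τ := k8p_pw hN1 ((le_max_left _ _).trans n4) (by linarith)
  refine ⟨E', hE', k8_res_mono hres ?_, hprep.mono hA.wf (by linarith) hE', hok.mono hA.wf o1, hcmp.mono hA.wf o2 subset_rfl⟩
  exact one_div_le_one_div_of_le (by positivity) o0

/-- the hub of Sec. 3 in the form consumed here, from `k3c_K4eMatch` (helper172) -/
theorem k8p_hm : K8pHM := by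
  intro d _ hd
  obtain ⟨ε₀, h0, R₀, h⟩ := k3c_K4eMatch 3 d hd
  exact ⟨ε₀, R₀, h0, fun R hR => h d le_rfl ε₀ h0 le_rfl R hR⟩

/-- **L8.4**, no hypothesis -/
theorem k8p_hcmp : K8HCmp := k8p_cmp k8p_hm

end

end Claimed.Agent.R252
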